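import Vale.Agent.P011.H271.PlaceK
import Vale.Agent.P011.H544.HaarDet

/-! # The ring of `S`-integers of a function field is discrete and cocompact (helper271) -/

namespace Vale.Agent.P011.H271

open Polynomial IsDedekindDomain HeightOneSpectrum WithZero
open Vale.Agent.P011.H738

set_option linter.style.haveILetI false
set_option linter.unusedSectionVars false

noncomputable section

variable {k : Type} [Field k]

theorem norm_alg (v : Place k) (x : k) : ‖algebraMap k v.comp x‖ = v.abv x := by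
  change ‖((WithAbs.toAbs v.abv x : WithAbs v.abv) : v.comp)‖ = _
  rw [UniformSpace.Completion.norm_coe]
  rfl

theorem dense_alg (v : Place k) (x : v.comp) {ε : ℝ} (hε : 0 < ε) :
    ∃ a : k, ‖x - algebraMap k v.comp a‖ < ε := by
  obtain ⟨y, hy⟩ := (UniformSpace.Completion.denseRange_coe (α := WithAbs v.abv)).exists_dist_lt x hε
  refine ⟨WithAbs.ofAbs y, ?_⟩
  rw [dist_eq_norm] at hy
  exact hy

theorem isUltra (v : Place k) : IsUltrametricDist v.comp := by
  refine IsUltrametricDist.isUltrametricDist_of_forall_norm_add_le_max_norm fun x y => ?_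
  refine UniformSpace.Completion.induction_on₂ x y ?_ ?_
  · exact isClosed_le (by fun_prop) (by fun_prop)
  · intro a b
    rw [← UniformSpace.Completion.coe_add, UniformSpace.Completion.norm_coe,
      UniformSpace.Completion.norm_coe, UniformSpace.Completion.norm_coe]
    exact v.nonarch (WithAbs.ofAbs a) (WithAbs.ofAbs b)

instance (v : Place k) : IsUltrametricDist v.comp := isUltra v

variable [GFF k]

theorem exists_zpow_lt (v : Place k) {ε : ℝ} (hε : 0 < ε) :
    ∃ n : ℕ, (qq v : ℝ) ^ (-(n : ℤ)) ≤ ε := by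
  have h1 : ((qq v : ℝ)⁻¹) < 1 := inv_lt_one_of_one_lt₀ (one_lt_qq' v)
  obtain ⟨n, hn⟩ := exists_pow_lt_of_lt_one hε h1
  refine ⟨n, ?_⟩
  rw [zpow_neg, zpow_natCast, ← inv_pow]
  exact hn.le

theorem exists_le_pow (v : Place k) (C : ℝ) : ∃ n : ℕ, C ≤ (qq v : ℝ) ^ (n : ℤ) := by
  obtain ⟨n, hn⟩ := pow_unbounded_of_one_lt C (one_lt_qq' v)
  exact ⟨n, by rw [zpow_natCast]; exact hn.le⟩

/-- finitely many representatives of a ball modulo a smaller ball -/
theorem ball_reps (v : Place k) (C : ℝ) {ε : ℝ} (hε : 0 < ε) :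
    ∃ R : Finset k, ∀ x : k, v.abv x ≤ C → ∃ r ∈ R, v.abv (x - r) ≤ ε := by
  classical
  obtain ⟨n, hn⟩ := exists_zpow_lt v hε
  obtain ⟨N, hN⟩ := exists_le_pow v C
  obtain ⟨R, hR⟩ := (toPl v).exists_reps (N + n)
  obtain ⟨z, hz⟩ := (toPl v).exists_val n
  have hz0 : z ≠ 0 := by
    rintro rfl; rw [map_zero] at hz; exact exp_ne_zero hz.symm
  refine ⟨R.image fun r => z⁻¹ * r, fun x hx => ?_⟩
  have h1 : (toPl v).v (z * x) ≤ exp ((N + n : ℕ) : ℤ) := by
    rw [map_mul, hz]
    calc exp (n : ℤ) * (toPl v).v x ≤ exp (n : ℤ) * exp (N : ℤ) := by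
          refine mul_le_mul' le_rfl ((toPl_le v x N).2 (hx.trans hN))
      _ = _ := by rw [← exp_add]; congr 1; push_cast; ring
  obtain ⟨r, hr, hr2⟩ := hR _ h1
  refine ⟨z⁻¹ * r, Finset.mem_image_of_mem _ hr, ?_⟩
  have h2 : (toPl v).v (x - z⁻¹ * r) ≤ exp (-(n : ℤ)) := by
    have e1 : x - z⁻¹ * r = z⁻¹ * (z * x - r) := by field_simp
    rw [e1, map_mul, map_inv₀, hz, ← exp_neg]
    calc _ ≤ exp (-(n : ℤ)) * 1 := mul_le_mul' le_rfl hr2
      _ = _ := mul_one _
  exact ((toPl_le v _ _).1 h2).trans hn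

instance instProper (v : Place k) : ProperSpace v.comp := by
  refine ProperSpace.of_isCompact_closedBall_of_le 0 fun x r _ => ?_
  refine TotallyBounded.isCompact_of_isClosed ?_ Metric.isClosed_closedBall
  rw [Metric.totallyBounded_iff]
  intro ε hε
  obtain ⟨R, hR⟩ := ball_reps v (‖x‖ + r + 1) (half_pos hε)
  refine ⟨(R : Set k).image (algebraMap k v.comp), R.finite_toSet.image _, fun y hy => ?_⟩
  obtain ⟨a, ha⟩ := dense_alg v y (lt_min one_pos (half_pos hε))
  have h1 : v.abv a ≤ ‖x‖ + r + 1 := by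
    rw [← norm_alg]
    have h2 : ‖y‖ ≤ ‖x‖ + r := by
      rw [mem_closedBall_iff_norm] at hy
      calc ‖y‖ = ‖x + (y - x)‖ := by congr 1; ring
        _ ≤ ‖x‖ + ‖y - x‖ := norm_add_le _ _
        _ ≤ ‖x‖ + r := by gcongr
    calc ‖algebraMap k v.comp a‖ = ‖y - (y - algebraMap k v.comp a)‖ := by congr 1; ring
      _ ≤ ‖y‖ + ‖y - algebraMap k v.comp a‖ := norm_sub_le _ _
      _ ≤ (‖x‖ + r) + 1 := add_le_add h2 (ha.le.trans (min_le_left _ _))
  obtain ⟨s, hs, hs2⟩ := hR a h1
  simp only [Set.mem_iUnion]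
  refine ⟨algebraMap k v.comp s, ⟨s, hs, rfl⟩, ?_⟩
  rw [Metric.mem_ball, dist_eq_norm]
  have h3 : ‖algebraMap k v.comp a - algebraMap k v.comp s‖ ≤ ε / 2 := by
    rw [← map_sub, norm_alg]; exact hs2
  calc ‖y - algebraMap k v.comp s‖
      = ‖(y - algebraMap k v.comp a) + (algebraMap k v.comp a - algebraMap k v.comp s)‖ := by
        congr 1; ring
    _ ≤ _ := norm_add_le _ _
    _ < ε / 2 + ε / 2 := add_lt_add_of_lt_of_le (ha.trans_le (min_le_right _ _)) h3
    _ = ε := by ring

/-- finitely many zeros and poles -/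
theorem place_finite {x : k} (hx : x ≠ 0) : {v : Place k | v.abv x ≠ 1}.Finite := by
  refine Set.Finite.of_finite_image (f := toPl) ((finite_ne_one hx).subset ?_)
    toPl_injective.injOn
  rintro _ ⟨v, hv, rfl⟩
  change (toPl v).v x ≠ 1
  intro h
  apply hv
  rw [toPl_v, plV_ne v hx, ← exp_zero, exp_inj] at h
  rw [ml_spec v hx, h, zpow_zero]

/-- strong approximation in the letters of places -/
theorem place_strong (q : Place k) (T : Finset (Place k)) (hq : q ∉ T) {ε : ℝ} (hε : 0 < ε) :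
    ∃ C : ℝ, ∀ x : Place k → k, {v : Place k | 1 < v.abv (x v)}.Finite → ∃ y : k,
      (∀ v ∈ T, v.abv (x v - y) ≤ ε) ∧ (∀ v : Place k, v ≠ q → v.abv (x v - y) ≤ 1) ∧
        q.abv (x q - y) ≤ C := by
  classical
  have hn : ∃ n : ℕ, ∀ v ∈ T, (qq v : ℝ) ^ (-(n : ℤ)) ≤ ε := by
    choose n hn using fun v : Place k => exists_zpow_lt v hε
    refine ⟨∑ v ∈ T, n v, fun v hv => le_trans ?_ (hn v)⟩
    refine zpow_le_zpow_right₀ (one_lt_qq' v).le ?_
    rw [neg_le_neg_iff]
    exact_mod_cast Finset.single_le_sum (f := n) (fun _ _ => Nat.zero_le _) hv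
  obtain ⟨n, hn⟩ := hn
  obtain ⟨N, hN⟩ := strong_approx (toPl q) (T.image toPl) (by
    intro h
    obtain ⟨v, hv, hvq⟩ := Finset.mem_image.1 h
    exact hq (toPl_injective hvq ▸ hv)) n
  refine ⟨(qq q : ℝ) ^ (N : ℤ), fun x hx => ?_⟩
  let inv : Pl k → Place k := Function.surjInv toPl_surjective
  have hinv : ∀ v : Place k, inv (toPl v) = v := fun v =>
    toPl_injective (Function.surjInv_eq toPl_surjective (toPl v))
  have hrep : IsRep (fun V => x (inv V)) := by
    refine (hx.image toPl).subset ?_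
    intro V hV
    obtain ⟨v, rfl⟩ := toPl_surjective V
    refine ⟨v, ?_, rfl⟩
    change 1 < (toPl v).v (x (inv (toPl v))) at hV
    rw [hinv] at hV
    by_contra hcon
    exact absurd ((toPl_le_one v _).2 (not_lt.1 hcon)) (not_le.2 hV)
  obtain ⟨y, hy1, hy2, hy3⟩ := hN _ hrep
  refine ⟨y, fun v hv => ?_, fun v hv => ?_, ?_⟩
  · have := hy1 (toPl v) (Finset.mem_image_of_mem _ hv)
    simp only [hinv] at this
    exact ((toPl_le v _ _).1 this).trans (hn v hv)
  · have := hy2 (toPl v) (fun h => hv (toPl_injective h))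
    simp only [hinv] at this
    exact (toPl_le_one v _).1 this
  · simp only [hinv] at hy3
    exact (toPl_le q _ _).1 hy3

/-- finiteness in the letters of places -/
theorem place_finite_le (c : Place k → ℝ) (hc : {v | 1 < c v}.Finite) :
    {x : k | ∀ v : Place k, v.abv x ≤ c v}.Finite := by
  classical
  choose n hn using fun v : Place k => exists_le_pow v (c v)
  let inv : Pl k → Place k := Function.surjInv toPl_surjective
  have hinv : ∀ v : Place k, inv (toPl v) = v := fun v =>
    toPl_injective (Function.surjInv_eq toPl_surjective (toPl v))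
  let D : Pl k → ℕ := fun V => if 1 < c (inv V) then n (inv V) else 0
  refine (finite_le D ((hc.image toPl).subset ?_)).subset ?_
  · intro V hV
    obtain ⟨v, rfl⟩ := toPl_surjective V
    refine ⟨v, ?_, rfl⟩
    by_contra hcon
    have hcon' : ¬ 1 < c (inv (toPl v)) := by rw [hinv]; exact hcon
    exact hV (if_neg hcon')
  · intro x hx V
    obtain ⟨v, rfl⟩ := toPl_surjective V
    simp only [D, hinv]
    by_cases h : 1 < c v
    · rw [if_pos h, toPl_le]
      exact (hx v).trans (hn v)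
    · rw [if_neg h, toPl_le, Nat.cast_zero, zpow_zero]
      exact (hx v).trans (not_lt.1 h)

section KS

variable (S : Finset (Place k))

/-- `k_S` -/
abbrev KSF : Type := ∀ v : S, (v : Place k).comp

/-- the ring of `S`-integers -/
def OSF : Subring k where
  carrier := {x | ∀ v : Place k, v ∉ S → v.abv x ≤ 1}
  mul_mem' := by
    intro x y hx hy v hv
    rw [map_mul]
    exact mul_le_one₀ (hx v hv) (v.abv.nonneg y) (hy v hv)
  one_mem' := by
    intro v _
    rw [map_one]
  add_mem' := by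
    intro x y hx hy v hv
    exact (v.nonarch x y).trans (max_le (hx v hv) (hy v hv))
  zero_mem' := by
    intro v _
    rw [map_zero]; exact zero_le_one
  neg_mem' := by
    intro x hx v hv
    rw [v.abv.map_neg]
    exact hx v hv

theorem mem_OSF {x : k} : x ∈ OSF S ↔ ∀ v : Place k, v ∉ S → v.abv x ≤ 1 := Iff.rfl

theorem KSF_detOne : H544.DetOne (KSF S) := by
  refine H544.DetOne.pi fun v => H544.DetOne.field ?_
  obtain ⟨x, hx⟩ := (v : Place k).normalized.2.1
  refine ⟨algebraMap k _ x, ?_, ?_⟩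
  · intro h
    have h1 := norm_alg (v : Place k) x
    rw [h, norm_zero, hx] at h1
    exact (qq_pos (v : Place k)).ne h1
  · intro h
    have h1 := norm_alg (v : Place k) x
    rw [h, norm_one, hx] at h1
    exact (one_lt_qq' (v : Place k)).ne h1

instance : LocallyCompactSpace (KSF S) := inferInstance
instance : T2Space (KSF S) := inferInstance

variable {S}

theorem KSF_nontrivial (hS : S.Nonempty) : Nontrivial (KSF S) := by
  obtain ⟨v, hv⟩ := hS
  exact Pi.nontrivial_at (⟨v, hv⟩ : S)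

theorem KSF_noncompact (hS : S.Nonempty) : NoncompactSpace (KSF S) := by
  obtain ⟨v, hv⟩ := hS
  refine not_compactSpace_iff.1 fun h => ?_
  have h1 : IsCompact (Set.range fun x : KSF S => ‖x ⟨v, hv⟩‖) :=
    isCompact_range (by fun_prop)
  obtain ⟨B, hB⟩ := h1.bddAbove
  obtain ⟨n, hn⟩ := exists_le_pow v (B + 1)
  obtain ⟨x, hx⟩ := v.normalized.2.1
  have hx' : v.abv x = qq v := hx
  have h2 : ‖(algebraMap k (KSF S) (x ^ n)) ⟨v, hv⟩‖ ≤ B := hB ⟨_, rfl⟩
  have h3 : (algebraMap k (KSF S) (x ^ n)) ⟨v, hv⟩ = algebraMap k v.comp (x ^ n) := rfl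
  rw [h3, norm_alg, map_pow, hx', ← zpow_natCast] at h2
  linarith

/-- **Cocompactness of the `S`-integers.** -/
theorem OSF_coc (hS : S.Nonempty) : ∃ K : Set (KSF S), IsCompact K ∧
    ∀ r : KSF S, ∃ c ∈ OSF S, r - algebraMap k (KSF S) c ∈ K := by
  classical
  obtain ⟨q, hq⟩ := hS
  obtain ⟨C, hC⟩ := place_strong q ∅ (by simp) one_pos
  refine ⟨Set.pi Set.univ fun v : S => Metric.closedBall (0 : (v : Place k).comp) (max 1 C),
    isCompact_univ_pi fun v => isCompact_closedBall _ _, fun r => ?_⟩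
  choose a ha using fun v : S => dense_alg (v : Place k) (r v) one_pos
  obtain ⟨y, -, hy2, hy3⟩ := hC (fun v => if h : v ∈ S then a ⟨v, h⟩ else 0) (by
    refine S.finite_toSet.subset ?_
    intro v hv
    by_contra hcon
    change 1 < v.abv (if h : v ∈ S then a ⟨v, h⟩ else 0) at hv
    rw [dif_neg (fun h => hcon (Finset.mem_coe.2 h)), map_zero] at hv
    exact absurd hv (not_lt.2 zero_le_one))
  refine ⟨y, fun v hv => ?_, ?_⟩
  · have := hy2 v (fun h => hv (h ▸ hq))
    rw [dif_neg hv, zero_sub, v.abv.map_neg] at this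
    exact this
  · rw [Set.mem_univ_pi]
    intro v
    rw [mem_closedBall_zero_iff]
    have h1 : (r - algebraMap k (KSF S) y) v = (r v - algebraMap k (v : Place k).comp (a v)) +
        algebraMap k (v : Place k).comp (a v - y) := by
      have h2 : (r - algebraMap k (KSF S) y) v = r v - algebraMap k (v : Place k).comp y := rfl
      rw [h2, map_sub]; ring
    rw [h1]
    refine (IsUltrametricDist.norm_add_le_max _ _).trans (max_le ?_ ?_)
    · exact (ha v).le.trans (le_max_left _ _)
    · rw [norm_alg]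
      by_cases h : (v : Place k) = q
      · obtain ⟨v, hv⟩ := v
        simp only at h
        subst h
        rw [dif_pos hv] at hy3
        exact hy3.trans (le_max_right _ _)
      · have := hy2 v h
        rw [dif_pos v.2] at this
        exact this.trans (le_max_left _ _)

/-- **Discreteness of the `S`-integers.** -/
theorem OSF_disc (K : Set (KSF S)) (hK : IsCompact K) :
    {c : k | c ∈ OSF S ∧ algebraMap k (KSF S) c ∈ K}.Finite := by
  classical
  have hB : ∀ v : S, ∃ B : ℝ, ∀ x ∈ K, ‖x v‖ ≤ B := by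
    intro v
    obtain ⟨B, hB⟩ := (hK.image (f := fun x : KSF S => ‖x v‖) (by fun_prop)).bddAbove
    exact ⟨B, fun x hx => hB ⟨x, hx, rfl⟩⟩
  choose B hB using hB
  refine (place_finite_le (fun v => if h : v ∈ S then B ⟨v, h⟩ else 1) ?_).subset ?_
  · refine S.finite_toSet.subset ?_
    intro v hv
    by_contra hcon
    change 1 < (if h : v ∈ S then B ⟨v, h⟩ else 1) at hv
    rw [dif_neg (fun h => hcon (Finset.mem_coe.2 h))] at hv
    exact absurd hv (lt_irrefl _)
  · rintro c ⟨hc, hcK⟩ v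
    by_cases h : v ∈ S
    · rw [dif_pos h, ← norm_alg]
      exact hB ⟨v, h⟩ _ hcK
    · rw [dif_neg h]
      exact hc v h

/-- denominators -/
theorem OSF_den (hS : S.Nonempty) (x : k) : ∃ d ∈ OSF S, d ≠ 0 ∧ d * x ∈ OSF S := by
  classical
  obtain ⟨q, hq⟩ := hS
  by_cases hx : x = 0
  · exact ⟨1, Subring.one_mem _, one_ne_zero, by rw [hx, mul_zero]; exact Subring.zero_mem _⟩
  have hfin := place_finite hx
  obtain ⟨N, hN⟩ := exists_bound (k := k) x
  obtain ⟨g, hg0, hg1, hg2⟩ := exists_small (toPl q) ((hfin.toFinset.erase q).image toPl) (by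
    intro h
    obtain ⟨v, hv, hvq⟩ := Finset.mem_image.1 h
    exact (Finset.mem_erase.1 hv).1 (toPl_injective hvq)) N
  refine ⟨g, fun v hv => ?_, hg0, fun v hv => ?_⟩
  · exact (toPl_le_one v g).1 (hg1 _ fun h => hv (toPl_injective h ▸ hq))
  · have hvq : v ≠ q := fun h => hv (h ▸ hq)
    rw [← toPl_le_one, map_mul]
    by_cases h : v.abv x = 1
    · refine mul_le_one' (hg1 _ fun h => hvq (toPl_injective h)) ?_
      rw [toPl_le_one, h]
    · calc _ ≤ exp (-(N : ℤ)) * exp (N : ℤ) := mul_le_mul' (hg2 _ (Finset.mem_image_of_mem _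
            (Finset.mem_erase.2 ⟨hvq, hfin.mem_toFinset.2 h⟩))) (hN _)
        _ = 1 := by rw [← exp_add, ← exp_zero]; congr 1; ring

end KS

end

end Vale.Agent.P011.H271
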