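import Vale.Agent.P011.H966.MobGood
import Vale.Agent.P011.H699.ModCont
import Vale.Agent.P011.H21.OneStep

/-!
# The permutations `T w v`, `W w e`, `Lm u` are good, in every characteristic (helper271)

`A` any anisotropic ring with involution over `K`, `w : K` with `w* ≠ w`, the letters of
`H21/Mob.lean`.
-/

set_option linter.unusedSectionVars false
set_option linter.unusedSimpArgs false

namespace Vale.Agent.P011.H271.LetW

open MeasureTheory Filter Topology Set
open scoped NNReal

open Vale.Agent.P011.H699 (colon den mem_colon colon_le LRing Latt index_mul_mod)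
open Vale.Agent.P011.H966 Vale.Agent.P011.H21

/-! ### Moebius permutations of the unitary group of a ring -/

section Ring

variable {E : Type*} [Ring E] [StarRing E] [TopologicalSpace E] [IsTopologicalRing E] [T2Space E]
  [LocallyCompactSpace E] {Λ : Subring E}
  {A : Type*} [Ring A] {U : Subgroup Aˣ}

/-- **Moebius permutations with entries in the order are good at every point** (any ring). -/
theorem good_of_mob' (hE : UTop E) (hmod : Continuous fun u : Eˣ => distribHaarChar E u)
    (hΛ : LRing Λ) (j : A →+* E) (pos : U → unitary E)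
    (hpos : ∀ y : U, ((pos y : unitary E) : E) = j ((y : Aˣ) : A))
    (hden : ∀ y : U, den Λ (j ((y : Aˣ) : A)) ≠ 0)
    {a b c e a' b' c' e' : A} (H : Inv2 a b c e a' b' c' e') (H' : Inv2 a' b' c' e' a b c e)
    (hM : UM (j a) (j b) (j c) (j e)) (hM' : UM (j a') (j b') (j c') (j e'))
    (hm : ∀ x ∈ ({a, b, c, e, a', b', c', e'} : Set A), j x ∈ Λ)
    (h : Equiv.Perm U) (hh : ∀ y : U, IsUnit (a + b * ((y : Aˣ) : A)) ∧
      (((h y : U) : Aˣ) : A) * (a + b * ((y : Aˣ) : A)) = c + e * ((y : Aˣ) : A)) (y : U) :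
    Good pos (fun y : U => (den Λ (j ((y : Aˣ) : A)) : ℝ)) h y := by
  have hq : ∀ y : U, IsUnit (c + e * ((y : Aˣ) : A)) := by
    intro y
    rw [← (hh y).2]
    exact ((h y : U) : Aˣ).isUnit.mul (hh y).1
  have hju : ∀ x : A, IsUnit x → IsUnit (j x) := fun x hx => hx.map j
  have hsrc : ∀ y : U, pos y ∈ src (j a) (j b) (j c) (j e) := by
    intro y
    refine ⟨?_, ?_⟩
    · rw [hpos, ← map_mul, ← map_add]
      exact hju _ (hh y).1
    · rw [hpos, ← map_mul, ← map_add]
      exact hju _ (hq y)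
  have hmul : ∀ y : U, (((h y : U) : Aˣ) : A) * (a + b * ((y : Aˣ) : A))
      = c + e * ((y : Aˣ) : A) := fun y => (hh y).2
  refine ⟨mobH hE hM hM' (H.map j) (H'.map j),
    fun g => modR (j a + j b * (g : E)), hsrc y, ?_, ?_, ?_, ?_⟩
  · refine (continuousOn_modR hE hmod).comp ?_ fun g hg => hg.1
    exact (continuous_const.add (continuous_const.mul continuous_subtype_val)).continuousOn
  · intro g hg
    exact modR_pos hg.1
  · intro z hz
    refine ⟨?_, ?_⟩
    · apply Subtype.ext
      change ((pos (h z) : unitary E) : E) = ((mobU hM (pos z) : unitary E) : E)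
      rw [mobU_coe hM hz, hpos, mobE]
      have h1 : j (((h z : U) : Aˣ) : A) * (j a + j b * (pos z : E))
          = j c + j e * (pos z : E) := by
        rw [hpos, ← map_mul, ← map_add, ← map_mul, ← map_mul, ← map_add, hmul]
      rw [← h1, mul_assoc, Ring.mul_inverse_cancel _ hz.1, mul_one]
    · obtain ⟨d, hd⟩ := hz.1
      simp only
      rw [← hd, modR_unit]
      rw [hpos] at hd
      refine den_mob hΛ (H.map j) (hm a (by simp)) (hm b (by simp)) (hm c (by simp))
        (hm e (by simp)) (hm a' (by simp)) (hm b' (by simp)) (hm c' (by simp)) (hm e' (by simp))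
        (hden z) (hden (h z)) d hd ?_
      rw [hd, ← map_mul, ← map_add, ← map_mul, ← map_mul, ← map_add, hmul]
  · intro z _
    exact hsrc _

end Ring

/-! ### the matrices of the letters -/

section Mat

variable {K A : Type*} [Field K] [StarRing K] [Ring A] [StarRing A] [Algebra K A] [StarModule K A]

/-- `UM` from `Pres`. -/
theorem um_of_pres {E : Type*} [Ring E] [StarRing E] {j : A →+* E}
    (hjs : ∀ x, j (star x) = star (j x))
    (hjc : ∀ (c : K) (y : E), j (algebraMap K A c) * y = y * j (algebraMap K A c))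
    {a b c e : A} {m : K} (h : Pres a b c e m) : UM (j a) (j b) (j c) (j e) where
  lam := by
    refine ⟨j (m • (1 : A)), ?_, ?_, ?_⟩
    · intro x
      rw [← Algebra.algebraMap_eq_smul_one]
      exact hjc m x
    · rw [← h.h1, ← hjs, ← hjs, ← map_mul, ← map_mul, ← map_add]
      congr 1
      abel
    · rw [← h.h2, ← hjs, ← hjs, ← map_mul, ← map_mul, ← map_add]
      congr 1
      abel
  cross := by rw [← hjs, ← hjs, ← map_mul, ← map_mul, h.h3]

theorem pres_smul {a b c e : A} {m : K} (h : Pres a b c e m) {z : K} (hz : z ≠ 0) :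
    Pres (z • a) (z • b) (z • c) (z • e) (star z * z * m) where
  h1 := by
    rw [star_smul, star_smul, smul_mul_smul_comm, smul_mul_smul_comm, ← smul_sub, h.h1, smul_smul]
  h2 := by
    rw [star_smul, star_smul, smul_mul_smul_comm, smul_mul_smul_comm, ← smul_sub, h.h2, smul_smul]
  h3 := by
    rw [star_smul, star_smul, smul_mul_smul_comm, smul_mul_smul_comm, h.h3]
  hm := mul_ne_zero (mul_ne_zero (star_ne_zero.mpr hz) hz) h.hm

/-- The scalar `(w - w*)⁻²`. -/
noncomputable def zz (w : K) : K := (eta w ^ 2)⁻¹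

theorem zz_ne {w : K} (hw : star w ≠ w) : zz w ≠ 0 := inv_ne_zero (pow_ne_zero 2 (eta_ne hw))

theorem zz_mul {w : K} (hw : star w ≠ w) : zz w * eta w ^ 2 = 1 :=
  inv_mul_cancel₀ (pow_ne_zero 2 (eta_ne hw))

theorem inv2_of_mul {w : K} (hw : star w ≠ w) {a b c e a' b' c' e' : A}
    (h1 : a' * a + b' * c = eta w ^ 2 • (1 : A)) (h2 : a' * b + b' * e = 0)
    (h3 : c' * a + e' * c = 0) (h4 : c' * b + e' * e = eta w ^ 2 • (1 : A)) :
    Inv2 a b c e (zz w • a') (zz w • b') (zz w • c') (zz w • e') where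
  aa := by rw [smul_mul_assoc, smul_mul_assoc, ← smul_add, h1, smul_smul, zz_mul hw, one_smul]
  ab := by rw [smul_mul_assoc, smul_mul_assoc, ← smul_add, h2, smul_zero]
  ba := by rw [smul_mul_assoc, smul_mul_assoc, ← smul_add, h3, smul_zero]
  bb := by rw [smul_mul_assoc, smul_mul_assoc, ← smul_add, h4, smul_smul, zz_mul hw, one_smul]

theorem inv2_of_mul' {w : K} (hw : star w ≠ w) {a b c e a' b' c' e' : A}
    (h1 : a' * a + b' * c = eta w ^ 2 • (1 : A)) (h2 : a' * b + b' * e = 0)
    (h3 : c' * a + e' * c = 0) (h4 : c' * b + e' * e = eta w ^ 2 • (1 : A)) :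
    Inv2 (zz w • a) (zz w • b) (zz w • c) (zz w • e) a' b' c' e' where
  aa := by rw [mul_smul_comm, mul_smul_comm, ← smul_add, h1, smul_smul, zz_mul hw, one_smul]
  ab := by rw [mul_smul_comm, mul_smul_comm, ← smul_add, h2, smul_zero]
  ba := by rw [mul_smul_comm, mul_smul_comm, ← smul_add, h3, smul_zero]
  bb := by rw [mul_smul_comm, mul_smul_comm, ← smul_add, h4, smul_smul, zz_mul hw, one_smul]

theorem T_aa (w : K) (v : A) : (eta w • (1 : A) - -v) * (eta w • (1 : A) - v) + -v * -v =
    eta w ^ 2 • (1 : A) := by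
  simp only [mul_add, add_mul, mul_sub, sub_mul, smul_mul_assoc, mul_smul_comm, one_mul, mul_one,
    mul_neg, neg_mul]
  module

theorem T_ab (w : K) (v : A) : (eta w • (1 : A) - -v) * v + -v * (eta w • (1 : A) + v) = 0 := by
  simp only [mul_add, add_mul, mul_sub, sub_mul, smul_mul_assoc, mul_smul_comm, one_mul, mul_one,
    mul_neg, neg_mul]
  module

theorem T_ba (w : K) (v : A) : - -v * (eta w • (1 : A) - v) + (eta w • (1 : A) + -v) * -v = 0 := by
  simp only [mul_add, add_mul, mul_sub, sub_mul, smul_mul_assoc, mul_smul_comm, one_mul, mul_one,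
    mul_neg, neg_mul]
  module

theorem T_bb (w : K) (v : A) : - -v * v + (eta w • (1 : A) + -v) * (eta w • (1 : A) + v) =
    eta w ^ 2 • (1 : A) := by
  simp only [mul_add, add_mul, mul_sub, sub_mul, smul_mul_assoc, mul_smul_comm, one_mul, mul_one,
    mul_neg, neg_mul]
  module

section W

variable (w : K) {e f e' f' : A} (h1 : e' * e = 1) (h2 : f' * f = 1)

include h1 h2

theorem W_aa : (w • e' - star w • f') * (w • e - star w • f) +
    (star w • f' - star w • e') * (w • e - w • f) = eta w ^ 2 • (1 : A) := by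
  simp only [mul_add, add_mul, mul_sub, sub_mul, smul_mul_assoc, mul_smul_comm, h1, h2, eta,
    smul_sub, smul_smul]
  module

theorem W_ab : (w • e' - star w • f') * (star w • f - star w • e) +
    (star w • f' - star w • e') * (w • f - star w • e) = 0 := by
  simp only [mul_add, add_mul, mul_sub, sub_mul, smul_mul_assoc, mul_smul_comm, h1, h2, eta,
    smul_sub, smul_smul]
  module

theorem W_ba : (w • e' - w • f') * (w • e - star w • f) +
    (w • f' - star w • e') * (w • e - w • f) = 0 := by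
  simp only [mul_add, add_mul, mul_sub, sub_mul, smul_mul_assoc, mul_smul_comm, h1, h2, eta,
    smul_sub, smul_smul]
  module

theorem W_bb : (w • e' - w • f') * (star w • f - star w • e) +
    (w • f' - star w • e') * (w • f - star w • e) = eta w ^ 2 • (1 : A) := by
  simp only [mul_add, add_mul, mul_sub, sub_mul, smul_mul_assoc, mul_smul_comm, h1, h2, eta,
    smul_sub, smul_smul]
  module

end W

end Mat

/-! ### the letters are good -/

section Letters

variable {K A : Type*} [Field K] [StarRing K] [Ring A] [StarRing A] [Algebra K A] [StarModule K A]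
  {E : Type*} [Ring E] [StarRing E] [TopologicalSpace E] [IsTopologicalRing E] [T2Space E]
  [LocallyCompactSpace E] {Λ : Subring E}

/-- The data of a model `j : A → E` of the completion with an order `Λ` in `E`. -/
structure Mod (K : Type*) {A E : Type*} [Field K] [StarRing K] [Ring A] [StarRing A] [Algebra K A]
    [Ring E] [StarRing E] [TopologicalSpace E] [IsTopologicalRing E] [T2Space E]
    [LocallyCompactSpace E] (Λ : Subring E) (j : A →+* E) (pos : UA A → unitary E) : Prop where
  top : UTop E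
  lring : LRing Λ
  j_star : ∀ x, j (star x) = star (j x)
  j_cen : ∀ (c : K) (y : E), j (algebraMap K A c) * y = y * j (algebraMap K A c)
  coe_pos : ∀ y : UA A, ((pos y : unitary E) : E) = j ((y : Aˣ) : A)
  den_ne : ∀ y : UA A, den Λ (j ((y : Aˣ) : A)) ≠ 0

variable {j : A →+* E} {pos : UA A → unitary E} (M : Mod K Λ j pos) {Lam : Subring A}
  (hL : ∀ x ∈ Lam, j x ∈ Λ) (hA : AnisR A) {w : K} (hw : star w ≠ w)

include M hL hA hw

theorem good_T {v : A} (hv : star v = v) (hvL : v ∈ Lam) (hη : eta w • (1 : A) ∈ Lam)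
    (hz : zz w • (1 : A) ∈ Lam) (y : UA A) :
    Good pos (fun y : UA A => (den Λ (j ((y : Aˣ) : A)) : ℝ)) (T w v) y := by
  have hv' : star (-v) = -v := by rw [star_neg, hv]
  have hs : ∀ x ∈ Lam, zz w • x ∈ Lam := by
    intro x hx
    have := Lam.mul_mem hz hx
    rwa [smul_mul_assoc, one_mul] at this
  have hH := inv2_of_mul hw (T_aa w v) (T_ab w v) (T_ba w v) (T_bb w v)
  have hH' := inv2_of_mul' hw (a := eta w • (1 : A) - -v) (b := -v) (c := - -v)
    (e := eta w • (1 : A) + -v) (a' := eta w • (1 : A) - v) (b' := v) (c' := -v)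
    (e' := eta w • (1 : A) + v) (by simpa only [neg_neg] using T_aa w (-v))
    (by simpa only [neg_neg] using T_ab w (-v)) (by simpa only [neg_neg] using T_ba w (-v))
    (by simpa only [neg_neg] using T_bb w (-v))
  refine good_of_mob' M.top H699.continuous_distribHaarChar M.lring j pos M.coe_pos M.den_ne
    hH hH' (um_of_pres M.j_star M.j_cen (presT hw hv))
    (um_of_pres M.j_star M.j_cen (pres_smul (presT hw hv') (zz_ne hw))) ?_ (T w v)
    (fun y => ⟨T_den_unit hA hw hv y, T_spec hA hw hv y⟩) y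
  have hn : -v ∈ Lam := Lam.neg_mem hvL
  have hnn : - -v ∈ Lam := Lam.neg_mem hn
  rintro x hx
  simp only [mem_insert_iff, mem_singleton_iff] at hx
  apply hL
  rcases hx with rfl | rfl | rfl | rfl | rfl | rfl | rfl | rfl
  · exact Lam.sub_mem hη hvL
  · exact hvL
  · exact hn
  · exact Lam.add_mem hη hvL
  · exact hs _ (Lam.sub_mem hη hn)
  · exact hs _ hn
  · exact hs _ hnn
  · exact hs _ (Lam.add_mem hη hn)

theorem good_W {e : Aˣ} (he : (e : A) ∈ Lam) (he' : ((e⁻¹ : Aˣ) : A) ∈ Lam)
    (hst : ∀ x ∈ Lam, star x ∈ Lam)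
    (hwL : w • (1 : A) ∈ Lam) (hz : zz w • (1 : A) ∈ Lam) (y : UA A) :
    Good pos (fun y : UA A => (den Λ (j ((y : Aˣ) : A)) : ℝ)) (W w e) y := by
  have hs : ∀ x ∈ Lam, zz w • x ∈ Lam := by
    intro x hx
    have := Lam.mul_mem hz hx
    rwa [smul_mul_assoc, one_mul] at this
  have hs1 : ∀ x ∈ Lam, w • x ∈ Lam := by
    intro x hx
    have := Lam.mul_mem hwL hx
    rwa [smul_mul_assoc, one_mul] at this
  have hs2 : ∀ x ∈ Lam, star w • x ∈ Lam := by
    intro x hx
    have h1 := hst _ (hs1 _ (hst _ hx))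
    rwa [star_smul, star_star] at h1
  have hf : ci e ∈ Lam := hst _ he'
  have hf' : ci e⁻¹ ∈ Lam := by
    rw [ci, inv_inv]
    exact hst _ he
  have e1 : ((e⁻¹ : Aˣ) : A) * (e : A) = 1 := Units.inv_mul e
  have e2 : ci e⁻¹ * ci e = 1 := by rw [← ci_mul, inv_mul_cancel, ci_one]
  have e3 : (e : A) * ((e⁻¹ : Aˣ) : A) = 1 := Units.mul_inv e
  have e4 : ci e * ci e⁻¹ = 1 := by rw [← ci_mul, mul_inv_cancel, ci_one]
  have hH := inv2_of_mul hw (W_aa w e1 e2) (W_ab w e1 e2) (W_ba w e1 e2) (W_bb w e1 e2)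
  have hH' := inv2_of_mul' hw (W_aa w e3 e4) (W_ab w e3 e4) (W_ba w e3 e4) (W_bb w e3 e4)
  refine good_of_mob' M.top H699.continuous_distribHaarChar M.lring j pos M.coe_pos M.den_ne
    hH hH' (um_of_pres M.j_star M.j_cen (presW hw e))
    (um_of_pres M.j_star M.j_cen (pres_smul (presW hw e⁻¹) (zz_ne hw))) ?_ (W w e)
    (fun y => ⟨W_den_unit hA hw e y, W_spec hA hw e y⟩) y
  rintro x hx
  simp only [mem_insert_iff, mem_singleton_iff] at hx
  apply hL
  rcases hx with rfl | rfl | rfl | rfl | rfl | rfl | rfl | rfl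
  · exact Lam.sub_mem (hs1 _ he) (hs2 _ hf)
  · exact Lam.sub_mem (hs2 _ hf) (hs2 _ he)
  · exact Lam.sub_mem (hs1 _ he) (hs1 _ hf)
  · exact Lam.sub_mem (hs1 _ hf) (hs2 _ he)
  · exact hs _ (Lam.sub_mem (hs1 _ he') (hs2 _ hf'))
  · exact hs _ (Lam.sub_mem (hs2 _ hf') (hs2 _ he'))
  · exact hs _ (Lam.sub_mem (hs1 _ he') (hs1 _ hf'))
  · exact hs _ (Lam.sub_mem (hs1 _ hf') (hs2 _ he'))

omit hA hw in
theorem good_L (u : UA A) (huL : ((u : Aˣ) : A) ∈ Lam) (hst : ∀ x ∈ Lam, star x ∈ Lam)
    (y : UA A) :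
    Good pos (fun y : UA A => (den Λ (j ((y : Aˣ) : A)) : ℝ)) (Lm u) y := by
  have hu1 : ((u : Aˣ) : A) * star ((u : Aˣ) : A) = 1 := UA_mul_star u
  have hu2 : star ((u : Aˣ) : A) * ((u : Aˣ) : A) = 1 := UA_star_mul u
  have hH : Inv2 (1 : A) 0 0 ((u : Aˣ) : A) 1 0 0 (star ((u : Aˣ) : A)) :=
    ⟨by simp, by simp, by simp, by simp [hu2]⟩
  have hH' : Inv2 (1 : A) 0 0 (star ((u : Aˣ) : A)) 1 0 0 ((u : Aˣ) : A) :=
    ⟨by simp, by simp, by simp, by simp [hu1]⟩
  have hP : ∀ x : A, star x * x = 1 → Pres (K := K) 1 0 0 x 1 := fun x hx =>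
    ⟨by simp, by simp [hx], by simp, one_ne_zero⟩
  refine good_of_mob' M.top H699.continuous_distribHaarChar M.lring j pos M.coe_pos M.den_ne
    hH hH' (um_of_pres M.j_star M.j_cen (hP _ hu2))
    (um_of_pres M.j_star M.j_cen (hP _ (by rw [star_star]; exact hu1))) ?_ (Lm u)
    (fun y => ⟨by simp, ?_⟩) y
  · have huL' : star ((u : Aˣ) : A) ∈ Lam := hst _ huL
    rintro x hx
    simp only [mem_insert_iff, mem_singleton_iff] at hx
    apply hL
    rcases hx with rfl | rfl | rfl | rfl | rfl | rfl | rfl | rfl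
    · exact Lam.one_mem
    · exact Lam.zero_mem
    · exact Lam.zero_mem
    · exact huL
    · exact Lam.one_mem
    · exact Lam.zero_mem
    · exact Lam.zero_mem
    · exact huL'
  · rw [zero_mul, add_zero, mul_one, zero_add]
    rfl

end Letters

end Vale.Agent.P011.H271.LetW
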