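import Vale.Agent.P011.H271.BaseW
import Vale.Agent.P011.H271.LetW
import Vale.Agent.P011.H966.Loc
import Vale.Agent.P011.H74.HlimFF
import Vale.Agent.P011.H74.LowFF
import Vale.Agent.P011.H380.ChoiceSF
import Vale.Agent.P011.H973.LowModel
import Vale.Agent.P011.H698.DensFF

/-!
# NE over function fields (helper271): division algebras, every characteristic
-/

set_option linter.unusedSectionVars false

open MeasureTheory Filter Topology Set Module
open scoped ENNReal NNReal CompactlySupported

namespace Vale.Agent.P011.H271.NeFF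

open Vale.Agent.P011.H698 Vale.Agent.P011.H738 Vale.Agent.P011.H271 Vale.Agent.P011.H210
  Vale.Agent.P011.H976 Vale.Agent.P011.H74 Vale.Agent.P011.H966

section dens

variable {k : Type} [Field k] [GFF k] (S : Finset (Place k))

theorem dense_KSF : DenseRange (algebraMap k (KSF S)) := by
  rw [Metric.denseRange_iff]
  intro x ε hε
  obtain ⟨a, ha⟩ := place_weak S x hε
  refine ⟨a, ?_⟩
  rw [dist_comm, dist_pi_lt_iff hε]
  intro v
  rw [dist_eq_norm]
  exact ha v

omit [GFF k] in
/-- A field with a place is infinite. -/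
theorem infinite_of_place (q : Place k) : Infinite k := by
  obtain ⟨x, hx⟩ := q.normalized.2.1
  have hx1 : 1 < q.abv x := by
    rw [hx]
    exact_mod_cast one_lt_qq q
  refine Infinite.of_injective (fun n : ℕ => x ^ n) fun a b h => ?_
  have h1 : q.abv x ^ a = q.abv x ^ b := by
    rw [← map_pow, ← map_pow]
    exact congrArg q.abv h
  exact pow_right_injective₀ (zero_lt_one.trans hx1) hx1.ne' h1

end dens

section model

variable {k K D : Type} [Field k] [GFF k] [Field K] [StarRing K] [DivisionRing D] [StarRing D]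
  [Algebra k D] [Algebra K D] [StarModule K D] [StarLinR k D] {N : ℕ}
  (B : Basis (Fin N) k D) {S : Finset (Place k)} (hS : S.Nonempty)

/-- The position. -/
noncomputable def posF (S : Finset (Place k)) (y : H21.UA D) : unitary (BR B (KSF S)) :=
  iotaU B (KSF S) y

theorem coe_posF (S : Finset (Place k)) (y : H21.UA D) :
    ((posF B S y : unitary (BR B (KSF S))) : BR B (KSF S)) =
      (bcrT B (KSF S)).j ((y : Dˣ) : D) := rfl

include hS in
theorem den_ne (x : D) : H699.den (ordO B (OSF S)) x ≠ 0 := by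
  have := starLin (k := k) (D := D)
  have := countable_A B
  have := KSF_nontrivial hS
  have hG := H380.UpBC.good_KSF hS
  exact H380.UpBC.den_ne_zero (bcD B (KSF S)) hG.disc hG.coc hG.frac (isOrd_SF B S hS) x

include hS in
/-- The model of the letters. -/
theorem mod_ff [T2Space (BR B (KSF S))] [LocallyCompactSpace (BR B (KSF S))] :
    LetW.Mod K ((ordO B (OSF S)).map (bcrT B (KSF S)).j) (bcrT B (KSF S)).j (posF B S) := by
  have := starLin (k := k) (D := D)
  have := countable_A B
  have := KSF_nontrivial hS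
  have hG := H380.UpBC.good_KSF hS
  have hinj : Function.Injective (bcrT B (KSF S)).j := (bcD B (KSF S)).j_inj
  refine ⟨uTop (bcD B (KSF S)) hG.units,
    H380.UpBC.lring (bcD B (KSF S)) hG.disc hG.coc (isOrd_SF B S hS),
    (bcrT B (KSF S)).j_star, fun c y => j_central (bcD B (KSF S)) (fun x => Algebra.commutes c x) y,
    fun y => rfl, fun y => ?_⟩
  rw [H699.den_map _ hinj]
  exact den_ne B hS _

end model

section main

variable {k K D Ω : Type} [Field k] [GFF k] [Field K] [StarRing K] [DivisionRing D] [StarRing D]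
  [Algebra k K] [Algebra k D] [Algebra K D] [IsScalarTower k K D] [StarModule K D] {n N : ℕ}
  [Field Ω] [Algebra K Ω] {f : D →ₐ[K] Matrix (Fin n) (Fin n) Ω} {B : Basis (Fin N) k D}

/-- **NE over function fields.** -/
theorem ne_ff [StarLinR k D] (hA : Anis k K D n) (hn : 1 < n) {q : Place k}
    {φ₀ : K →+* q.comp} (s : Spl B q.comp n)
    (hφ₀ : ∀ c : K, s.f (algebraMap K D c) = algebraMap _ _ (φ₀ c))
    (hA' : H21.AnisR D) {w : K} (hw : star w ≠ w)
    {E : Type*} [Field E] [StarRing E] [Algebra K E] [StarModule K E] {φ : E →ₐ[K] D}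
    (hφ : ∀ x, φ (star x) = star (φ x)) {σ : E} (hσs : star σ = σ)
    (hsr : s.f (φ σ) ∈ SR (Fin n) q.comp) {t : H21.UA D} (ht : ∃ y : E, φ y = ((t : Dˣ) : D))
    {Q : Type*} [Group Q] {c : UA D →* Q} {P : Subgroup Q}
    (hT0 : Target0 (FLv f B {q}) c P) :
    NE (fun y : H21.UA D => c y) P
      {p | ∃ π ∈ H21.PE w φ hA' hw hφ, p = H21.Lm t * π ∨ p = (H21.Lm t)⁻¹ * π}
      (fun b : k => H21.T w (algebraMap k D b)) := by
  classical
  have hfin := hT0.fin
  have hstk : ∀ c : k, star (algebraMap k D c) = algebraMap k D c := by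
    intro c
    rw [Algebra.algebraMap_eq_smul_one, StarLinR.star_smul', star_one]
  set X1 : Set (H21.UA D) := {y | s.f ((y : Dˣ) : D) ∈ SR (Fin n) q.comp} with hX1
  have htE : ((t : Dˣ) : D) ∈ BaseW.EE φ := ht
  refine ne_of_loc.{0} (X1 := X1) ?_ ?_
  · -- the base point
    intro m h hh
    have hinf : Infinite k := infinite_of_place q
    obtain ⟨x, hx, hx'⟩ := BaseW.exists_base_w hw hφ (φ₀.comp (algebraMap k K)) s.f (by
      intro c
      rw [RingHom.comp_apply, IsScalarTower.algebraMap_apply k K D, hφ₀]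
      rfl) (fun c x => StarLinR.star_smul' c x) hσs hsr (fun c => ⟨algebraMap K E (algebraMap k K c), by
        change φ (algebraMap K E (algebraMap k K c)) = _
        rw [AlgHom.commutes, ← IsScalarTower.algebraMap_apply]⟩) h (by
      intro i
      obtain ⟨π, hπ, h1 | h1⟩ := hh i
      · rw [h1]
        exact mul_mem (BaseW.Lm_mem htE) (BaseW.PE_le hw hφ hA' hπ)
      · rw [h1]
        exact mul_mem (inv_mem (BaseW.Lm_mem htE)) (BaseW.PE_le hw hφ hA' hπ))
    exact ⟨x, hx, hx'⟩
  · intro m h hh
    choose π hπ hh using hh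
    choose v e hv he hπ using hπ
    obtain ⟨S₀, hlow⟩ := exists_low_FF hA (by omega) B
    obtain ⟨S, hS1, hS2⟩ := H380.ChoiceS.exists_SF B
      ((Finset.univ.image fun j => φ (v j)) ∪ (Finset.univ.image fun j => φ (e j)) ∪
        (Finset.univ.image fun j => φ (e j)⁻¹) ∪ {((t : Dˣ) : D), H21.eta w • (1 : D),
          LetW.zz w • (1 : D), w • (1 : D)}) (S₀ ∪ {q})
    have hLam := hS2 S (Finset.Subset.refl _)
    have hqS : q ∈ S := hS1 (Finset.mem_union_right _ (Finset.mem_singleton_self q))
    have hS : S.Nonempty := ⟨q, hqS⟩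
    have hlowS : H973.LowIn (ordO B (OSF S)) := by
      obtain ⟨C, hC, hev⟩ := hlow S (Finset.subset_union_left.trans hS1)
      refine ⟨C, hC, hev.mono ?_⟩
      rintro x ⟨F, h1, h2, -, h4⟩
      exact ⟨F, h1, h2, h4⟩
    have hvL : ∀ j, φ (v j) ∈ ordO B (OSF S) := fun j => hLam _ (by simp)
    have heL : ∀ j, φ (e j) ∈ ordO B (OSF S) := fun j => hLam _ (by simp)
    have heL' : ∀ j, φ (e j)⁻¹ ∈ ordO B (OSF S) := fun j => hLam _ (by simp)
    have htL : ((t : Dˣ) : D) ∈ ordO B (OSF S) := hLam _ (by simp)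
    have hηL : H21.eta w • (1 : D) ∈ ordO B (OSF S) := hLam _ (by simp)
    have hzL : LetW.zz w • (1 : D) ∈ ordO B (OSF S) := hLam _ (by simp)
    have hwL : w • (1 : D) ∈ ordO B (OSF S) := hLam _ (by simp)
    have hO := isOrdR_S B S hS
    have hT2 : T2Space (BR B (KSF S)) := (bcrT B (KSF S)).t2
    have hLC : LocallyCompactSpace (BR B (KSF S)) := (bcrT B (KSF S)).locallyCompact
    have hCS : ContinuousStar (BR B (KSF S)) := (bcrT B (KSF S)).continuousStar
    have hM : LetW.Mod K ((ordO B (OSF S)).map (bcrT B (KSF S)).j) (bcrT B (KSF S)).j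
      (posF B S) := mod_ff B hS
    have hL : ∀ x ∈ ordO B (OSF S), (bcrT B (KSF S)).j x ∈
      (ordO B (OSF S)).map (bcrT B (KSF S)).j := fun x hx => ⟨x, hx, rfl⟩
    have hinj : Function.Injective (bcrT B (KSF S)).j := by
      have := KSF_nontrivial hS
      exact (bcD B (KSF S)).j_inj
    have hden : (fun y : H21.UA D => (H699.den ((ordO B (OSF S)).map (bcrT B (KSF S)).j)
        ((bcrT B (KSF S)).j ((y : Dˣ) : D)) : ℝ)) = fun y : H21.UA D => denF B S y := by
      funext y
      rw [H699.den_map _ hinj]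
      rfl
    have gT : ∀ j (y : H21.UA D), Good (posF B S) (fun y => denF B S y) (H21.TE w φ (v j)) y := by
      intro j y
      have h1 := LetW.good_T hM hL hA' hw (H21.star_phi hφ (hv j)) (hvL j) hηL hzL y
      rwa [hden] at h1
    have gW : ∀ j (y : H21.UA D), Good (posF B S) (fun y => denF B S y) (H21.WE w φ (e j)) y := by
      intro j y
      have h1 := LetW.good_W hM hL hA' hw (e := H21.uE φ (e j))
        (by rw [H21.uE_coe φ (he j)]; exact heL j)
        (by rw [← H21.uE_inv φ (he j), H21.uE_coe φ (inv_ne_zero (he j))]; exact heL' j)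
        hO.star_mem hwL hzL y
      rwa [hden] at h1
    have gL : ∀ y : H21.UA D, Good (posF B S) (fun y => denF B S y) (H21.Lm t) y := by
      intro y
      have h1 := LetW.good_L hM hL t htL hO.star_mem y
      rwa [hden] at h1
    have gL' : ∀ y : H21.UA D, Good (posF B S) (fun y => denF B S y) (H21.Lm t)⁻¹ y := by
      intro y
      rw [← H21.Lm_inv]
      have h1 := LetW.good_L hM hL t⁻¹ (by
        rw [← H21.UA_star_eq]
        exact hO.star_mem _ htL) hO.star_mem y
      rwa [hden] at h1
    refine ⟨{g | ∀ y, Good (posF B S) (fun y => denF B S y) g y}, fun j y => ?_, ?_⟩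
    · have h1 : Good (posF B S) (fun y => denF B S y) (π j) y := by
        rw [hπ j]
        exact (gW j y).mul (gT j _)
      rcases hh j with h2 | h2
      · rw [h2]
        exact h1.mul (gL _)
      · rw [h2]
        exact h1.mul (gL' _)
    · have hKn := KSF_nontrivial hS
      have hct := countable_A B
      have hsl := starLin (k := k) (D := D)
      have hw0 : ∀ x, algebraMap K D w * x = x * algebraMap K D w := fun x => Algebra.commutes w x
      have hne : algebraMap K D w ≠ star (algebraMap K D w) := by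
        rw [← algebraMap_star_comm]
        exact fun h0 => hw ((algebraMap K D).injective h0).symm
      have hlcU : LocallyCompactSpace (unitary (BR B (KSF S))) :=
        H380.UnitsTop.locallyCompact_unitary _
      refine ⟨unitary (BR B (KSF S)), inferInstance, inferInstance, hlcU, posF B S,
        fun y => denF B S y, X0 (facS ⟨q, hqS⟩) s, ?_, ?_, ?_, ?_, ?_, ?_, fun g hg y => hg y⟩
      · intro y
        have h1 := den_ne B hS ((y : Dˣ) : D)
        change (0 : ℝ) < (H699.den (ordO B (OSF S)) ((y : Dˣ) : D) : ℝ)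
        exact_mod_cast Nat.pos_of_ne_zero h1
      · exact isOpen_X0 _ s (isOpen_SR_comp q n)
      · intro y hy
        have h1 := pr0_iotaU (facS (⟨q, hqS⟩ : S)) s (y : UA D)
        rw [mem_X0]
        have h2 : ((pr0 (facS (⟨q, hqS⟩ : S)) s (posF B S y) :
            Matrix.GeneralLinearGroup (Fin n) q.comp) : Matrix (Fin n) (Fin n) q.comp) =
            s.f ((y : Dˣ) : D) := h1
        rw [h2]
        exact hy
      · exact fun C hC => hup_ff B S hS hw0 hne C hC
      · intro x0 hx0 V hV hxV
        have hx1 : uA (A := D) x0 ≠ 1 := by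
          intro h0
          have h1 : ((x0 : Dˣ) : D) = 1 := congrArg Subtype.val h0
          have h2 : (1 : Matrix (Fin n) (Fin n) q.comp) ∈ SR (Fin n) q.comp := by
            have h3 : s.f ((x0 : Dˣ) : D) ∈ SR (Fin n) q.comp := hx0
            rwa [h1, map_one] at h3
          obtain ⟨P, a, ha, hP⟩ := h2
          have h4 : (Matrix.diagonal a : Matrix (Fin n) (Fin n) q.comp) = 1 := by
            have h5 := congrArg (fun M => ((P⁻¹ : (Matrix (Fin n) (Fin n) q.comp)ˣ) :
              Matrix (Fin n) (Fin n) q.comp) * M * P) hP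
            rw [mul_one, Units.inv_mul] at h5
            rw [h5]
            simp [mul_assoc]
          have h6 : ∀ i, a i = 1 := by
            intro i
            have h7 := congrArg (fun M : Matrix (Fin n) (Fin n) q.comp => M i i) h4
            simpa using h7
          have h8 : (⟨0, by omega⟩ : Fin n) = ⟨1, hn⟩ := ha (by rw [h6, h6])
          exact absurd (congrArg Fin.val h8) (by simp)
        obtain ⟨C, hC, hev⟩ := H973.low_unitary (bcD B (KSF S)) (H380.UpBC.good_KSF hS)
          (dense_KSF S) (isOrd_SF B S hS) hw0 hne hlowS (uA (A := D)) uA_bijective.2 hx1 hV hxV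
        exact ⟨C, hC, hev⟩
      · intro b ρ hρ a a' ψ hψ
        exact hlim_target_ff hA hn ⟨q, hqS⟩ s hφ₀ hw0 hne hT0
          (fun y => H21.T w (algebraMap k D b) y) (fun g y => H21.T_conj hA' hw (hstk b) g y
            (Algebra.commutes b _).symm) hρ ψ hψ a a'

/-- **NE over function fields**, in the form used by the line theorem of `H158`. -/
theorem ne_ff_cE [StarLinR k D] (hA : Anis k K D n) (hn : 1 < n) {q : Place k}
    {φ₀ : K →+* q.comp} (s : Spl B q.comp n)
    (hφ₀ : ∀ c : K, s.f (algebraMap K D c) = algebraMap _ _ (φ₀ c))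
    (hA' : H21.AnisR D) {w : K} (hw : star w ≠ w)
    {E : Type*} [Field E] [StarRing E] [Algebra K E] [StarModule K E] [Algebra k E]
    [IsScalarTower k K E] {φ : E →ₐ[K] D}
    (hφ : ∀ x, φ (star x) = star (φ x)) {σ : E} (hσs : star σ = σ)
    (hsr : s.f (φ σ) ∈ SR (Fin n) q.comp)
    {Q : Type*} [Group Q] {c : H21.UA D →* Q} {P : Subgroup Q}
    (hT0 : Target0 (U := UA D) (FLv f B {q}) c P) {τ : E} (hτ : star τ = τ) :
    NE c P {h | ∃ π ∈ H21.PE w φ hA' hw hφ, h = H21.Lm (H21.cE w φ τ) * π ∨
      h = (H21.Lm (H21.cE w φ τ))⁻¹ * π}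
      (fun b : k => H21.TE w φ (algebraMap k E b)) := by
  have h1 : (fun b : k => H21.TE w φ (algebraMap k E b)) =
      fun b : k => H21.T w (algebraMap k D b) := by
    funext b
    have h2 : φ (algebraMap k E b) = algebraMap k D b := by
      rw [IsScalarTower.algebraMap_apply k K E, AlgHom.commutes,
        ← IsScalarTower.algebraMap_apply]
    rw [H21.TE, h2]
  rw [h1]
  exact ne_ff hA hn s hφ₀ hA' hw hφ hσs hsr
    ⟨H21.te w τ, (H21.cE_coe hA' hw hφ hτ).symm⟩ hT0

end main

end Vale.Agent.P011.H271.NeFF
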