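import Vale.Agent.P011.H271.ConF3
import Vale.Agent.P011.H321.AvoidB
import Vale.Agent.P011.H271.NeFF

/-!
# Points avoiding a condition of codimension two at all places of a function field

The sieve is the same as over a number field.  One place `q₀` is not controlled; at this place the
first coordinate dominates all the others.
-/

open Module MvPolynomial
open scoped NNReal

namespace Vale.Agent.P011.H271.AvoidF

open Vale.Agent.P011.H738 Vale.Agent.P011.H271 Vale.Agent.P011.H271.ConF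

section gen

variable {K Γ : Type*} [Field K] [LinearOrderedCommGroupWithZero Γ]

/-- Polynomials are continuous. -/
theorem eval_close (w : Valuation K Γ) {N : ℕ} (P : MvPolynomial (Fin N) K) (a : Fin N → K) :
    ∀ ε : Γ, ε ≠ 0 → ∃ δ : Γ, δ ≠ 0 ∧ ∀ x : Fin N → K, (∀ j, w (x j - a j) < δ) →
      w (eval x P - eval a P) < ε := by
  induction P using MvPolynomial.induction_on with
  | C c =>
    intro ε hε
    refine ⟨1, one_ne_zero, fun x _ => ?_⟩
    rw [eval_C, eval_C, sub_self, map_zero]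
    exact zero_lt_iff.mpr hε
  | add P Q hP hQ =>
    intro ε hε
    obtain ⟨δ, hδ, h⟩ := hP ε hε
    obtain ⟨δ', hδ', h'⟩ := hQ ε hε
    refine ⟨min δ δ', (lt_min (zero_lt_iff.mpr hδ) (zero_lt_iff.mpr hδ')).ne', fun x hx => ?_⟩
    have e : eval x (P + Q) - eval a (P + Q) = (eval x P - eval a P) + (eval x Q - eval a Q) := by
      rw [map_add, map_add]; ring
    rw [e]
    exact w.map_add_lt (h x fun j => lt_of_lt_of_le (hx j) (min_le_left _ _))
      (h' x fun j => lt_of_lt_of_le (hx j) (min_le_right _ _))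
  | mul_X P i hP =>
    intro ε hε
    set M : Γ := max (w (a i)) 1 with hM
    have hM0 : 0 < M := lt_of_lt_of_le zero_lt_one (le_max_right _ _)
    set M' : Γ := max (w (eval a P)) 1 with hM'
    have hM'0 : 0 < M' := lt_of_lt_of_le zero_lt_one (le_max_right _ _)
    obtain ⟨δ, hδ, h⟩ := hP (ε / M) (div_ne_zero hε hM0.ne')
    have hε0 : 0 < ε := zero_lt_iff.mpr hε
    refine ⟨min (min δ 1) (ε / M'), (lt_min (lt_min (zero_lt_iff.mpr hδ) zero_lt_one)
      (div_pos hε0 hM'0)).ne', fun x hx => ?_⟩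
    have e : eval x (P * X i) - eval a (P * X i) =
        (eval x P - eval a P) * x i + eval a P * (x i - a i) := by
      rw [map_mul, map_mul, eval_X, eval_X]; ring
    rw [e]
    refine w.map_add_lt ?_ ?_
    · rw [map_mul]
      have h1 : w (x i) ≤ M := by
        have e1 : x i = (x i - a i) + a i := by ring
        rw [e1]
        refine w.map_add_le ?_ (le_max_left _ _)
        exact (lt_of_lt_of_le (hx i) ((min_le_left _ _).trans (min_le_right _ _))).le.trans
          (le_max_right _ _)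
      have h2 := h x fun j => lt_of_lt_of_le (hx j) ((min_le_left _ _).trans (min_le_left _ _))
      calc w (eval x P - eval a P) * w (x i) ≤ w (eval x P - eval a P) * M :=
            mul_le_mul_right h1 _
        _ < ε / M * M := mul_lt_mul_of_pos_right h2 hM0
        _ = ε := div_mul_cancel₀ _ hM0.ne'
    · rw [map_mul]
      have h3 : w (x i - a i) < ε / M' := lt_of_lt_of_le (hx i) (min_le_right _ _)
      calc w (eval a P) * w (x i - a i) ≤ M' * w (x i - a i) :=
            mul_le_mul_left (le_max_left _ _) _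
        _ < M' * (ε / M') := mul_lt_mul_of_pos_left h3 hM'0
        _ = ε := by rw [mul_comm]; exact div_mul_cancel₀ _ hM'0.ne'

/-- Polynomials with integral coefficients have integral values at integral points. -/
theorem eval_int (w : Valuation K Γ) {N : ℕ} (P : MvPolynomial (Fin N) K)
    (hP : ∀ m, w (coeff m P) ≤ 1) (x : Fin N → K) (hx : ∀ j, w (x j) ≤ 1) :
    w (eval x P) ≤ 1 := by
  rw [MvPolynomial.eval_eq]
  refine Valuation.map_sum_le _ fun m _ => ?_
  rw [map_mul, map_prod]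
  refine mul_le_one' (hP m) ?_
  refine Finset.prod_le_one' fun j _ => ?_
  rw [map_pow]
  exact pow_le_one' (hx j) _

theorem intAt_mul {w : Valuation K Γ} {p q : Polynomial K} (hp : IntAt w p) (hq : IntAt w q) :
    IntAt w (p * q) := by
  intro i
  rw [Polynomial.coeff_mul]
  refine Valuation.map_sum_le _ fun m _ => ?_
  rw [map_mul]
  exact mul_le_one' (hp _) (hq _)

theorem intAt_prod {w : Valuation K Γ} {ι : Type*} (s : Finset ι) {p : ι → Polynomial K}
    (hp : ∀ i ∈ s, IntAt w (p i)) : IntAt w (∏ i ∈ s, p i) := by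
  classical
  induction s using Finset.induction_on with
  | empty =>
    intro i
    rw [Finset.prod_empty, Polynomial.coeff_one]
    split_ifs
    · rw [map_one]
    · rw [map_zero]
      exact zero_le_one
  | insert a s ha ih =>
    rw [Finset.prod_insert ha]
    exact intAt_mul (hp a (Finset.mem_insert_self _ _))
      (ih fun i hi => hp i (Finset.mem_insert_of_mem hi))

/-- A polynomial in one variable with integral coefficients, one of which is a unit, has a unit
value at one of many points which are distinct modulo the place. -/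
theorem exists_unit_value (w : Valuation K Γ) (f : Polynomial K) {j : ℕ}
    (hj : 1 ≤ w (f.coeff j)) {s : Finset K} (hs1 : ∀ a ∈ s, w a ≤ 1)
    (hs2 : ∀ a ∈ s, ∀ b ∈ s, a ≠ b → w (a - b) = 1) (hD : f.natDegree < s.card) :
    ∃ a ∈ s, 1 ≤ w (f.eval a) := by
  classical
  by_contra hcon
  push Not at hcon
  have h1 : f = Lagrange.interpolate s id fun i => f.eval (id i) :=
    Lagrange.eq_interpolate (fun a _ b _ h => h)
      (lt_of_le_of_lt Polynomial.degree_le_natDegree (by exact_mod_cast hD))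
  have h2 : w (f.coeff j) < 1 := by
    rw [h1, Lagrange.interpolate_apply, Polynomial.finsetSum_coeff]
    refine Valuation.map_sum_lt _ one_ne_zero fun a ha => ?_
    rw [Polynomial.coeff_C_mul, map_mul]
    have h3 : w ((Lagrange.basis s id a).coeff j) ≤ 1 := by
      refine intAt_prod _ (fun b hb => ?_) j
      rw [Finset.mem_erase] at hb
      have h4 : w (a - b) = 1 := hs2 a ha b hb.2 hb.1.symm
      refine intAt_mul (fun i => ?_) (fun i => ?_)
      · rw [Polynomial.coeff_C]
        split_ifs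
        · rw [map_inv₀]
          change (w (a - b))⁻¹ ≤ 1
          rw [h4, inv_one]
        · rw [map_zero]
          exact zero_le_one
      · rw [Polynomial.coeff_sub, Polynomial.coeff_X, Polynomial.coeff_C]
        refine (w.map_sub _ _).trans (max_le ?_ ?_)
        · split_ifs
          · rw [map_one]
          · rw [map_zero]
            exact zero_le_one
        · split_ifs
          · exact hs1 b hb.2
          · rw [map_zero]
            exact zero_le_one
    calc _ ≤ w (f.eval (id a)) * 1 := mul_le_mul_right h3 _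
      _ < 1 := by
        rw [mul_one]
        exact hcon a ha
  exact absurd hj (not_le.mpr h2)

end gen

variable {k : Type} [Field k] [GFF k]

/-- The coefficients of a polynomial are integral outside a finite set. -/
theorem bad_finite {N : ℕ} (P : MvPolynomial (Fin N) k) :
    {v : Place k | ∃ m, 1 < vr v (coeff m P)}.Finite := by
  have h : {v : Place k | ∃ m, 1 < vr v (coeff m P)} ⊆
      ⋃ m ∈ P.support, {v : Place k | v.abv (coeff m P) ≠ 1} := by
    rintro v ⟨m, hm⟩
    simp only [Set.mem_iUnion]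
    refine ⟨m, ?_, fun h => ?_⟩
    · rw [MvPolynomial.mem_support_iff]
      intro h0
      rw [h0, map_zero] at hm
      exact absurd hm (by simp)
    · rw [vr_eq_one.2 h] at hm
      exact lt_irrefl _ hm
  refine Set.Finite.subset ?_ h
  refine Set.Finite.biUnion (Finset.finite_toSet _) fun m hm => ?_
  exact place_finite (MvPolynomial.mem_support_iff.mp hm)

/-- Many elements distinct modulo almost all places. -/
theorem bigRes (q : Place k) (D : ℕ) : {v : Place k | ¬ ∃ s : Finset k, D < s.card ∧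
    (∀ a ∈ s, vr v a ≤ 1) ∧ ∀ a ∈ s, ∀ b ∈ s, a ≠ b → vr v (a - b) = 1}.Finite := by
  classical
  have := NeFF.infinite_of_place q
  obtain ⟨s, hs⟩ := Infinite.exists_subset_card_eq k (D + 1)
  have h1 : (⋃ a ∈ (s.erase 0 ∪ (s ×ˢ s).image (fun p => p.1 - p.2)).erase 0,
      {v : Place k | v.abv a ≠ 1}).Finite :=
    Set.Finite.biUnion (Finset.finite_toSet _) fun a ha =>
      place_finite (Finset.mem_erase.1 (Finset.mem_coe.1 ha)).1
  refine h1.subset fun v hv => ?_
  by_contra hcon
  apply hv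
  simp only [Set.mem_iUnion, not_exists, Set.mem_ofPred_eq, not_not] at hcon
  refine ⟨s, by omega, fun a ha => ?_, fun a ha b hb hab => ?_⟩
  · by_cases h0 : a = 0
    · rw [h0, map_zero]
      exact zero_le_one
    · refine (vr_eq_one.2 (hcon a ?_)).le
      exact Finset.mem_erase.2 ⟨h0, Finset.mem_union_left _ (Finset.mem_erase.2 ⟨h0, ha⟩)⟩
  · refine vr_eq_one.2 (hcon (a - b) ?_)
    refine Finset.mem_erase.2 ⟨sub_ne_zero.2 hab, Finset.mem_union_right _ ?_⟩
    exact Finset.mem_image.2 ⟨(a, b), Finset.mem_product.2 ⟨ha, hb⟩, rfl⟩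

/-- Strong approximation. -/
theorem approx {q : Place k} {T : Finset (Place k)} (hq : q ∉ T) (x : Place k → k)
    (g : Place k → ℝ≥0) (hg : ∀ v ∈ T, 0 < g v) :
    ∃ y : k, (∀ v ∈ T, vr v (y - x v) < g v) ∧ ∀ v ∉ T, v ≠ q → vr v y ≤ 1 := by
  classical
  obtain ⟨ε, hε, hεg⟩ : ∃ ε : ℝ, 0 < ε ∧ ∀ v ∈ T, ε < g v := by
    rcases T.eq_empty_or_nonempty with h | h
    · refine ⟨1, one_pos, fun v hv => ?_⟩
      rw [h] at hv
      simp at hv
    · obtain ⟨v0, hv0, hmin⟩ := T.exists_min_image (fun v => (g v : ℝ)) h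
      have h0 : (0 : ℝ) < g v0 := by exact_mod_cast hg v0 hv0
      exact ⟨g v0 / 2, by linarith, fun v hv => by
        have := hmin v hv
        linarith⟩
  obtain ⟨C, hC⟩ := place_strong q T hq hε
  obtain ⟨y, hy1, hy2, -⟩ := hC (fun v => if v ∈ T then x v else 0) (by
    refine T.finite_toSet.subset fun v hv => ?_
    by_contra h
    have h' : v ∉ T := fun h'' => h (Finset.mem_coe.2 h'')
    rw [Set.mem_ofPred_eq, if_neg h', map_zero] at hv
    exact absurd hv (by norm_num))
  refine ⟨y, fun v hv => ?_, fun v hv hvq => ?_⟩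
  · have h1 := hy1 v hv
    rw [if_pos hv] at h1
    have h2 : ((vr v (y - x v) : ℝ≥0) : ℝ) < g v := by
      rw [coe_vr, AbsoluteValue.map_sub]
      exact h1.trans_lt (hεg v hv)
    exact_mod_cast h2
  · have h1 := hy2 v hvq
    rw [if_neg hv, zero_sub, AbsoluteValue.map_neg] at h1
    exact vr_le_one.2 h1

/-- Elements with a large pole at `q` which are small at finitely many places. -/
theorem exists_big {q : Place k} {T : Finset (Place k)} (hq : q ∉ T)
    (g : Place k → ℝ≥0) (hg : ∀ v ∈ T, 0 < g v) (C : ℝ≥0) :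
    ∃ y : k, (∀ v ∈ T, vr v y < g v) ∧ (∀ v, v ≠ q → vr v y ≤ 1) ∧ C < vr q y := by
  classical
  obtain ⟨ε, hε, hεg⟩ : ∃ ε : ℝ, 0 < ε ∧ ∀ v ∈ T, ε < g v := by
    rcases T.eq_empty_or_nonempty with h | h
    · refine ⟨1, one_pos, fun v hv => ?_⟩
      rw [h] at hv
      simp at hv
    · obtain ⟨v0, hv0, hmin⟩ := T.exists_min_image (fun v => (g v : ℝ)) h
      have h0 : (0 : ℝ) < g v0 := by exact_mod_cast hg v0 hv0
      exact ⟨g v0 / 2, by linarith, fun v hv => by
        have := hmin v hv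
        linarith⟩
  obtain ⟨C', hC'⟩ := place_strong q T hq hε
  obtain ⟨z, -, hz⟩ := exists_large q (max (C : ℝ) C')
  obtain ⟨y, hy1, hy2, hy3⟩ := hC' (fun v => if v = q then z else 0) (by
    refine (Set.finite_singleton q).subset fun v hv => ?_
    by_contra h
    rw [Set.mem_singleton_iff] at h
    rw [Set.mem_ofPred_eq, if_neg h, map_zero] at hv
    exact absurd hv (by norm_num))
  refine ⟨y, fun v hv => ?_, fun v hvq => ?_, ?_⟩
  · have hvq : v ≠ q := fun h => hq (h ▸ hv)
    have h1 := hy1 v hv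
    rw [if_neg hvq, zero_sub, AbsoluteValue.map_neg] at h1
    have h2 : ((vr v y : ℝ≥0) : ℝ) < g v := by
      rw [coe_vr]
      exact h1.trans_lt (hεg v hv)
    exact_mod_cast h2
  · have h1 := hy2 v hvq
    rw [if_neg hvq, zero_sub, AbsoluteValue.map_neg] at h1
    exact vr_le_one.2 h1
  · rw [if_pos rfl] at hy3
    have h2 : (C : ℝ) < ((vr q y : ℝ≥0) : ℝ) := by
      rw [coe_vr]
      by_contra hcon
      rw [not_lt] at hcon
      have h3 : q.abv z ≤ max (q.abv (z - y)) (q.abv y) := by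
        have e : z = (z - y) + y := by ring
        conv_lhs => rw [e]
        exact q.nonarch _ _
      have h4 : max (q.abv (z - y)) (q.abv y) ≤ max (C : ℝ) C' :=
        max_le (hy3.trans (le_max_right _ _)) (hcon.trans (le_max_left _ _))
      linarith
    exact_mod_cast h2

/-- The sieve in `N` variables. -/
def Av (k : Type) [Field k] (q₀ : Place k) (N : ℕ) : Prop :=
  ∀ {ι : Type} [Finite ι] (P : ι → MvPolynomial (Fin N) k) (_ : ∀ q, (∀ i, q ∣ P i) → IsUnit q)
    (Q : MvPolynomial (Fin N) k) (_ : Q ≠ 0)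
    (T : Finset (Place k)) (_ : q₀ ∉ T) (a : Place k → Fin N → k)
    (g : Place k → ℝ≥0) (_ : ∀ v ∈ T, 0 < g v)
    (_ : ∀ v ∉ T, v ≠ q₀ → ∃ x : Fin N → k, (∀ j, vr v (x j) ≤ 1) ∧
      ∃ i, 1 ≤ vr v (eval x (P i))),
    ∃ x : Fin N → k, (∀ v ∈ T, ∀ j, vr v (x j - a v j) < g v) ∧
      (∀ v ∉ T, v ≠ q₀ → ∀ j, vr v (x j) ≤ 1) ∧
      (∀ v ∉ T, v ≠ q₀ → ∃ i, 1 ≤ vr v (eval x (P i))) ∧ eval x Q ≠ 0

/-- One more variable, chosen last. -/
theorem step {q₀ : Place k} {N : ℕ} (ih : Av k q₀ N) {ι : Type} [Finite ι]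
    (P : ι → MvPolynomial (Fin (N + 1)) k) (hP : ∀ q, (∀ i, q ∣ P i) → IsUnit q)
    (Q : MvPolynomial (Fin (N + 1)) k) (hQ : Q ≠ 0)
    (T : Finset (Place k)) (hq₀ : q₀ ∉ T) (a : Place k → Fin (N + 1) → k)
    (g : Place k → ℝ≥0) (hg : ∀ v ∈ T, 0 < g v)
    (hloc : ∀ v ∉ T, v ≠ q₀ → ∃ x : Fin (N + 1) → k, (∀ j, vr v (x j) ≤ 1) ∧
      ∃ i, 1 ≤ vr v (eval x (P i))) (R : ℝ≥0) :
    ∃ x : Fin (N + 1) → k, (∀ v ∈ T, ∀ j, vr v (x j - a v j) < g v) ∧
      (∀ v ∉ T, v ≠ q₀ → ∀ j, vr v (x j) ≤ 1) ∧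
      (∀ v ∉ T, v ≠ q₀ → ∃ i, 1 ≤ vr v (eval x (P i))) ∧ eval x Q ≠ 0 ∧
      R < vr q₀ (x 0) ∧ ∀ j, j ≠ 0 → R * vr q₀ (x j) < vr q₀ (x 0) := by
  classical
  have := Fintype.ofFinite ι
  -- the coefficients in the first variable
  set p : ι → Polynomial (MvPolynomial (Fin N) k) := fun i => finSuccEquiv k N (P i) with hp
  obtain ⟨D, hD⟩ : ∃ D : ℕ, ∀ i, (p i).natDegree ≤ D :=
    ⟨Finset.univ.sup fun i => (p i).natDegree, fun i =>
      Finset.le_sup (f := fun i => (p i).natDegree) (Finset.mem_univ i)⟩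
  have hval : ∀ (x : Fin N → k) (y : k) (i : ι), eval (Fin.cons y x : Fin (N + 1) → k) (P i) =
      ((p i).map (eval x)).eval y := fun x y i => eval_eq_eval_mv_eval' x y (P i)
  have hpq : ∀ q : Polynomial (MvPolynomial (Fin N) k), (∀ i, q ∣ p i) → IsUnit q := by
    intro q hq
    have h1 : IsUnit ((finSuccEquiv k N).symm q) := by
      refine hP _ fun i => ?_
      obtain ⟨c, hc⟩ := hq i
      refine ⟨(finSuccEquiv k N).symm c, ?_⟩
      rw [← map_mul, ← hc, hp, AlgEquiv.symm_apply_apply]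
    have h2 := h1.map (finSuccEquiv k N)
    rwa [AlgEquiv.apply_symm_apply] at h2
  obtain ⟨r, hr0, u, hu⟩ := H321.Avoid.exists_bezout p hpq
  set C' : ι × Fin (D + 1) → MvPolynomial (Fin N) k := fun c => (p c.1).coeff c.2 with hC'
  have hC : ∀ q, (∀ c, q ∣ C' c) → IsUnit q := by
    intro q hq
    refine Polynomial.isUnit_C.mp (hpq _ fun i => ?_)
    rw [Polynomial.C_dvd_iff_dvd_coeff]
    intro n
    by_cases hn : n ≤ D
    · exact hq (i, ⟨n, Nat.lt_succ_of_le hn⟩)
    · rw [Polynomial.coeff_eq_zero_of_natDegree_lt (lt_of_le_of_lt (hD i) (not_le.mp hn))]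
      exact dvd_zero q
  -- the auxiliary polynomial
  set Qp := finSuccEquiv k N Q with hQp
  have hQp0 : Qp ≠ 0 := by
    rw [hQp, Ne, map_eq_zero_iff _ (finSuccEquiv k N).injective]
    exact hQ
  obtain ⟨m, hm⟩ : ∃ m, Qp.coeff m ≠ 0 := by
    by_contra hcon
    push Not at hcon
    exact hQp0 (Polynomial.ext fun n => by rw [hcon n, Polynomial.coeff_zero])
  -- the first finite set
  have hbadC : {v : Place k | ∃ c : ι × Fin (D + 1), ∃ m, 1 < vr v
      (coeff m (C' c))}.Finite := by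
    have : {v : Place k | ∃ c : ι × Fin (D + 1), ∃ m, 1 < vr v
        (coeff m (C' c))} = ⋃ c : ι × Fin (D + 1), {v | ∃ m, 1 < vr v
        (coeff m (C' c))} := by
      ext v
      simp
    rw [this]
    exact Set.finite_iUnion fun c => bad_finite (C' c)
  have hR := bigRes q₀ D
  set T₁ : Finset (Place k) := (T ∪ hR.toFinset ∪ hbadC.toFinset).erase q₀ with hT₁
  have hTT₁ : ∀ v ∈ T, v ∈ T₁ := fun v hv =>
    Finset.mem_erase.2 ⟨fun h => hq₀ (h ▸ hv), Finset.mem_union_left _ (Finset.mem_union_left _ hv)⟩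
  have hq₁ : q₀ ∉ T₁ := Finset.notMem_erase _ _
  have hT₁big : ∀ v ∉ T₁, v ≠ q₀ → ∃ s : Finset k, D < s.card ∧
      (∀ a ∈ s, vr v a ≤ 1) ∧ ∀ a ∈ s, ∀ b ∈ s, a ≠ b → vr v (a - b) = 1 := by
    intro v hv hvq
    by_contra hcon
    exact hv (Finset.mem_erase.2 ⟨hvq, Finset.mem_union_left _ (Finset.mem_union_right _
      ((Set.Finite.mem_toFinset _).mpr hcon))⟩)
  have hT₁int : ∀ v ∉ T₁, v ≠ q₀ → ∀ c m, vr v (coeff m (C' c)) ≤ 1 := by
    intro v hv hvq c m
    by_contra hcon
    exact hv (Finset.mem_erase.2 ⟨hvq, Finset.mem_union_right _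
      ((Set.Finite.mem_toFinset _).mpr ⟨c, m, not_le.mp hcon⟩)⟩)
  -- the local points at the primes of the first finite set
  choose! z hz1 hz2 using hloc
  have hclose : ∀ v ∉ T, v ≠ q₀ → ∃ δ : ℝ≥0, δ ≠ 0 ∧ δ ≤ 1 ∧ ∀ x : Fin (N + 1) → k,
      (∀ j, vr v (x j - z v j) < δ) →
        (∀ j, vr v (x j) ≤ 1) ∧ ∃ i, 1 ≤ vr v (eval x (P i)) := by
    intro v hv hvq
    obtain ⟨i, hi⟩ := hz2 v hv hvq
    obtain ⟨δ, hδ, h⟩ := eval_close (vr v) (P i) (z v) 1 one_ne_zero
    refine ⟨min δ 1, (lt_min (zero_lt_iff.mpr hδ) zero_lt_one).ne', min_le_right _ _,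
      fun x hx => ⟨fun j => ?_, i, ?_⟩⟩
    · have e : x j = (x j - z v j) + z v j := by ring
      rw [e]
      exact (vr v).map_add_le ((lt_of_lt_of_le (hx j) (min_le_right _ _)).le)
        (hz1 v hv hvq j)
    · have h1 := h x fun j => lt_of_lt_of_le (hx j) (min_le_left _ _)
      by_contra hcon
      rw [not_le] at hcon
      have e : eval (z v) (P i) = eval x (P i) - (eval x (P i) - eval (z v) (P i)) := by ring
      rw [e] at hi
      exact absurd hi (not_le.mpr ((vr v).map_sub_lt hcon h1))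
  choose! δ hδ0 hδ1 hδ using hclose
  set a₁ : Place k → Fin (N + 1) → k := fun v => if v ∈ T then a v else z v with ha₁
  set g₁ : Place k → ℝ≥0 := fun v => if v ∈ T then g v else δ v with hg₁
  have hg₁0 : ∀ v ∈ T₁, 0 < g₁ v := by
    intro v hv
    rw [hg₁]
    dsimp only
    split_ifs with h
    · exact hg v h
    · exact zero_lt_iff.2 (hδ0 v h (Finset.mem_erase.1 hv).1)
  -- the first `N` coordinates
  obtain ⟨x, hx1, hx2, hx3, hx4⟩ := ih C' hC (r * Qp.coeff m) (mul_ne_zero hr0 hm) T₁ hq₁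
    (fun v j => a₁ v j.succ) g₁ hg₁0 (by
      intro v hv hvq
      have hvT : v ∉ T := fun h => hv (hTT₁ v h)
      refine ⟨fun j => z v j.succ, fun j => hz1 v hvT hvq _, ?_⟩
      by_contra hcon
      push Not at hcon
      obtain ⟨i, hi⟩ := hz2 v hvT hvq
      have e : z v = Fin.cons (z v 0) (fun j => z v j.succ) := (Fin.cons_self_tail _).symm
      rw [e, hval, Polynomial.eval_eq_sum_range' (n := D + 1)
        (Nat.lt_succ_of_le ((Polynomial.natDegree_map_le).trans (hD i)))] at hi
      refine absurd hi (not_le.mpr (Valuation.map_sum_lt _ one_ne_zero fun n hn => ?_))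
      rw [Polynomial.coeff_map, map_mul, map_pow]
      calc _ ≤ vr v (eval (fun j => z v j.succ) ((p i).coeff n)) * 1 :=
            mul_le_mul_right (pow_le_one' (hz1 v hvT hvq 0) _) _
        _ < 1 := by
          rw [mul_one]
          exact hcon (i, ⟨n, Finset.mem_range.mp hn⟩))
  rw [map_mul, mul_ne_zero_iff] at hx4
  obtain ⟨hrx, hmx⟩ := hx4
  -- the second finite set
  have hbadU : {v : Place k | ∃ i : ι, ∃ n ∈ (u i).support, ¬ vr v
      (eval x ((u i).coeff n)) ≤ 1}.Finite := by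
    have : {v : Place k | ∃ i : ι, ∃ n ∈ (u i).support, ¬ vr v
        (eval x ((u i).coeff n)) ≤ 1} ⊆ ⋃ i : ι, ⋃ n ∈ (u i).support,
        {v | ¬ vr v (eval x ((u i).coeff n)) ≤ 1} := by
      intro v hv
      simpa using hv
    refine Set.Finite.subset ?_ this
    refine Set.finite_iUnion fun i => Set.Finite.biUnion (Finset.finite_toSet _) fun n _ => ?_
    by_cases h0 : eval x ((u i).coeff n) = 0
    · convert Set.finite_empty
      ext v
      simp [h0]
    · refine (place_finite h0).subset fun v hv h1 => hv ?_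
      rw [vr_eq_one.2 h1]
  set T₂ : Finset (Place k) :=
    (T₁ ∪ (place_finite hrx).toFinset ∪ hbadU.toFinset).erase q₀ with hT₂
  have hq₂ : q₀ ∉ T₂ := Finset.notMem_erase _ _
  have hT₁T₂ : ∀ v ∈ T₁, v ∈ T₂ := fun v hv =>
    Finset.mem_erase.2 ⟨fun h => hq₁ (h ▸ hv), Finset.mem_union_left _ (Finset.mem_union_left _ hv)⟩
  have hT₂r : ∀ v ∉ T₂, v ≠ q₀ → vr v (eval x r) = 1 := by
    intro v hv hvq
    by_contra hcon
    exact hv (Finset.mem_erase.2 ⟨hvq, Finset.mem_union_left _ (Finset.mem_union_right _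
      ((Set.Finite.mem_toFinset _).mpr fun h => hcon (vr_eq_one.2 h)))⟩)
  have hT₂u : ∀ v ∉ T₂, v ≠ q₀ → ∀ i n, vr v (eval x ((u i).coeff n)) ≤ 1 := by
    intro v hv hvq i n
    by_cases hn : n ∈ (u i).support
    · by_contra hcon
      exact hv (Finset.mem_erase.2 ⟨hvq,
        Finset.mem_union_right _ ((Set.Finite.mem_toFinset _).mpr ⟨i, n, hn, hcon⟩)⟩)
    · rw [Polynomial.notMem_support_iff.mp hn, map_zero, map_zero]
      exact zero_le_one
  -- unit values of the polynomials in one variable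
  have hcoef : ∀ v ∉ T₁, v ≠ q₀ → ∀ i n, vr v (((p i).map (eval x)).coeff n) ≤ 1 := by
    intro v hv hvq i n
    rw [Polynomial.coeff_map]
    by_cases hn : n ≤ D
    · exact eval_int _ _ (fun m => hT₁int v hv hvq (i, ⟨n, Nat.lt_succ_of_le hn⟩) m) x
        (hx2 v hv hvq)
    · rw [Polynomial.coeff_eq_zero_of_natDegree_lt (lt_of_le_of_lt (hD i) (not_le.mp hn)),
        map_zero, map_zero]
      exact zero_le_one
  have hone : ∀ v ∉ T₁, v ≠ q₀ → ∃ y : k, vr v y ≤ 1 ∧ ∃ i,
      1 ≤ vr v (((p i).map (eval x)).eval y) := by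
    intro v hv hvq
    obtain ⟨⟨i, n⟩, hin⟩ := hx3 v hv hvq
    obtain ⟨s, hs0, hs1, hs2⟩ := hT₁big v hv hvq
    obtain ⟨y, hy1, hy2⟩ := exists_unit_value (vr v) ((p i).map (eval x))
      (j := n) (by rw [Polynomial.coeff_map]; exact hin) hs1 hs2
      (lt_of_le_of_lt ((Polynomial.natDegree_map_le).trans (hD i)) hs0)
    exact ⟨y, hs1 y hy1, i, hy2⟩
  choose! w hw1 hw2 using hone
  set b : Place k → k := fun v => if v ∈ T₁ then a₁ v 0 else w v with hb
  set h₁ : Place k → ℝ≥0 := fun v => if v ∈ T₁ then g₁ v else 1 with hh₁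
  have hh₁0 : ∀ v ∈ T₂, 0 < h₁ v := by
    intro v _
    rw [hh₁]
    dsimp only
    split_ifs with h
    · exact hg₁0 v h
    · exact one_pos
  obtain ⟨y₀, hy1, hy2⟩ := approx hq₂ b h₁ hh₁0
  -- avoid the zeros of the auxiliary polynomial
  have hQx : (Qp.map (eval x)) ≠ 0 := by
    intro h
    have h1 : (Qp.map (eval x)).coeff m = 0 := by rw [h, Polynomial.coeff_zero]
    rw [Polynomial.coeff_map] at h1
    exact hmx h1
  set M : ℝ≥0 := max (vr q₀ y₀) (max R (R * ∑ j, vr q₀ (x j))) with hM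
  set M' : ℝ≥0 := max M (∑ c ∈ (Qp.map (eval x)).roots.toFinset, vr q₀ (c - y₀)) with hM'
  obtain ⟨t, ht1, ht2, ht3⟩ := exists_big hq₂ h₁ hh₁0 M'
  have ht : (Qp.map (eval x)).eval (y₀ + t) ≠ 0 := by
    intro hcon
    have h1 : y₀ + t ∈ (Qp.map (eval x)).roots.toFinset := by
      rw [Multiset.mem_toFinset, Polynomial.mem_roots hQx]
      exact hcon
    have h2 : vr q₀ t ≤ ∑ c ∈ (Qp.map (eval x)).roots.toFinset, vr q₀ (c - y₀) := by
      have h3 := Finset.single_le_sum (f := fun c => vr q₀ (c - y₀))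
        (fun c _ => zero_le) h1
      rwa [add_sub_cancel_left] at h3
    exact absurd ht3 (not_lt.2 (h2.trans (le_max_right _ _)))
  set y := y₀ + t with hy
  have hyT₂ : ∀ v ∈ T₂, vr v (y - b v) < h₁ v := by
    intro v hv
    have e : y - b v = (y₀ - b v) + t := by rw [hy]; ring
    rw [e]
    exact (vr v).map_add_lt (hy1 v hv) (ht1 v hv)
  have hyint : ∀ v ∉ T₂, v ≠ q₀ → vr v y ≤ 1 := fun v hv hvq =>
    (vr v).map_add_le (hy2 v hv hvq) (ht2 v hvq)
  have hyq : vr q₀ y = vr q₀ t := by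
    rw [hy]
    refine (vr q₀).map_add_eq_of_lt_right ?_
    exact lt_of_le_of_lt ((le_max_left _ _).trans (le_max_left _ _)) ht3
  have hyM : M < vr q₀ y := by
    rw [hyq]
    exact lt_of_le_of_lt (le_max_left _ _) ht3
  have hyT₁ : ∀ v ∈ T₁, vr v (y - a₁ v 0) < g₁ v := by
    intro v hv
    have h1 := hyT₂ v (hT₁T₂ v hv)
    rw [hb, hh₁] at h1
    dsimp only at h1
    rwa [if_pos hv, if_pos hv] at h1
  have hxy : ∀ v ∈ T₁, ∀ j, vr v ((Fin.cons y x : Fin (N + 1) → k) j - a₁ v j) < g₁ v := by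
    intro v hv j
    refine Fin.cases ?_ (fun j => ?_) j
    · rw [Fin.cons_zero]
      exact hyT₁ v hv
    · rw [Fin.cons_succ]
      exact hx1 v hv j
  have hgood : ∀ v ∈ T₁, v ∉ T → (∀ j, vr v ((Fin.cons y x : Fin (N + 1) → k) j) ≤ 1) ∧
      ∃ i, 1 ≤ vr v (eval (Fin.cons y x : Fin (N + 1) → k) (P i)) := by
    intro v hv hvT
    refine hδ v hvT (Finset.mem_erase.1 hv).1 _ fun j => ?_
    have h1 := hxy v hv j
    rw [ha₁, hg₁] at h1
    dsimp only at h1
    rwa [if_neg hvT, if_neg hvT] at h1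
  refine ⟨Fin.cons y x, fun v hv j => ?_, fun v hv hvq j => ?_, fun v hv hvq => ?_, ?_, ?_,
    fun j hj => ?_⟩
  · have h1 := hxy v (hTT₁ v hv) j
    rw [ha₁, hg₁] at h1
    dsimp only at h1
    rwa [if_pos hv, if_pos hv] at h1
  · by_cases hv1 : v ∈ T₁
    · exact (hgood v hv1 hv).1 j
    · refine Fin.cases ?_ (fun j => ?_) j
      · rw [Fin.cons_zero]
        by_cases hv2 : v ∈ T₂
        · have h1 := hyT₂ v hv2
          rw [hb, hh₁] at h1
          dsimp only at h1
          rw [if_neg hv1, if_neg hv1] at h1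
          have e : y = (y - w v) + w v := by ring
          rw [e]
          exact (vr v).map_add_le h1.le (hw1 v hv1 hvq)
        · exact hyint v hv2 hvq
      · rw [Fin.cons_succ]
        exact hx2 v hv1 hvq j
  · by_cases hv1 : v ∈ T₁
    · exact (hgood v hv1 hv).2
    · by_cases hv2 : v ∈ T₂
      · have h1 := hyT₂ v hv2
        rw [hb, hh₁] at h1
        dsimp only at h1
        rw [if_neg hv1, if_neg hv1] at h1
        obtain ⟨i, hi⟩ := hw2 v hv1 hvq
        refine ⟨i, ?_⟩
        rw [hval]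
        by_contra hcon
        rw [not_le] at hcon
        have e : ((p i).map (eval x)).eval (w v) - ((p i).map (eval x)).eval y =
            ∑ n ∈ Finset.range (D + 1), ((p i).map (eval x)).coeff n * (w v ^ n - y ^ n) := by
          rw [Polynomial.eval_eq_sum_range' (n := D + 1)
            (Nat.lt_succ_of_le ((Polynomial.natDegree_map_le).trans (hD i))),
            Polynomial.eval_eq_sum_range' (n := D + 1)
            (Nat.lt_succ_of_le ((Polynomial.natDegree_map_le).trans (hD i))),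
            ← Finset.sum_sub_distrib]
          exact Finset.sum_congr rfl fun n _ => by ring
        have hyv : vr v y ≤ 1 := by
          have e : y = (y - w v) + w v := by ring
          rw [e]
          exact (vr v).map_add_le h1.le (hw1 v hv1 hvq)
        have h2 : vr v (((p i).map (eval x)).eval (w v) -
            ((p i).map (eval x)).eval y) < 1 := by
          rw [e]
          refine Valuation.map_sum_lt _ one_ne_zero fun n _ => ?_
          rw [map_mul]
          have h3 : vr v (w v ^ n - y ^ n) < 1 := by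
            obtain ⟨q, hq⟩ : ∃ q : k, vr v q ≤ 1 ∧ w v ^ n - y ^ n = (w v - y) * q := by
              refine ⟨∑ i ∈ Finset.range n, w v ^ i * y ^ (n - 1 - i), ?_, ?_⟩
              · refine Valuation.map_sum_le _ fun i _ => ?_
                rw [map_mul, map_pow, map_pow]
                exact mul_le_one' (pow_le_one' (hw1 v hv1 hvq) _) (pow_le_one' hyv _)
              · rw [mul_comm]
                exact (Commute.geom_sum₂_mul (Commute.all _ _) n).symm
            rw [hq.2, map_mul]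
            calc _ ≤ vr v (w v - y) * 1 := mul_le_mul_right hq.1 _
              _ < 1 := by rw [mul_one, Valuation.map_sub_swap]; exact h1
          calc _ ≤ 1 * vr v (w v ^ n - y ^ n) := mul_le_mul_left (hcoef v hv1 hvq i n) _
            _ < 1 := by rw [one_mul]; exact h3
        have e4 : ((p i).map (eval x)).eval (w v) = (((p i).map (eval x)).eval (w v) -
            ((p i).map (eval x)).eval y) + ((p i).map (eval x)).eval y := by ring
        rw [e4] at hi
        exact absurd hi (not_le.mpr ((vr v).map_add_lt h2 hcon))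
      · by_contra hcon
        push Not at hcon
        have e : ∑ i, ((u i).map (eval x)).eval y * ((p i).map (eval x)).eval y = eval x r := by
          have h1 := congrArg (fun f : Polynomial (MvPolynomial (Fin N) k) =>
            (f.map (eval x)).eval y) hu
          rw [Polynomial.map_C, Polynomial.eval_C] at h1
          rw [← h1, Polynomial.map_sum, Polynomial.eval_finsetSum]
          refine Finset.sum_congr rfl fun i _ => ?_
          rw [Polynomial.map_mul, Polynomial.eval_mul]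
        have h1 : vr v (eval x r) < 1 := by
          rw [← e]
          refine Valuation.map_sum_lt _ one_ne_zero fun i _ => ?_
          rw [map_mul]
          have h2 : vr v (((u i).map (eval x)).eval y) ≤ 1 := by
            rw [Polynomial.eval_eq_sum_range]
            refine Valuation.map_sum_le _ fun n _ => ?_
            rw [map_mul, map_pow, Polynomial.coeff_map]
            exact mul_le_one' (hT₂u v hv2 hvq i n) (pow_le_one' (hyint v hv2 hvq) _)
          have h3 := hcon i
          rw [hval] at h3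
          calc _ ≤ 1 * vr v (((p i).map (eval x)).eval y) := mul_le_mul_left h2 _
            _ < 1 := by rw [one_mul]; exact h3
        rw [hT₂r v hv2 hvq] at h1
        exact lt_irrefl _ h1
  · rw [eval_eq_eval_mv_eval']
    exact ht
  · rw [Fin.cons_zero]
    exact lt_of_le_of_lt ((le_max_left _ _).trans (le_max_right _ _)) hyM
  · obtain ⟨i, rfl⟩ := Fin.exists_succ_eq.2 hj
    rw [Fin.cons_zero, Fin.cons_succ]
    refine lt_of_le_of_lt ?_ hyM
    refine le_trans ?_ ((le_max_right _ _).trans (le_max_right _ _))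
    exact mul_le_mul_right (Finset.single_le_sum (f := fun j => vr q₀ (x j))
      (fun _ _ => zero_le) (Finset.mem_univ i)) _

theorem av (q₀ : Place k) : ∀ N : ℕ, Av k q₀ N := by
  intro N
  induction N with
  | zero =>
    intro ι _ P hP Q hQ T hq a g hg hloc
    refine ⟨fun j => j.elim0, fun v _ j => j.elim0, fun v _ _ j => j.elim0,
      fun v hv hvq => ?_, ?_⟩
    · obtain ⟨x, -, i, hi⟩ := hloc v hv hvq
      refine ⟨i, ?_⟩
      rwa [Subsingleton.elim (fun j => j.elim0) x]
    · intro h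
      apply hQ
      rw [eq_C_of_isEmpty Q] at h ⊢
      rw [eval_C] at h
      rw [h, C_0]
  | succ N ih =>
    intro ι _ P hP Q hQ T hq a g hg hloc
    obtain ⟨x, h1, h2, h3, h4, -, -⟩ := step ih P hP Q hQ T hq a g hg hloc 0
    exact ⟨x, h1, h2, h3, h4⟩

/-- **The avoidance lemma over a function field.**  The first coordinate dominates the others at
the place `q₀`. -/
theorem avoid_ff (q₀ : Place k) (N : ℕ) {ι : Type} [Finite ι]
    (P : ι → MvPolynomial (Fin (N + 1)) k) (hP : ∀ q, (∀ i, q ∣ P i) → IsUnit q)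
    (Q : MvPolynomial (Fin (N + 1)) k) (hQ : Q ≠ 0)
    (T : Finset (Place k)) (hq₀ : q₀ ∉ T) (a : Place k → Fin (N + 1) → k)
    (g : Place k → ℝ) (hg : ∀ v ∈ T, 0 < g v)
    (hloc : ∀ v ∉ T, v ≠ q₀ → ∃ x : Fin (N + 1) → k, (∀ j, v.abv (x j) ≤ 1) ∧
      ∃ i, 1 ≤ v.abv (eval x (P i))) (R : ℝ) :
    ∃ x : Fin (N + 1) → k, (∀ v ∈ T, ∀ j, v.abv (x j - a v j) < g v) ∧
      (∀ v ∉ T, v ≠ q₀ → ∀ j, v.abv (x j) ≤ 1) ∧
      (∀ v ∉ T, v ≠ q₀ → ∃ i, 1 ≤ v.abv (eval x (P i))) ∧ eval x Q ≠ 0 ∧
      R < q₀.abv (x 0) ∧ ∀ j, j ≠ 0 → R * q₀.abv (x j) < q₀.abv (x 0) := by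
  have hge : ∀ (v : Place k) (c : k), 1 ≤ vr v c ↔ 1 ≤ v.abv c := fun v c => by
    rw [← coe_vr, ← NNReal.coe_one, NNReal.coe_le_coe]
  obtain ⟨x, h1, h2, h3, h4, h5, h6⟩ := step (av q₀ N) P hP Q hQ T hq₀ a
    (fun v => (g v).toNNReal) (fun v hv => Real.toNNReal_pos.2 (hg v hv)) (by
      intro v hv hvq
      obtain ⟨x, hx1, i, hx2⟩ := hloc v hv hvq
      exact ⟨x, fun j => vr_le_one.2 (hx1 j), i, (hge v _).2 hx2⟩) R.toNNReal
  refine ⟨x, fun v hv j => ?_, fun v hv hvq j => vr_le_one.1 (h2 v hv hvq j),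
    fun v hv hvq => ?_, h4, ?_, fun j hj => ?_⟩
  · have := h1 v hv j
    rw [← NNReal.coe_lt_coe, coe_vr, Real.coe_toNNReal _ (hg v hv).le] at this
    exact this
  · obtain ⟨i, hi⟩ := h3 v hv hvq
    exact ⟨i, (hge v _).1 hi⟩
  · have := h5
    rw [← NNReal.coe_lt_coe, coe_vr] at this
    exact lt_of_le_of_lt (Real.le_coe_toNNReal R) this
  · have := h6 j hj
    rw [← NNReal.coe_lt_coe, NNReal.coe_mul, coe_vr, coe_vr] at this
    exact lt_of_le_of_lt (mul_le_mul_of_nonneg_right (Real.le_coe_toNNReal R)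
      (q₀.abv.nonneg _)) this

end Vale.Agent.P011.H271.AvoidF
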