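import Vale.Agent.P011.H487.Pm
import Vale.Agent.P011.H271.AvoidF
import Vale.Agent.P011.Hey.H63.PlaceRes

/-!
# Polynomial maps over a function field: continuity and integrality
-/

open Module MvPolynomial
open scoped NNReal

set_option linter.unusedSectionVars false

namespace Vale.Agent.P011.H271.S3

open Vale.Agent.P011.H738 Vale.Agent.P011.H271 Vale.Agent.P011.H271.ConF Vale.Agent.P011.H182
open Vale.Agent.P011.H487 (Pm)

/-- Polynomials are continuous. -/
theorem eval_close_abv {k : Type} [Field k] (v : Place k) {m : ℕ} (P : MvPolynomial (Fin m) k)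
    (a : Fin m → k) {ε : ℝ} (hε : 0 < ε) : ∃ δ : ℝ, 0 < δ ∧ ∀ x : Fin m → k,
      (∀ j, v.abv (x j - a j) < δ) → v.abv (eval x P - eval a P) < ε := by
  obtain ⟨δ, hδ, h⟩ := AvoidF.eval_close (vr v) P a ε.toNNReal (Real.toNNReal_pos.2 hε).ne'
  refine ⟨δ, NNReal.coe_pos.2 (zero_lt_iff.2 hδ), fun x hx => ?_⟩
  have h1 := h x fun j => by
    rw [← NNReal.coe_lt_coe, coe_vr]
    exact hx j
  rw [← NNReal.coe_lt_coe, coe_vr, Real.coe_toNNReal _ hε.le] at h1
  exact h1

/-- The place `V` of `K` lies above the place `v` of `k`. -/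
def Ab {k K : Type} [Field k] [Field K] [Algebra k K] (V : Place K) (v : Place k) : Prop :=
  ∃ c : ℝ, 0 < c ∧ ∀ x : k, V.abv (algebraMap k K x) = v.abv x ^ c

section ab

variable {k K : Type} [Field k] [Field K] [Algebra k K] {V : Place K} {v v' : Place k}

theorem Ab.le_one (h : Ab V v) {x : k} (hx : v.abv x ≤ 1) : V.abv (algebraMap k K x) ≤ 1 := by
  obtain ⟨c, hc, h⟩ := h
  rw [h]
  exact Real.rpow_le_one (v.abv.nonneg x) hx hc.le

theorem Ab.one_le (h : Ab V v) {x : k} (hx : 1 ≤ v.abv x) : 1 ≤ V.abv (algebraMap k K x) := by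
  obtain ⟨c, hc, h⟩ := h
  rw [h]
  exact Real.one_le_rpow hx hc.le

theorem Ab.lt_one (h : Ab V v) {x : k} (hx : v.abv x < 1) : V.abv (algebraMap k K x) < 1 := by
  obtain ⟨c, hc, h⟩ := h
  rw [h]
  exact Real.rpow_lt_one (v.abv.nonneg x) hx hc

theorem Ab.le_one_iff (h : Ab V v) {x : k} : V.abv (algebraMap k K x) ≤ 1 ↔ v.abv x ≤ 1 := by
  refine ⟨fun h1 => ?_, h.le_one⟩
  by_contra hcon
  rw [not_le] at hcon
  obtain ⟨c, hc, h⟩ := h
  rw [h] at h1
  exact absurd h1 (not_le.2 (Real.one_lt_rpow hcon hc))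

/-- Small elements. -/
theorem Ab.small (h : Ab V v) {ε : ℝ} (hε : 0 < ε) :
    ∃ δ : ℝ, 0 < δ ∧ ∀ x : k, v.abv x < δ → V.abv (algebraMap k K x) < ε := by
  obtain ⟨c, hc, h⟩ := h
  refine ⟨ε ^ c⁻¹, Real.rpow_pos_of_pos hε _, fun x hx => ?_⟩
  rw [h]
  calc v.abv x ^ c < (ε ^ c⁻¹) ^ c := Real.rpow_lt_rpow (v.abv.nonneg x) hx hc
    _ = ε := by rw [← Real.rpow_mul hε.le, inv_mul_cancel₀ hc.ne', Real.rpow_one]

theorem place_ext [GFF k] (h : ∀ x : k, v.abv x ≤ 1 ↔ v'.abv x ≤ 1) : v = v' := by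
  apply toPl_injective
  apply Subtype.ext
  ext x
  rw [(toPl v).mem_iff, (toPl v').mem_iff, toPl_le_one, toPl_le_one, h]

theorem below_unique [GFF k] (h : Ab V v) (h' : Ab V v') : v = v' :=
  place_ext fun x => by rw [← h.le_one_iff, ← h'.le_one_iff]

end ab

section maps

variable {k K D : Type} [Field k] [Field K] [Algebra k K] {m N : ℕ}

/-- Continuity of a polynomial map with values in `D`. -/
theorem cont_na [DivisionRing D] [Algebra k D] (B : Basis (Fin N) k D)
    {F : (Fin m → k) → D} (hF : Pm F) (v : Place k) (a : Fin m → k) :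
    ∀ ε : ℝ, 0 < ε → ∃ γ : ℝ, 0 < γ ∧ ∀ x : Fin m → k, (∀ j, v.abv (x j - a j) < γ) →
      na B v.abv (F x - F a) < ε := by
  refine Pm.ind (P := fun F : (Fin m → k) → D => ∀ ε : ℝ, 0 < ε → ∃ γ : ℝ, 0 < γ ∧
    ∀ x : Fin m → k, (∀ j, v.abv (x j - a j) < γ) →
      na B v.abv (F x - F a) < ε) (fun p w ε hε => ?_) (fun F G _ _ h3 h4 ε hε => ?_) hF
  · have h0 : 0 ≤ na B v.abv w := na_nonneg _ _ _
    obtain ⟨δ, hδ, h2⟩ := eval_close_abv v p a (ε := ε / (na B v.abv w + 1)) (by positivity)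
    refine ⟨δ, hδ, fun x hx => ?_⟩
    have h3 := h2 x hx
    rw [← sub_smul, na_smul]
    rw [lt_div_iff₀ (by positivity)] at h3
    refine lt_of_le_of_lt ?_ h3
    exact mul_le_mul_of_nonneg_left (by linarith) (AbsoluteValue.nonneg _ _)
  · obtain ⟨γ, hγ, h1⟩ := h3 (ε / 2) (by positivity)
    obtain ⟨γ', hγ', h2⟩ := h4 (ε / 2) (by positivity)
    refine ⟨min γ γ', lt_min hγ hγ', fun x hx => ?_⟩
    have e : F x + G x - (F a + G a) = (F x - F a) + (G x - G a) := by abel
    rw [e]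
    have h5 := h1 x fun j => (hx j).trans_le (min_le_left _ _)
    have h6 := h2 x fun j => (hx j).trans_le (min_le_right _ _)
    refine (na_add_le _ _ _ _).trans_lt ?_
    linarith

/-- Continuity of a polynomial map with values in `K`. -/
theorem cont_abv {F : (Fin m → k) → K} (hF : Pm F) {V : Place K}
    {v : Place k} (hV : Ab V v) (a : Fin m → k) :
    ∀ ε : ℝ, 0 < ε → ∃ γ : ℝ, 0 < γ ∧ ∀ x : Fin m → k, (∀ j, v.abv (x j - a j) < γ) →
      V.abv (F x - F a) < ε := by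
  refine Pm.ind (P := fun F : (Fin m → k) → K => ∀ ε : ℝ, 0 < ε → ∃ γ : ℝ, 0 < γ ∧
    ∀ x : Fin m → k, (∀ j, v.abv (x j - a j) < γ) →
      V.abv (F x - F a) < ε) (fun p w ε hε => ?_) (fun F G _ _ h3 h4 ε hε => ?_) hF
  · have h0 : 0 ≤ V.abv w := V.abv.nonneg _
    obtain ⟨ρ, hρ, h1⟩ := hV.small (ε := ε / (V.abv w + 1)) (by positivity)
    obtain ⟨δ, hδ, h2⟩ := eval_close_abv v p a hρ
    refine ⟨δ, hδ, fun x hx => ?_⟩
    have h3 := h1 _ (h2 x hx)
    rw [← sub_smul, Algebra.smul_def, map_mul]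
    rw [lt_div_iff₀ (by positivity)] at h3
    refine lt_of_le_of_lt ?_ h3
    exact mul_le_mul_of_nonneg_left (by linarith) (AbsoluteValue.nonneg _ _)
  · obtain ⟨γ, hγ, h1⟩ := h3 ε hε
    obtain ⟨γ', hγ', h2⟩ := h4 ε hε
    refine ⟨min γ γ', lt_min hγ hγ', fun x hx => ?_⟩
    have e : F x + G x - (F a + G a) = (F x - F a) + (G x - G a) := by ring
    rw [e]
    exact (V.nonarch _ _).trans_lt (max_lt (h1 x fun j => (hx j).trans_le (min_le_left _ _))
      (h2 x fun j => (hx j).trans_le (min_le_right _ _)))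

/-- An element of `K` is integral at almost all places. -/
theorem finite_gt [GFF K] (w : K) : {V : Place K | 1 < V.abv w}.Finite := by
  by_cases hw : w = 0
  · refine Set.Finite.subset Set.finite_empty fun V hV => ?_
    rw [Set.mem_ofPred_eq, hw, map_zero] at hV
    exact absurd hV (by norm_num)
  · exact (place_finite hw).subset fun V hV => ne_of_gt hV

/-- The places below a finite set. -/
theorem finite_below [GFF k] [GFF K] [Algebra.IsAlgebraic k K] {S : Set (Place K)}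
    (hS : S.Finite) : {v : Place k | ∃ V ∈ S, Ab V v}.Finite := by
  choose bl hbl using fun V : Place K => Hey.H63.exists_below (k := k) V
  refine (hS.image bl).subset ?_
  rintro v ⟨V, hV, h2⟩
  exact ⟨V, hV, below_unique (hbl V) h2⟩

/-- Integrality of a polynomial map with values in `K`. -/
theorem finite_pm [GFF k] [GFF K] [Algebra.IsAlgebraic k K] {F : (Fin m → k) → K} (hF : Pm F) :
    {v : Place k | ∃ V : Place K, Ab V v ∧ ∃ x : Fin m → k, (∀ j, v.abv (x j) ≤ 1) ∧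
      1 < V.abv (F x)}.Finite := by
  refine Pm.ind (P := fun F : (Fin m → k) → K => {v : Place k |
    ∃ V : Place K, Ab V v ∧ ∃ x : Fin m → k, (∀ j, v.abv (x j) ≤ 1) ∧
      1 < V.abv (F x)}.Finite) (fun p w => ?_) (fun F G _ _ h3 h4 => ?_) hF
  · refine ((AvoidF.bad_finite p).union (finite_below (k := k) (finite_gt w))).subset ?_
    rintro v ⟨V, hV, x, hx, h1⟩
    by_contra hcon
    rw [Set.mem_union, not_or] at hcon
    obtain ⟨h2, h3⟩ := hcon
    simp only [Set.mem_ofPred_eq, not_exists, not_and, not_lt] at h2 h3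
    refine absurd h1 (not_lt.mpr ?_)
    simp only [Algebra.smul_def, map_mul]
    have h4 : V.abv (algebraMap k K (eval x p)) ≤ 1 := by
      refine hV.le_one (vr_le_one.1 (AvoidF.eval_int _ p h2 x fun j => vr_le_one.2 (hx j)))
    have h5 : V.abv w ≤ 1 := by
      by_contra h6
      exact h3 V (not_le.1 h6) hV
    exact mul_le_one₀ h4 (V.abv.nonneg _) h5
  · refine (h3.union h4).subset ?_
    rintro v ⟨V, hV, x, hx, h1⟩
    by_contra hcon
    rw [Set.mem_union, not_or] at hcon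
    obtain ⟨h2, h3⟩ := hcon
    simp only [Set.mem_ofPred_eq, not_exists, not_and, not_lt] at h2 h3
    exact absurd h1 (not_lt.mpr ((V.nonarch _ _).trans (max_le (h2 V hV x hx) (h3 V hV x hx))))

end maps

end Vale.Agent.P011.H271.S3
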