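import Vale.Agent.P011.H271.ConF1
import Vale.Agent.P011.H698.DensFF

/-!
# GOODCONIC over function fields (helper271)

(Twin of `H672/Conic.lean`.)  A family of elements of a cubic extension, without common zero of the
conjugates: units at almost all places without a point, and the choice of the parameter.
-/

open Polynomial Module
open scoped NNReal

namespace Vale.Agent.P011.H271.ConF

open Vale.Agent.P011.H738 Vale.Agent.P011.H271

/-! ### Hensel -/

section hensel

variable {L : Type*} [NormedField L] [IsUltrametricDist L]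

/-- The ring of integers. -/
def OL (L : Type*) [NormedField L] [IsUltrametricDist L] : Subring L where
  carrier := {x | ‖x‖ ≤ 1}
  mul_mem' := by
    intro x y hx hy
    change ‖x * y‖ ≤ 1
    rw [norm_mul]
    exact mul_le_one₀ hx (norm_nonneg _) hy
  one_mem' := by
    change ‖(1 : L)‖ ≤ 1
    rw [norm_one]
  add_mem' := fun hx hy => (IsUltrametricDist.norm_add_le_max _ _).trans (max_le hx hy)
  zero_mem' := by
    change ‖(0 : L)‖ ≤ 1
    rw [norm_zero]; exact zero_le_one
  neg_mem' := by
    intro x hx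
    change ‖-x‖ ≤ 1
    rw [norm_neg]
    exact hx

/-- **Hensel's lemma** in a locally compact ultrametric field. -/
theorem hensel_norm [ProperSpace L] (P : L[X]) (hP : ∀ i, ‖P.coeff i‖ ≤ 1)
    (x : L) (hx : ‖x‖ ≤ 1) (h : ‖P.eval x‖ < ‖P.derivative.eval x‖ ^ 2) :
    ∃ y, P.eval y = 0 := by
  -- the integral model
  have hO : ∀ z : L, z ∈ OL L ↔ ‖z‖ ≤ 1 := fun z => Iff.rfl
  set O : Subring L := OL L with hOd
  have hPO : (↑P.coeffs : Set L) ⊆ O := by
    intro c hc
    obtain ⟨i, _, rfl⟩ := Polynomial.mem_coeffs_iff.mp hc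
    exact hP i
  set Q : O[X] := P.toSubring O hPO with hQ
  have hQP : Q.map O.subtype = P := by
    refine Polynomial.ext fun i => ?_
    rw [coeff_map]
    exact coeff_toSubring' P O hPO
  have hev : ∀ z : O, P.eval (z : L) = ((Q.eval z : O) : L) := by
    intro z
    rw [← hQP]
    exact eval_map_apply (f := O.subtype) z
  have hev' : ∀ z : O, P.derivative.eval (z : L) = ((Q.derivative.eval z : O) : L) := by
    intro z
    rw [← hQP, derivative_map]
    exact eval_map_apply (f := O.subtype) z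
  have hle : ∀ z : O, ‖(z : L)‖ ≤ 1 := fun z => (hO _).mp z.2
  -- norms
  obtain ⟨c, hc⟩ : ∃ c : ℝ, c = ‖P.derivative.eval x‖ := ⟨_, rfl⟩
  have hh : ‖P.eval x‖ < c ^ 2 := by
    rw [hc]
    exact h
  have hc0 : 0 < c := by
    rcases (norm_nonneg (P.derivative.eval x)).lt_or_eq with h1 | h1
    · rw [hc]; exact h1
    · rw [hc, ← h1] at hh
      have := norm_nonneg (P.eval x)
      norm_num at hh
      linarith
  have hx1 : ‖x‖ ≤ 1 := hx
  have hc1 : c ≤ 1 := by
    have := hle (Q.derivative.eval ⟨x, hx⟩)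
    rw [← hev'] at this
    rw [hc]
    exact this
  obtain ⟨r, hr⟩ : ∃ r : ℝ, r = ‖P.eval x‖ / c := ⟨_, rfl⟩
  have hr0 : 0 ≤ r := by rw [hr]; positivity
  have hrc : r < c := by
    rw [hr, div_lt_iff₀ hc0, ← pow_two]
    exact hh
  -- the minimum
  have hcpt : IsCompact (Metric.closedBall x r) := isCompact_closedBall _ _
  obtain ⟨y, hy, hmin⟩ := hcpt.exists_isMinOn ⟨x, Metric.mem_closedBall_self hr0⟩
    (f := fun z => ‖P.eval z‖) (by fun_prop)
  have hball : ∀ z ∈ Metric.closedBall x r, ‖z‖ ≤ 1 := by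
    intro z hz
    rw [Metric.mem_closedBall, dist_eq_norm] at hz
    have : z = (z - x) + x := by ring
    rw [this]
    exact (IsUltrametricDist.norm_add_le_max _ _).trans (max_le (by linarith) hx1)
  refine ⟨y, ?_⟩
  by_contra hy0
  have hypos : 0 < ‖P.eval y‖ := norm_pos_iff.mpr hy0
  have hyx : ‖P.eval y‖ ≤ ‖P.eval x‖ := hmin (Metric.mem_closedBall_self hr0)
  have hy1 := hball y hy
  have hyd : ‖y - x‖ ≤ r := by rwa [Metric.mem_closedBall, dist_eq_norm] at hy
  -- the derivative at `y`
  have hder : ‖P.derivative.eval y‖ = c := by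
    obtain ⟨z, hz⟩ := evalSubFactor Q.derivative ⟨y, (hO y).mpr hy1⟩ ⟨x, hx⟩
    have h1 : P.derivative.eval y - P.derivative.eval x = z * (y - x) := by
      have := congrArg (fun t : O => (t : L)) hz
      have e1 := hev' ⟨y, (hO y).mpr hy1⟩
      have e2 := hev' ⟨x, hx⟩
      simp only at e1 e2
      rw [e1, e2]
      simpa using this
    have h2 : ‖P.derivative.eval y - P.derivative.eval x‖ < c := by
      rw [h1, norm_mul]
      calc ‖(z : L)‖ * ‖y - x‖ ≤ 1 * r :=
            mul_le_mul (hle z) hyd (norm_nonneg _) zero_le_one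
        _ = r := one_mul r
        _ < c := hrc
    rw [hc] at h2 ⊢
    have h3 := IsUltrametricDist.norm_add_eq_max_of_norm_ne_norm h2.ne
    rw [sub_add_cancel, max_eq_right h2.le] at h3
    exact h3
  have hder0 : P.derivative.eval y ≠ 0 := by
    rw [← norm_pos_iff, hder]; exact hc0
  -- the Newton step
  obtain ⟨s, hs⟩ : ∃ s, s = -(P.eval y / P.derivative.eval y) := ⟨_, rfl⟩
  have hsn : ‖s‖ = ‖P.eval y‖ / c := by rw [hs, norm_neg, norm_div, hder]
  have hsr : ‖s‖ ≤ r := by
    rw [hsn, hr]
    exact div_le_div_of_nonneg_right hyx hc0.le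
  have hs1 : ‖s‖ ≤ 1 := by linarith
  obtain ⟨k, hk⟩ := binomExpansion Q ⟨y, (hO y).mpr hy1⟩ ⟨s, (hO s).mpr hs1⟩
  have h1 : P.eval (y + s) = P.eval y + P.derivative.eval y * s + k * s ^ 2 := by
    have := congrArg (fun t : O => (t : L)) hk
    have e1 := hev' ⟨y, (hO y).mpr hy1⟩
    have e2 := hev ⟨y, (hO y).mpr hy1⟩
    have e3 := hev (⟨y, (hO y).mpr hy1⟩ + ⟨s, (hO s).mpr hs1⟩)
    simp only at e1 e2
    rw [e1, e2]
    rw [← e3] at this
    simpa using this
  have h2 : P.eval (y + s) = k * s ^ 2 := by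
    rw [h1, hs]
    field_simp
    ring
  have h3 : ‖P.eval (y + s)‖ < ‖P.eval y‖ := by
    rw [h2, norm_mul, norm_pow]
    have h4 : ‖(k : L)‖ * ‖s‖ ^ 2 ≤ 1 * ‖s‖ ^ 2 :=
      mul_le_mul_of_nonneg_right (hle k) (by positivity)
    have h5 : ‖s‖ ^ 2 < ‖P.eval y‖ := by
      rw [hsn, div_pow, div_lt_iff₀ (by positivity), pow_two]
      exact mul_lt_mul_of_pos_left (hyx.trans_lt hh) hypos
    linarith
  have h4 : y + s ∈ Metric.closedBall x r := by
    rw [Metric.mem_closedBall, dist_eq_norm]
    have : y + s - x = (y - x) + s := by ring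
    rw [this]
    exact (IsUltrametricDist.norm_add_le_max _ _).trans (max_le hyd hsr)
  have h5 := hmin h4
  exact absurd h3 (not_lt.mpr h5)

end hensel

/-! ### the real valued valuation of a place -/

section vr

variable {k : Type} [Field k]

/-- The absolute value as a valuation. -/
noncomputable def vr (v : Place k) : Valuation k ℝ≥0 where
  toFun x := (v.abv x).toNNReal
  map_zero' := by rw [map_zero, Real.toNNReal_zero]
  map_one' := by rw [map_one, Real.toNNReal_one]
  map_mul' x y := by rw [map_mul, Real.toNNReal_mul (v.abv.nonneg x)]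
  map_add_le_max' x y := by
    rw [le_max_iff]
    rcases le_max_iff.1 (v.nonarch x y) with h | h
    · exact Or.inl (Real.toNNReal_le_toNNReal h)
    · exact Or.inr (Real.toNNReal_le_toNNReal h)

theorem vr_apply (v : Place k) (x : k) : vr v x = (v.abv x).toNNReal := rfl

theorem coe_vr (v : Place k) (x : k) : ((vr v x : ℝ≥0) : ℝ) = v.abv x :=
  Real.coe_toNNReal _ (v.abv.nonneg x)

theorem vr_le_one {v : Place k} {x : k} : vr v x ≤ 1 ↔ v.abv x ≤ 1 := by
  rw [vr_apply, Real.toNNReal_le_one]

theorem vr_lt_one {v : Place k} {x : k} : vr v x < 1 ↔ v.abv x < 1 := by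
  rw [vr_apply, Real.toNNReal_lt_one]

theorem vr_eq_one {v : Place k} {x : k} : vr v x = 1 ↔ v.abv x = 1 := by
  rw [← coe_vr, NNReal.coe_eq_one]

variable [GFF k]

/-- Hensel's lemma for a cubic polynomial with a simple root modulo `v`. -/
theorem exists_root (v : Place k) (p : k[X]) (p0 p1 p2 : k)
    (hp : p = X ^ 3 + C p2 * X ^ 2 + C p1 * X + C p0)
    (h0 : vr v p0 < 1) (h1 : vr v p1 ≤ 1) (h2 : vr v p2 ≤ 1)
    (h : vr v p1 = 1 ∨ (vr v p1 < 1 ∧ vr v p2 = 1)) :
    ∃ y : v.comp, aeval y p = 0 := by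
  have hint : ∀ i, vr v (p.coeff i) ≤ 1 := by
    intro i
    rw [hp]
    simp only [coeff_add, coeff_X_pow, coeff_C_mul, coeff_X, coeff_C]
    rcases i with _ | _ | _ | _ | i
    · simpa using h0.le
    · simpa using h1
    · simpa using h2
    · simp
    · simp [show ¬ (i + 1 + 1 + 1 + 1 = 3) by omega, show ¬ (i + 1 + 1 + 1 + 1 = 2) by omega]
  have key : ∃ x : k, vr v x ≤ 1 ∧ vr v (p.eval x) < 1 ∧ vr v (p.derivative.eval x) = 1 := by
    rcases h with h | ⟨h, h'⟩
    · refine ⟨0, by simp, ?_, ?_⟩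
      · rw [hp]; simpa using h0
      · rw [hp]; simpa using h
    · refine ⟨-p2, by rw [Valuation.map_neg, h'], ?_, ?_⟩
      · have e : p.eval (-p2) = p0 - p1 * p2 := by rw [hp]; simp; ring
        rw [e]
        refine (Valuation.map_sub _ _ _).trans_lt (max_lt h0 ?_)
        rw [map_mul, h', mul_one]
        exact h
      · have e : p.derivative.eval (-p2) = p1 + p2 ^ 2 := by rw [hp]; simp; ring
        have h3 : vr v (p2 ^ 2) = 1 := by rw [map_pow, h', one_pow]
        rw [e, Valuation.map_add_eq_of_lt_right _ (by rw [h3]; exact h), h3]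
  obtain ⟨x, hx1, hx2, hx3⟩ := key
  obtain ⟨y, hy⟩ := hensel_norm (p.map (algebraMap k v.comp)) (fun i => by
    rw [coeff_map, norm_alg]; exact vr_le_one.1 (hint i)) (algebraMap k _ x)
    (by rw [norm_alg]; exact vr_le_one.1 hx1) (by
    rw [derivative_map, eval_map_algebraMap, eval_map_algebraMap, aeval_algebraMap_apply,
      aeval_algebraMap_apply, norm_alg, norm_alg]
    simp only [coe_aeval_eq_eval]
    rw [vr_eq_one.1 hx3, one_pow]
    exact vr_lt_one.1 hx2)
  exact ⟨y, by rw [← hy, eval_map_algebraMap]⟩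

theorem intAt_finite (p : k[X]) : {v : Place k | ¬ IntAt (vr v) p}.Finite := by
  refine Set.Finite.subset (s := ⋃ i ∈ p.support, {v : Place k | v.abv (p.coeff i) ≠ 1}) ?_ ?_
  · exact Set.Finite.biUnion p.support.finite_toSet fun i hi =>
      place_finite (Polynomial.mem_support_iff.1 hi)
  · intro v hv
    simp only [IntAt, Set.mem_ofPred_eq, not_forall, not_le] at hv
    obtain ⟨i, hi⟩ := hv
    simp only [Set.mem_iUnion]
    refine ⟨i, ?_, fun h => ?_⟩
    · rw [Polynomial.mem_support_iff]
      intro h0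
      rw [h0, map_zero] at hi
      exact absurd hi (by simp)
    · rw [vr_eq_one.2 h] at hi
      exact lt_irrefl _ hi

theorem goodB_finite {F : Type*} [Field F] [Algebra k F] [Algebra.IsSeparable k F]
    (b : Basis (Fin 3) k F) : {v : Place k | ¬ GoodB b (vr v)}.Finite := by
  have hfd : FiniteDimensional k F := Module.Finite.of_basis b
  have hd : (Algebra.traceMatrix k b).det ≠ 0 := by
    rw [← Algebra.discr_def]
    exact Algebra.discr_not_zero_of_basis k b
  have key : ∀ x : k, {v : Place k | 1 < vr v x}.Finite := by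
    intro x
    by_cases hx : x = 0
    · refine Set.Finite.subset Set.finite_empty fun v hv => ?_
      rw [Set.mem_ofPred_eq, hx, map_zero] at hv
      exact absurd hv (by simp)
    · refine (place_finite hx).subset fun v hv => ?_
      intro h
      rw [Set.mem_ofPred_eq, vr_eq_one.2 h] at hv
      exact lt_irrefl _ hv
  let A : Set (Place k) := ⋃ (i : Fin 3) (j : Fin 3) (l : Fin 3),
    {v : Place k | 1 < vr v (b.repr (b i * b j) l)}
  let B : Set (Place k) := ⋃ (l : Fin 3), {v : Place k | 1 < vr v (b.repr 1 l)}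
  let C : Set (Place k) := {v : Place k | v.abv (Algebra.traceMatrix k b).det ≠ 1}
  have hA : A.Finite := Set.finite_iUnion fun i => Set.finite_iUnion fun j =>
    Set.finite_iUnion fun l => key _
  have hB : B.Finite := Set.finite_iUnion fun l => key _
  have hC : C.Finite := place_finite hd
  refine ((hA.union hB).union hC).subset fun v hv => ?_
  by_contra hcon
  apply hv
  simp only [Set.mem_union, not_or] at hcon
  obtain ⟨⟨h1, h2⟩, h3⟩ := hcon
  refine ⟨fun i j l => ?_, fun l => ?_, ?_⟩
  · by_contra h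
    apply h1
    simp only [A, Set.mem_iUnion]
    exact ⟨i, j, l, not_le.mp h⟩
  · by_contra h
    apply h2
    simp only [B, Set.mem_iUnion]
    exact ⟨l, not_le.mp h⟩
  · have h4 : v.abv (Algebra.traceMatrix k b).det = 1 := by
      by_contra h
      exact h3 h
    exact vr_eq_one.2 h4

/-- Polynomials without a common factor have no common zero modulo almost all places. -/
theorem exists_unit {ι : Type*} [Fintype ι] (P : ι → k[X])
    (h : Ideal.span (Set.range P) = ⊤) :
    ∃ S : Set (Place k), S.Finite ∧ ∀ v ∉ S, ∀ t : k, vr v t ≤ 1 →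
      ∃ j, 1 ≤ vr v ((P j).eval t) := by
  classical
  have h1 : (1 : k[X]) ∈ Ideal.span (Set.range P) := by rw [h]; trivial
  rw [Ideal.mem_span_range_iff_exists_fun] at h1
  obtain ⟨U, hU⟩ := h1
  refine ⟨⋃ j, {v | ¬ IntAt (vr v) (U j)}, Set.finite_iUnion fun j => intAt_finite _, ?_⟩
  intro v hv t ht
  simp only [Set.mem_iUnion, Set.mem_ofPred_eq, not_exists, not_not] at hv
  exact exists_unit_at hU hv ht

end vr

end Vale.Agent.P011.H271.ConF
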