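import Vale.Agent.P011.H271.Fin

/-! # Global function fields, their places and normalised valuations (helper271) -/

namespace Vale.Agent.P011.H271

open Polynomial IsDedekindDomain HeightOneSpectrum WithZero

set_option linter.style.haveILetI false
set_option linter.unusedSectionVars false

noncomputable section

/-- a finite separable embedding of `F(t)` -/
def IsStr (F : Type) [Field F] (k : Type*) [Field k] (φ : RatFunc F →+* k) : Prop :=
  @FiniteDimensional (RatFunc F) k _ _ φ.toAlgebra.toModule ∧
      @Algebra.IsSeparable (RatFunc F) k _ _ φ.toAlgebra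

/-- global function field (of any characteristic) -/
class GFF (k : Type*) [Field k] : Prop where
  out : ∃ (F : Type) (_ : Field F) (_ : Finite F) (φ : RatFunc F →+* k), IsStr F k φ

theorem GFF.mk' (F : Type) [Field F] [Finite F] (k : Type*) [Field k]
    [Algebra (RatFunc F) k] [FiniteDimensional (RatFunc F) k] : GFF k := by
  obtain ⟨φ, h1, h2⟩ := exists_separating F k
  exact ⟨F, inferInstance, inferInstance, φ, h1, h2⟩

theorem IsStr.comp {F : Type} [Field F] {k : Type*} [Field k] {φ : RatFunc F →+* k}
    (h : IsStr F k φ) (e : RatFunc F ≃+* RatFunc F) :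
    IsStr F k (φ.comp (e : RatFunc F →+* RatFunc F)) := by
  obtain ⟨h1, h2⟩ := h
  refine ⟨?_, ?_⟩
  · exact @Module.Finite.of_equiv_equiv (RatFunc F) k (RatFunc F) k _ _ _ _ φ.toAlgebra
      (φ.comp (e : RatFunc F →+* RatFunc F)).toAlgebra e.symm (RingEquiv.refl k) (by
        ext x
        change φ (e (e.symm x)) = φ x
        rw [e.apply_symm_apply]) h1
  · exact @Algebra.IsSeparable.of_equiv_equiv (RatFunc F) k (RatFunc F) k _ _ _ _ φ.toAlgebra
      (φ.comp (e : RatFunc F →+* RatFunc F)).toAlgebra e.symm (RingEquiv.refl k) (by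
        ext x
        change φ (e (e.symm x)) = φ x
        rw [e.apply_symm_apply]) h2

/-- `X ↦ X⁻¹` -/
theorem exists_inv (F : Type) [Field F] :
    ∃ e : RatFunc F ≃+* RatFunc F, e RatFunc.X = RatFunc.X⁻¹ := by
  have ht : Transcendental F (RatFunc.X⁻¹ : RatFunc F) := by
    rw [Transcendental, IsAlgebraic.inv_iff]
    exact RatFunc.transcendental_X
  let ψ : RatFunc F →ₐ[F] RatFunc F :=
    (IntermediateField.val _).comp (RatFunc.algEquivOfTranscendental _ ht).toAlgHom
  have hψ : ψ RatFunc.X = RatFunc.X⁻¹ := by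
    simp [ψ]
  have hid : ψ.comp ψ = AlgHom.id F _ := by
    have h2 : ∀ p : F[X], ψ (ψ (algebraMap F[X] (RatFunc F) p)) = algebraMap F[X] (RatFunc F) p := by
      intro p
      have : ((ψ.comp ψ).comp (IsScalarTower.toAlgHom F F[X] (RatFunc F))) =
          (IsScalarTower.toAlgHom F F[X] (RatFunc F)) := by
        ext
        simp [hψ]
      exact DFunLike.congr_fun this p
    ext x
    obtain ⟨a, b, hb, rfl⟩ := IsFractionRing.div_surjective (A := F[X]) x
    simp only [AlgHom.comp_apply, map_div₀, h2, AlgHom.id_apply]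
  refine ⟨(AlgEquiv.ofAlgHom ψ ψ hid hid : RatFunc F ≃ₐ[F] RatFunc F), ?_⟩
  exact hψ

end

end Vale.Agent.P011.H271
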