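import Vale.Agent.P011.H271.Coc

/-! # Strong approximation and finiteness with respect to ANY place (helper271) -/

namespace Vale.Agent.P011.H271

open Polynomial IsDedekindDomain HeightOneSpectrum WithZero

set_option linter.style.haveILetI false
set_option linter.unusedSectionVars false

noncomputable section

variable {k : Type*} [Field k] [GFF k]

/-- a uniformiser -/
theorem Pl.exists_pi (V : Pl k) : ∃ π : k, V.v π = exp (-1 : ℤ) := V.v_surj _

theorem Pl.exists_val (V : Pl k) (n : ℤ) : ∃ z : k, V.v z = exp n := V.v_surj _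

/-- finitely many representatives modulo the valuation ring -/
theorem Pl.exists_reps (V : Pl k) (N : ℕ) : ∃ R : Finset k, ∀ x, V.v x ≤ exp (N : ℤ) →
    ∃ r ∈ R, V.v (x - r) ≤ 1 := by
  classical
  haveI := V.resfin
  haveI : Fintype (IsLocalRing.ResidueField V.1) := Fintype.ofFinite _
  obtain ⟨π, hπ⟩ := V.exists_pi
  have hπ0 : π ≠ 0 := by
    rintro rfl; rw [map_zero] at hπ; exact exp_ne_zero hπ.symm
  let lift : IsLocalRing.ResidueField V.1 → V.1 := fun a =>
    (IsLocalRing.residue_surjective (R := V.1) a).choose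
  have hlift : ∀ a, IsLocalRing.residue V.1 (lift a) = a := fun a =>
    (IsLocalRing.residue_surjective (R := V.1) a).choose_spec
  -- residue representatives
  have hres : ∀ x : k, V.v x ≤ 1 → ∃ a, V.v (x - lift a) ≤ exp (-1 : ℤ) := by
    intro x hx
    let x' : V.1 := ⟨x, (V.mem_iff x).2 hx⟩
    refine ⟨IsLocalRing.residue V.1 x', ?_⟩
    have h1 : IsLocalRing.residue V.1 (x' - lift (IsLocalRing.residue V.1 x')) = 0 := by
      rw [map_sub, hlift, sub_self]
    rw [IsLocalRing.residue_eq_zero_iff, ValuationSubring.valuation_lt_one_iff] at h1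
    have he : V.v.IsEquiv V.1.valuation := by
      have := Valuation.isEquiv_valuation_valuationSubring V.v
      rwa [V.v_sub] at this
    have h2 : V.v (x - lift (IsLocalRing.residue V.1 x')) < 1 := he.lt_one_iff_lt_one.2 h1
    by_cases h0 : x - (lift (IsLocalRing.residue V.1 x') : k) = 0
    · rw [h0, map_zero]; exact zero_le
    have h3 : V.v (x - lift (IsLocalRing.residue V.1 x')) ≠ 0 := (Valuation.ne_zero_iff _).2 h0
    rw [← exp_zero, ← log_lt_iff_lt_exp h3] at h2
    rw [← log_le_iff_le_exp h3]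
    omega
  induction N with
  | zero =>
    refine ⟨{0}, fun x hx => ⟨0, Finset.mem_singleton_self _, ?_⟩⟩
    simpa using hx
  | succ N ih =>
    obtain ⟨R, hR⟩ := ih
    refine ⟨(Finset.univ ×ˢ R).image (fun ar => (lift ar.1 : k) * (π ^ (N + 1))⁻¹ + ar.2), ?_⟩
    intro x hx
    have hπv : V.v (π ^ (N + 1)) = exp (-((N : ℤ) + 1)) := by
      rw [map_pow, hπ, ← exp_nsmul]; simp
    have hx1 : V.v (x * π ^ (N + 1)) ≤ 1 := by
      rw [map_mul, hπv]
      calc V.v x * exp (-((N : ℤ) + 1)) ≤ exp ((N + 1 : ℕ) : ℤ) * exp (-((N : ℤ) + 1)) := by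
            gcongr
        _ = 1 := by rw [← exp_add, ← exp_zero]; congr 1; push_cast; ring
    obtain ⟨a, ha⟩ := hres _ hx1
    have hx2 : V.v (x - lift a * (π ^ (N + 1))⁻¹) ≤ exp (N : ℤ) := by
      have e1 : x - lift a * (π ^ (N + 1))⁻¹ = (x * π ^ (N + 1) - lift a) * (π ^ (N + 1))⁻¹ := by
        field_simp
      rw [e1, map_mul, map_inv₀, hπv]
      calc V.v (x * π ^ (N + 1) - lift a) * (exp (-((N : ℤ) + 1)))⁻¹
          ≤ exp (-1 : ℤ) * (exp (-((N : ℤ) + 1)))⁻¹ := by gcongr
        _ = exp (N : ℤ) := by rw [← exp_neg, ← exp_add]; congr 1; ring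
    obtain ⟨r, hr, hr2⟩ := hR _ hx2
    refine ⟨lift a * (π ^ (N + 1))⁻¹ + r, ?_, ?_⟩
    · exact Finset.mem_image.2 ⟨(a, r), Finset.mem_product.2 ⟨Finset.mem_univ _, hr⟩, rfl⟩
    · rw [← sub_sub]; exact hr2

/-- repartitions with values in `k` -/
def IsRep (x : Pl k → k) : Prop := {V : Pl k | 1 < V.v (x V)}.Finite

/-- every repartition is, modulo integral repartitions and principal ones, in a finite set -/
theorem exists_finite_reps : ∃ E : Finset (Pl k → k), (∀ e ∈ E, IsRep e) ∧
    ∀ x : Pl k → k, IsRep x → ∃ e ∈ E, ∃ c : k, ∀ V : Pl k, V.v (x V - e V - c) ≤ 1 := by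
  classical
  obtain ⟨F, iF, iFin, φ, hφ⟩ := GFF.out (k := k)
  obtain ⟨inv, hinv⟩ := exists_inv F
  obtain ⟨N, hN⟩ := str_cocompact hφ
  have hinf := inf_finite (k := k) φ
  let I : Finset (Pl k) := hinf.toFinset
  have hI : ∀ V, V ∈ I ↔ φ RatFunc.X ∉ V.1 := fun V => by
    simp only [I, Set.Finite.mem_toFinset]; rfl
  choose R hR using fun V : Pl k => V.exists_reps N
  -- the finite set of functions supported on `I` with values in `R V`
  let E : Finset (Pl k → k) := (Finset.univ : Finset (∀ V : I, {r // r ∈ R V.1})).image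
    (fun g V => if h : V ∈ I then (g ⟨V, h⟩ : k) else 0)
  refine ⟨E, fun e he => ?_, fun x hx => ?_⟩
  · obtain ⟨g, -, rfl⟩ := Finset.mem_image.1 he
    refine I.finite_toSet.subset ?_
    intro V hV
    by_contra hne
    change 1 < V.v (if h : V ∈ I then (g ⟨V, h⟩ : k) else 0) at hV
    rw [dif_neg (fun h => hne (Finset.mem_coe.2 h)), map_zero] at hV
    exact absurd hV (not_lt.2 zero_le)
  -- finite places
  obtain ⟨y1, hy1, hy1'⟩ := str_approx hφ (hx.toFinset.filter (fun V => φ RatFunc.X ∈ V.1))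
    (fun V hV => (Finset.mem_filter.1 hV).2) x 0
  -- infinite places
  obtain ⟨y2, hy2, -⟩ := str_approx (hφ.comp inv) I
    (fun V hV => by
      change φ (inv RatFunc.X) ∈ V.1
      rw [hinv, map_inv₀]
      exact (Pl.X_or (φ := φ) V).resolve_left ((hI V).1 hV)) (fun V => x V - y1) 0
  obtain ⟨y3, hy3, hy3'⟩ := hN y2
  have hfinite : ∀ V : Pl k, φ RatFunc.X ∈ V.1 → V.v (x V - (y1 + y3)) ≤ 1 := by
    intro V hV
    have h1 : V.v (x V - y1) ≤ 1 := by
      by_cases hVx : V ∈ hx.toFinset.filter (fun V => φ RatFunc.X ∈ V.1)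
      · have := hy1 V hVx
        rw [V.v.map_sub_swap]
        simpa using this
      · have h2 := hy1' V hVx hV
        have h3 : V.v (x V) ≤ 1 := by
          by_contra hcon
          rw [not_le] at hcon
          exact hVx (Finset.mem_filter.2 ⟨hx.mem_toFinset.2 hcon, hV⟩)
        exact (V.v.map_sub _ _).trans (max_le h3 h2)
    rw [← sub_sub]
    exact (V.v.map_sub _ _).trans (max_le h1 (hy3 V hV))
  have hinfb : ∀ V : Pl k, φ RatFunc.X ∉ V.1 → V.v (x V - (y1 + y3)) ≤ exp (N : ℤ) := by
    intro V hV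
    have h1 : V.v (x V - y1 - y2) ≤ 1 := by
      have := hy2 V ((hI V).2 hV)
      rw [V.v.map_sub_swap]
      simpa using this
    have h2 : V.v (y2 - y3) ≤ exp (N : ℤ) := hy3' V hV
    have e1 : x V - (y1 + y3) = (x V - y1 - y2) + (y2 - y3) := by ring
    rw [e1]
    refine (V.v.map_add _ _).trans (max_le (h1.trans ?_) h2)
    rw [← exp_zero, exp_le_exp]; positivity
  choose! r hr hr2 using fun (V : Pl k) (hV : φ RatFunc.X ∉ V.1) => hR V _ (hinfb V hV)
  let g : ∀ V : I, {r // r ∈ R V.1} := fun V => ⟨r V.1, hr V.1 ((hI V.1).1 V.2)⟩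
  refine ⟨fun V => if h : V ∈ I then (g ⟨V, h⟩ : k) else 0,
    Finset.mem_image.2 ⟨g, Finset.mem_univ _, rfl⟩, y1 + y3, fun V => ?_⟩
  change V.v (x V - (if h : V ∈ I then (g ⟨V, h⟩ : k) else 0) - (y1 + y3)) ≤ 1
  by_cases hV : V ∈ I
  · rw [dif_pos hV]
    have := hr2 V ((hI V).1 hV)
    have e1 : x V - (g ⟨V, hV⟩ : k) - (y1 + y3) = x V - (y1 + y3) - r V := by
      change x V - r V - (y1 + y3) = _
      ring
    rw [e1]; exact this
  · rw [dif_neg hV, sub_zero]
    exact hfinite V (not_not.1 fun h => hV ((hI V).2 h))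

/-- a nonconstant function with its only pole at a given place -/
theorem exists_pole (q : Pl k) : ∃ f : k, 1 < q.v f ∧ ∀ V : Pl k, V ≠ q → V.v f ≤ 1 := by
  classical
  obtain ⟨E, -, hE⟩ := exists_finite_reps (k := k)
  choose z hz using fun j : ℕ => q.exists_val ((j : ℤ) + 1)
  have hrep : ∀ j, IsRep (fun V => if V = q then z j else 0 : Pl k → k) := by
    intro j
    refine (Set.finite_singleton q).subset ?_
    intro V hV
    by_contra hne
    have hne' : V ≠ q := hne
    change 1 < V.v (if V = q then z j else 0) at hV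
    rw [if_neg hne', map_zero] at hV
    exact absurd hV (not_lt.2 zero_le)
  choose e he c hc using fun j => hE _ (hrep j)
  obtain ⟨i, j, hij, hij'⟩ := Finite.exists_ne_map_eq_of_infinite (fun j : ℕ => (⟨e j, he j⟩ : E))
  have hee : e i = e j := congrArg Subtype.val hij'
  -- wlog i < j
  have key : ∀ i j : ℕ, i < j → e i = e j → ∃ f : k, 1 < q.v f ∧ ∀ V : Pl k, V ≠ q → V.v f ≤ 1 := by
    intro i j hlt hee
    refine ⟨c j - c i, ?_, ?_⟩
    · have h1 := hc i q
      have h2 := hc j q
      simp only [if_true] at h1 h2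
      rw [hee] at h1
      have h3 : q.v (z j - z i) = exp ((j : ℤ) + 1) := by
        rw [Valuation.map_sub_eq_of_lt_left]
        · exact hz j
        · rw [hz, hz, exp_lt_exp]; omega
      have h4 : q.v ((z j - z i) - (c j - c i)) ≤ 1 := by
        have e1 : (z j - z i) - (c j - c i) = (z j - e j q - c j) - (z i - e j q - c i) := by ring
        rw [e1]
        exact (q.v.map_sub _ _).trans (max_le h2 h1)
      have h5 : (1 : WithZero (Multiplicative ℤ)) < exp ((j : ℤ) + 1) := by
        rw [← exp_zero, exp_lt_exp]; omega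
      have h6 : q.v (c j - c i) = exp ((j : ℤ) + 1) := by
        have e2 : c j - c i = (z j - z i) - ((z j - z i) - (c j - c i)) := by ring
        rw [e2, Valuation.map_sub_eq_of_lt_left]
        · exact h3
        · rw [h3]; exact lt_of_le_of_lt h4 h5
      rw [h6]; exact h5
    · intro V hV
      have h1 := hc i V
      have h2 := hc j V
      simp only [if_neg hV] at h1 h2
      rw [hee] at h1
      have e1 : c j - c i = (0 - e j V - c i) - (0 - e j V - c j) := by ring
      rw [e1]
      exact (V.v.map_sub _ _).trans (max_le h1 h2)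
  rcases lt_or_gt_of_ne hij with h | h
  · exact key i j h hee
  · exact key j i h hee.symm

end

end Vale.Agent.P011.H271
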