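import Vale.Agent.P011.H271.Places

/-! # Strong approximation in a Dedekind domain (helper271) -/

namespace Vale.Agent.P011.H271

open Polynomial IsDedekindDomain HeightOneSpectrum WithZero

noncomputable section

section Dedekind

variable {k : Type*} [Field k] {R : Type*} [CommRing R] [IsDedekindDomain R] [Algebra R k]
  [IsFractionRing R k]

theorem hos_finite {x : k} (hx : x ≠ 0) :
    {v : HeightOneSpectrum R | v.valuation k x ≠ 1}.Finite := by
  have h1 := HeightOneSpectrum.Support.finite R x
  have h2 := HeightOneSpectrum.Support.finite R x⁻¹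
  refine (h1.union h2).subset ?_
  intro v hv
  change v.valuation k x ≠ 1 at hv
  rcases lt_or_gt_of_ne hv with h | h
  · right
    change 1 < v.valuation k x⁻¹
    rw [map_inv₀]
    exact (one_lt_inv₀ (zero_lt_iff.2 ((Valuation.ne_zero_iff _).2 hx))).2 h
  · left
    exact h

/-- strong approximation away from nothing: prescribe `y` near finitely many primes, integral at
all other primes of `R` -/
theorem dedekind_approx (T : Finset (HeightOneSpectrum R)) (x : HeightOneSpectrum R → k) (n : ℕ) :
    ∃ y : k, (∀ v ∈ T, v.valuation k (y - x v) ≤ exp (-(n : ℤ))) ∧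
      ∀ v, v ∉ T → v.valuation k y ≤ 1 := by
  classical
  obtain ⟨d, hd⟩ := IsLocalization.exist_integer_multiples_of_finset (nonZeroDivisors R)
    (T.image x)
  have hd0 : (d : R) ≠ 0 := nonZeroDivisors.ne_zero d.2
  have hd0' : algebraMap R k d ≠ 0 := by
    simp [hd0]
  have hnum : ∀ v ∈ T, ∃ r : R, algebraMap R k r = algebraMap R k d * x v := by
    intro v hv
    obtain ⟨r, hr⟩ := hd (x v) (Finset.mem_image_of_mem x hv)
    exact ⟨r, by rw [hr, Algebra.smul_def]⟩
  choose! r hr using hnum
  let B : Finset (HeightOneSpectrum R) := (hos_finite (R := R) hd0').toFinset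
  have hB : ∀ v, v ∉ B → v.valuation k (algebraMap R k d) = 1 := by
    intro v hv
    by_contra h
    exact hv ((Set.Finite.mem_toFinset _).2 h)
  let T' := T ∪ B
  -- exponent
  obtain ⟨N, hN⟩ : ∃ N : ℕ, ∀ v ∈ T', exp (-(N : ℤ)) ≤ exp (-(n : ℤ)) *
      v.valuation k (algebraMap R k d) := by
    refine ⟨n + T'.sup (fun v => (-log (v.valuation k (algebraMap R k d))).toNat), ?_⟩
    intro v hv
    have h1 := Finset.le_sup (f := fun v : HeightOneSpectrum R =>
      (-log (v.valuation k (algebraMap R k d))).toNat) hv
    have hv0 : v.valuation k (algebraMap R k d) ≠ 0 := (Valuation.ne_zero_iff _).2 hd0'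
    rw [← exp_log hv0, ← exp_add, exp_le_exp]
    have h2 := Int.self_le_toNat (-log (v.valuation k (algebraMap R k d)))
    push_cast
    omega
  obtain ⟨z, hz⟩ := IsDedekindDomain.exists_forall_sub_mem_ideal (s := T')
    (fun v : HeightOneSpectrum R => v.asIdeal) (fun _ => N) (fun v _ => v.prime)
    (fun v _ w _ hvw h => hvw (HeightOneSpectrum.ext h))
    (fun v => if (v : HeightOneSpectrum R) ∈ T then r v else 0)
  have hzv : ∀ v ∈ T', v.valuation k (algebraMap R k (z - if v ∈ T then r v else 0)) ≤
      exp (-(N : ℤ)) := by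
    intro v hv
    rw [valuation_of_algebraMap, intValuation_le_pow_iff_mem]
    exact hz v hv
  refine ⟨algebraMap R k z / algebraMap R k d, ?_, ?_⟩
  · intro v hv
    have hv' : v ∈ T' := Finset.mem_union_left _ hv
    have hv0 : 0 < v.valuation k (algebraMap R k d) :=
      zero_lt_iff.2 ((Valuation.ne_zero_iff _).2 hd0')
    have e1 : algebraMap R k z / algebraMap R k d - x v =
        algebraMap R k (z - r v) / algebraMap R k d := by
      rw [map_sub, hr v hv]; field_simp
    rw [e1, map_div₀, div_le_iff₀ hv0]
    have := hzv v hv'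
    rw [if_pos hv] at this
    exact this.trans (hN v hv')
  · intro v hv
    by_cases hvB : v ∈ B
    · have hv' : v ∈ T' := Finset.mem_union_right _ hvB
      have hv0 : 0 < v.valuation k (algebraMap R k d) :=
        zero_lt_iff.2 ((Valuation.ne_zero_iff _).2 hd0')
      rw [map_div₀, div_le_iff₀ hv0]
      have := hzv v hv'
      rw [if_neg hv, sub_zero] at this
      refine this.trans ((hN v hv').trans ?_)
      gcongr
      rw [← exp_zero, exp_le_exp]
      omega
    · rw [map_div₀, hB v hvB, div_one]
      exact valuation_le_one v z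

end Dedekind

end

end Vale.Agent.P011.H271
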