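import Vale.Agent.P011.H271.BaseW

/-!
# The base point, for any anisotropic ring (helper271), every characteristic

`φ : E → A` a field with involution in the anisotropic ring `A`.  The words in the letters
`TE w v`, `WE w e`, `Lm u` (`u ∈ φ E`) map the unitary elements in `φ E` to unitary elements in
`φ E`, by fractional linear maps over `E`, so the base point exists already in `E`.
-/

set_option linter.unusedSectionVars false
set_option linter.unusedSimpArgs false

open Matrix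

namespace Vale.Agent.P011.H271.BaseR

open Vale.Agent.P011.H21 Vale.Agent.P011.H210 Vale.Agent.P011.H271.BaseW

variable {K A E : Type*} [Field K] [StarRing K] [Ring A] [StarRing A]
  [Algebra K A] [StarModule K A] [Field E] [StarRing E] [Algebra K E] [StarModule K E]

/-- The embedding of the unitary group of `E`. -/
def emb (φ : E →ₐ[K] A) (hφ : ∀ x, φ (star x) = star (φ x)) (y : UA E) : UA A :=
  ⟨Units.map (φ : E →* A) (y : Eˣ), by
    change φ ((y : Eˣ) : E) * star (φ ((y : Eˣ) : E)) = 1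
    rw [← hφ, ← map_mul, UA_mul_star, map_one]⟩

variable {w : K} {φ : E →ₐ[K] A} (hφ : ∀ x, φ (star x) = star (φ x))

theorem emb_coe (y : UA E) : ((emb φ hφ y : Aˣ) : A) = φ ((y : Eˣ) : E) := rfl

/-- The group of the permutations of the unitary group of `A` which are fractional linear over `E`
on the unitary elements of `E`. -/
def CP (φ : E →ₐ[K] A) (hφ : ∀ x, φ (star x) = star (φ x)) : Subgroup (Equiv.Perm (UA A)) where
  carrier := {g | ∃ h ∈ MW (AlgHom.id K E), ∀ y : UA E, g (emb φ hφ y) = emb φ hφ (h y)}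
  mul_mem' := by
    rintro g g' ⟨h, hh, h1⟩ ⟨h', hh', h1'⟩
    refine ⟨h * h', mul_mem hh hh', fun y => ?_⟩
    rw [Equiv.Perm.mul_apply, h1', h1, Equiv.Perm.mul_apply]
  one_mem' := ⟨1, one_mem _, fun y => rfl⟩
  inv_mem' := by
    rintro g ⟨h, hh, h1⟩
    refine ⟨h⁻¹, inv_mem hh, fun y => ?_⟩
    rw [Equiv.Perm.inv_eq_iff_eq, h1, ← Equiv.Perm.mul_apply, mul_inv_cancel,
      Equiv.Perm.one_apply]

theorem anisE : AnisR E := anisR_of_divisionRing

include hφ in
theorem TE_emb (hA : AnisR A) (hw : star w ≠ w) {v : E} (hv : star v = v) (y : UA E) :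
    TE w φ v (emb φ hφ y) = emb φ hφ (TE w (AlgHom.id K E) v y) := by
  have hv' : star (φ v) = φ v := star_phi hφ hv
  refine UA_cancel (T_den_unit hA hw hv' (emb φ hφ y)) (T_spec hA hw hv' (emb φ hφ y)) ?_
  have h1 := congrArg φ (T_spec (anisE (E := E)) hw hv y)
  rw [map_mul, map_add, map_sub, map_smul, map_mul, map_one, map_add, map_neg, map_mul, map_add,
    map_smul, map_one] at h1
  rw [emb_coe, emb_coe]
  exact h1

include hφ in
theorem WE_emb (hA : AnisR A) (hw : star w ≠ w) {e : E} (he : e ≠ 0) (y : UA E) :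
    WE w φ e (emb φ hφ y) = emb φ hφ (WE w (AlgHom.id K E) e y) := by
  refine UA_cancel (W_den_unit hA hw (uE φ e) (emb φ hφ y)) (W_spec hA hw (uE φ e) (emb φ hφ y)) ?_
  have h1 := congrArg φ (W_spec (anisE (E := E)) hw (uE (AlgHom.id K E) e) y)
  have hid : ∀ x : E, (AlgHom.id K E) (star x) = star ((AlgHom.id K E) x) := fun x => rfl
  rw [ci_uE hid he, uE_coe (AlgHom.id K E) he] at h1
  simp only [AlgHom.coe_id, id_eq] at h1
  rw [map_mul, map_add, map_sub, map_smul, map_smul, map_mul, map_sub, map_smul, map_smul,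
    map_add, map_sub, map_smul, map_smul, map_mul, map_sub, map_smul, map_smul] at h1
  rw [ci_uE hφ he, uE_coe φ he, emb_coe, emb_coe]
  exact h1

theorem TE_mem (hA : AnisR A) (hw : star w ≠ w) {v : E} (hv : star v = v) :
    TE w φ v ∈ CP φ hφ :=
  ⟨TE w (AlgHom.id K E) v, BaseW.TE_mem hw (fun _ => rfl) hv, TE_emb hφ hA hw hv⟩

theorem WE_mem (hA : AnisR A) (hw : star w ≠ w) {e : E} (he : e ≠ 0) : WE w φ e ∈ CP φ hφ :=
  ⟨WE w (AlgHom.id K E) e, BaseW.WE_mem hw (fun _ => rfl) he, WE_emb hφ hA hw he⟩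

theorem PE_le (hA : AnisR A) (hw : star w ≠ w) : PE w φ hA hw hφ ≤ CP φ hφ := by
  rintro _ ⟨v, e, hv, he, rfl⟩
  exact mul_mem (TE_mem hφ hA hw hv) (WE_mem hφ hA hw he)

/-- A unitary element of `A` in `φ E` comes from a unitary element of `E`. -/
theorem exists_emb {u : UA A} (hu : ∃ x : E, φ x = ((u : Aˣ) : A)) :
    ∃ y : UA E, emb φ hφ y = u := by
  rcases subsingleton_or_nontrivial A with hA | hA
  · exact ⟨1, UA_ext (Subsingleton.elim _ _)⟩
  · obtain ⟨x, hx⟩ := hu
    have h1 : x * star x = 1 := by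
      apply (φ : E →+* A).injective
      change φ (x * star x) = φ 1
      rw [map_mul, hφ, hx, UA_mul_star, map_one]
    have hx0 : x ≠ 0 := by
      rintro rfl
      rw [zero_mul] at h1
      exact zero_ne_one h1
    exact ⟨⟨Units.mk0 x hx0, h1⟩, UA_ext hx⟩

theorem Lm_mem {u : UA A} (hu : ∃ x : E, φ x = ((u : Aˣ) : A)) : Lm u ∈ CP φ hφ := by
  obtain ⟨v, rfl⟩ := exists_emb hφ hu
  refine ⟨Lm v, BaseW.Lm_mem ⟨((v : Eˣ) : E), rfl⟩, fun y => ?_⟩
  rw [Lm_apply, Lm_apply]
  apply UA_ext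
  rw [emb_coe, Subgroup.coe_mul, Units.val_mul, Subgroup.coe_mul, Units.val_mul, map_mul]
  rfl

/-- **The base point**, any anisotropic ring. -/
theorem exists_base_r {k F ι J : Type*} [Field k] [Infinite k] [Field F] [Algebra k E]
    [Fintype ι] [DecidableEq ι] (φ₁ : k →+* F) (f : A →+* Matrix ι ι F)
    (hφ₁ : ∀ c, f (φ (algebraMap k E c)) = Matrix.scalar ι (φ₁ c))
    (hst : ∀ (c : k) (x : E), star (c • x) = c • star x) (hw : star w ≠ w)
    {σ : E} (hσs : star σ = σ) (hsr : f (φ σ) ∈ SR ι F) [Finite J] (g : J → Equiv.Perm (UA A))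
    (hg : ∀ i, g i ∈ CP φ hφ) :
    ∃ x : UA A, f ((x : Aˣ) : A) ∈ SR ι F ∧ ∀ i, f ((g i x : Aˣ) : A) ∈ SR ι F := by
  choose h hh hgh using hg
  obtain ⟨x, hx, hx'⟩ := BaseW.exists_base_w (K := K) (E := E) (D := E) (w := w)
    (φ := AlgHom.id K E) hw (fun _ => rfl) φ₁ (f.comp (φ : E →+* A)) hφ₁ hst hσs hsr
    (fun c => ⟨algebraMap k E c, rfl⟩) h hh
  refine ⟨emb φ hφ x, hx, fun i => ?_⟩
  rw [hgh]
  exact hx' i

end Vale.Agent.P011.H271.BaseR
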