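import Vale.Agent.P011.H210.Base
import Vale.Agent.P011.H21.OneStepE

/-!
# The base point for the permutations `T w v`, `W w e`, `Lm u` (helper271), every characteristic
-/

set_option linter.unusedSectionVars false
set_option linter.unusedSimpArgs false

open Matrix

namespace Vale.Agent.P011.H271.BaseW

open Vale.Agent.P011.H21 Vale.Agent.P011.H210

universe u

variable {K E : Type*} {D : Type u} [Field K] [StarRing K] [DivisionRing D] [StarRing D]
  [Algebra K D] [StarModule K D] [Field E] [StarRing E] [Algebra K E] [StarModule K E]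

/-- The image of the field `E`. -/
def EE (φ : E →ₐ[K] D) : Subring D := (φ : E →+* D).range

theorem mem_EE {φ : E →ₐ[K] D} {x : D} : x ∈ EE φ ↔ ∃ y : E, φ y = x := Iff.rfl

theorem map_mem_EE (φ : E →ₐ[K] D) (y : E) : φ y ∈ EE φ := ⟨y, rfl⟩

theorem EE_inv (φ : E →ₐ[K] D) : ∀ x ∈ EE φ, x⁻¹ ∈ EE φ := by
  rintro _ ⟨x, rfl⟩
  exact ⟨x⁻¹, map_inv₀ (φ : E →+* D) x⟩

theorem EE_comm (φ : E →ₐ[K] D) : ∀ x ∈ EE φ, ∀ y ∈ EE φ, x * y = y * x := by
  rintro _ ⟨x, rfl⟩ _ ⟨y, rfl⟩
  rw [← map_mul, ← map_mul, mul_comm]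

/-- The fractional linear permutations with coefficients in `E`. -/
abbrev MW (φ : E →ₐ[K] D) : Subgroup (Equiv.Perm (UA D)) :=
  mobGrp (UA D) (EE φ) (EE_inv φ) (EE_comm φ)

variable {w : K} {φ : E →ₐ[K] D} (hw : star w ≠ w) (hφ : ∀ x, φ (star x) = star (φ x))

/-- A permutation given by a matrix over `E`. -/
theorem isMob_of {h : UA D → UA D} {a b c e : E} (hdet : a * e - b * c ≠ 0)
    (hu : ∀ y : UA D, IsUnit (φ a + φ b * ((y : Dˣ) : D)))
    (hf : ∀ y : UA D, ((h y : Dˣ) : D) * (φ a + φ b * ((y : Dˣ) : D)) =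
      φ c + φ e * ((y : Dˣ) : D)) : IsMob (UA D) (EE φ) h := by
  refine IsMob.of_formula (map_mem_EE φ a) (map_mem_EE φ b) (map_mem_EE φ c) (map_mem_EE φ e)
    ?_ fun y _ => ?_
  · rw [← map_mul, ← map_mul, ← map_sub]
    exact fun h0 => hdet ((map_eq_zero_iff (φ : E →+* D) (φ : E →+* D).injective).1 h0)
  · rw [← hf y, mul_assoc, mul_inv_cancel₀ (hu y).ne_zero, mul_one]

include hw hφ

theorem isMob_TE {v : E} (hv : star v = v) : IsMob (UA D) (EE φ) (TE w φ v) := by
  have hA : AnisR D := anisR_of_divisionRing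
  have hv' : star (φ v) = φ v := star_phi hφ hv
  have e1 : φ (algebraMap K E (eta w) - v) = eta w • (1 : D) - φ v := by
    rw [map_sub, AlgHom.commutes, Algebra.algebraMap_eq_smul_one]
  have e2 : φ (algebraMap K E (eta w) + v) = eta w • (1 : D) + φ v := by
    rw [map_add, AlgHom.commutes, Algebra.algebraMap_eq_smul_one]
  refine isMob_of (a := algebraMap K E (eta w) - v) (b := v) (c := -v)
    (e := algebraMap K E (eta w) + v) ?_ ?_ ?_
  · have h1 : (algebraMap K E (eta w) - v) * (algebraMap K E (eta w) + v) - v * -v =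
        algebraMap K E (eta w ^ 2) := by rw [map_pow]; ring
    rw [h1]
    exact fun h0 => pow_ne_zero 2 (eta_ne hw)
      ((map_eq_zero_iff _ (algebraMap K E).injective).1 h0)
  · intro y
    rw [e1]
    exact T_den_unit hA hw hv' y
  · intro y
    rw [e1, e2, map_neg]
    exact T_spec hA hw hv' y

theorem TE_mem {v : E} (hv : star v = v) : TE w φ v ∈ MW φ := by
  refine ⟨isMob_TE hw hφ hv, ?_⟩
  have h1 : (TE w φ v).symm = TE w φ (-v) :=
    (TE_neg anisR_of_divisionRing hw hφ hv).symm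
  rw [h1]
  exact isMob_TE hw hφ (by rw [star_neg, hv])

theorem isMob_WE {e : E} (he : e ≠ 0) : IsMob (UA D) (EE φ) (WE w φ e) := by
  have hA : AnisR D := anisR_of_divisionRing
  have hci : ci (uE φ e) = φ (star e)⁻¹ := ci_uE hφ he
  have hce : ((uE φ e : Dˣ) : D) = φ e := uE_coe φ he
  set f : E := (star e)⁻¹ with hf
  have hf0 : f ≠ 0 := inv_ne_zero (star_ne_zero.mpr he)
  have key : ∀ (a b : K) (x y : E), φ (algebraMap K E a * x - algebraMap K E b * y) =
      a • φ x - b • φ y := by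
    intro a b x y
    rw [← Algebra.smul_def, ← Algebra.smul_def, map_sub, map_smul, map_smul]
  refine isMob_of (a := algebraMap K E w * e - algebraMap K E (star w) * f)
    (b := algebraMap K E (star w) * f - algebraMap K E (star w) * e)
    (c := algebraMap K E w * e - algebraMap K E w * f)
    (e := algebraMap K E w * f - algebraMap K E (star w) * e) ?_ ?_ ?_
  · have h1 : (algebraMap K E w * e - algebraMap K E (star w) * f) *
        (algebraMap K E w * f - algebraMap K E (star w) * e) -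
        (algebraMap K E (star w) * f - algebraMap K E (star w) * e) *
        (algebraMap K E w * e - algebraMap K E w * f) = algebraMap K E (eta w ^ 2) * (e * f) := by
      rw [map_pow, eta, map_sub]; ring
    rw [h1]
    exact mul_ne_zero (fun h0 => pow_ne_zero 2 (eta_ne hw)
      ((map_eq_zero_iff _ (algebraMap K E).injective).1 h0)) (mul_ne_zero he hf0)
  · intro y
    rw [key, key, ← hce, ← hci]
    exact W_den_unit hA hw (uE φ e) y
  · intro y
    rw [key, key, key, key, ← hce, ← hci]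
    exact W_spec hA hw (uE φ e) y

theorem WE_mem {e : E} (he : e ≠ 0) : WE w φ e ∈ MW φ := by
  refine ⟨isMob_WE hw hφ he, ?_⟩
  have h1 : (WE w φ e).symm = WE w φ e⁻¹ := (WE_inv anisR_of_divisionRing hw φ he).symm
  rw [h1]
  exact isMob_WE hw hφ (inv_ne_zero he)

theorem PE_le (hA : AnisR D) : PE w φ hA hw hφ ≤ MW φ := by
  rintro _ ⟨v, e, hv, he, rfl⟩
  exact mul_mem (TE_mem hw hφ hv) (WE_mem hw hφ he)

omit hw hφ in
theorem Lm_mem {u : UA D} (hu : ((u : Dˣ) : D) ∈ EE φ) : Lm u ∈ MW φ := by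
  have key : ∀ u : UA D, ((u : Dˣ) : D) ∈ EE φ → IsMob (UA D) (EE φ) (Lm u) := fun u hu =>
    isMob_L hu (u : Dˣ).ne_zero fun y => by
      rw [Lm_apply, Subgroup.coe_mul, Units.val_mul]
  refine ⟨key u hu, ?_⟩
  have h1 : (Lm u).symm = Lm u⁻¹ := (Lm_inv u).symm
  rw [h1]
  refine key _ ?_
  rw [Subgroup.coe_inv, Units.val_inv_eq_inv_val]
  exact EE_inv φ _ hu

/-- **The base point**, in the letters of `H21`. -/
theorem exists_base_w {k F ι J : Type*} [Field k] [Infinite k] [Field F] [Algebra k D]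
    [Fintype ι] [DecidableEq ι] (φ₁ : k →+* F) (f : D →+* Matrix ι ι F)
    (hφ₁ : ∀ c, f (algebraMap k D c) = Matrix.scalar ι (φ₁ c))
    (hst : ∀ (c : k) (x : D), star (c • x) = c • star x)
    {σ : E} (hσs : star σ = σ) (hsr : f (φ σ) ∈ SR ι F)
    (hkE : ∀ c : k, algebraMap k D c ∈ EE φ) [Finite J] (g : J → Equiv.Perm (UA D))
    (hg : ∀ i, g i ∈ MW φ) :
    ∃ x : UA D, f ((x : Dˣ) : D) ∈ SR ι F ∧ ∀ i, f ((g i x : Dˣ) : D) ∈ SR ι F := by
  have hwE : φ (algebraMap K E w) ∈ EE φ := map_mem_EE φ _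
  have hwE' : star (φ (algebraMap K E w)) ∈ EE φ := by
    rw [← hφ]
    exact map_mem_EE φ _
  have hw' : star (φ (algebraMap K E w)) ≠ φ (algebraMap K E w) := by
    rw [← hφ]
    intro h0
    have h1 := (φ : E →+* D).injective h0
    rw [← algebraMap_star_comm] at h1
    exact hw ((algebraMap K E).injective h1)
  obtain ⟨c₀, c₁, x, -, -, hsr'⟩ := exists_base (U := UA D) (fun g => Iff.rfl) (EE_inv φ)
    (EE_comm φ) φ₁ f hφ₁ hst hwE hwE' hw' (map_mem_EE φ σ) (star_phi hφ hσs) hsr hkE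
    (fun i : Option J => match i with
      | none => (id : UA D → UA D)
      | some i => (g i : UA D → UA D))
    (fun i => by
      cases i with
      | none => exact IsMob.id
      | some i => exact (hg i).1)
  exact ⟨x, hsr' none, fun i => hsr' (some i)⟩

end Vale.Agent.P011.H271.BaseW
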