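import Vale.Agent.P011.H271.Loc

/-! # The ring of integers is discrete and cocompact at infinity (helper271) -/

namespace Vale.Agent.P011.H271

open Polynomial IsDedekindDomain HeightOneSpectrum WithZero

set_option linter.style.haveILetI false
set_option linter.unusedSectionVars false

noncomputable section

section Rat

variable {F : Type} [Field F]

/-- polynomial part -/
theorem ratfunc_split (r : RatFunc F) : ∃ (p : F[X]) (s : RatFunc F),
    r = algebraMap F[X] (RatFunc F) p + s ∧ (s = 0 ∨ s.intDegree < 0) := by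
  have h0 : algebraMap F[X] (RatFunc F) r.denom ≠ 0 := by
    simpa using r.denom_ne_zero
  refine ⟨r.num / r.denom, algebraMap F[X] (RatFunc F) (r.num % r.denom) /
    algebraMap F[X] (RatFunc F) r.denom, ?_, ?_⟩
  · have h1 := EuclideanDomain.div_add_mod r.num r.denom
    have h2 : algebraMap F[X] (RatFunc F) r.num = algebraMap F[X] (RatFunc F) r.denom *
        algebraMap F[X] (RatFunc F) (r.num / r.denom) +
        algebraMap F[X] (RatFunc F) (r.num % r.denom) := by
      rw [← map_mul, ← map_add, h1]
    have h3 : r = algebraMap F[X] (RatFunc F) r.num / algebraMap F[X] (RatFunc F) r.denom :=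
      r.num_div_denom.symm
    nth_rewrite 1 [h3]
    rw [h2]
    field_simp
  · by_cases h : r.num % r.denom = 0
    · left; rw [h]; simp
    · right
      have h4 : algebraMap F[X] (RatFunc F) (r.num % r.denom) ≠ 0 := by simpa using h
      rw [RatFunc.intDegree_div h4 h0, RatFunc.intDegree_polynomial, RatFunc.intDegree_polynomial]
      have : (r.num % r.denom).natDegree < r.denom.natDegree := by
        have h5 := EuclideanDomain.mod_lt r.num r.denom_ne_zero
        have h6 : (r.num % r.denom).degree < r.denom.degree := h5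
        exact natDegree_lt_natDegree h h6
      omega

end Rat

section Inf

variable {F : Type} [Field F] [Finite F] {k : Type*} [Field k] [GFF k]

/-- at an infinite place the valuation is a power of the degree -/
theorem v_inf {φ : RatFunc F →+* k} (V : Pl k) (hV : φ RatFunc.X ∉ V.1) {f : RatFunc F}
    (hf : f ≠ 0) : V.v (φ f) = V.v (φ RatFunc.X) ^ f.intDegree := by
  classical
  have h1 : 1 < (V.v.comap φ) RatFunc.X := by
    rw [V.mem_iff, not_le] at hV
    exact hV
  exact RatFunc.valuation_eq_valuation_X_zpow_intDegree_of_one_lt_valuation_X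
    (v := V.v.comap φ) h1 hf

theorem v_inf_le {φ : RatFunc F →+* k} (V : Pl k) (hV : φ RatFunc.X ∉ V.1) {f : RatFunc F}
    (hf : f = 0 ∨ f.intDegree ≤ 0) : V.v (φ f) ≤ 1 := by
  rcases eq_or_ne f 0 with h | h
  · subst h; simp
  · rw [v_inf V hV h]
    have h1 : 1 < V.v (φ RatFunc.X) := by
      rw [V.mem_iff, not_le] at hV; exact hV
    rcases hf with hf | hf
    · exact absurd hf h
    · exact zpow_le_one_of_nonpos₀ h1.le hf

omit [Finite F] in
theorem exists_bound (z : k) : ∃ N : ℕ, ∀ V : Pl k, V.v z ≤ exp (N : ℤ) := by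
  classical
  by_cases hz : z = 0
  · subst hz
    exact ⟨0, fun V => by simp⟩
  refine ⟨(finite_ne_one hz).toFinset.sup (fun V => (log (V.v z)).toNat), fun V => ?_⟩
  have hv0 : V.v z ≠ 0 := (Valuation.ne_zero_iff _).2 hz
  rw [← log_le_iff_le_exp hv0]
  by_cases hV : V.v z = 1
  · rw [hV, log_one]; positivity
  · have h1 := Finset.le_sup (f := fun V : Pl k => (log (V.v z)).toNat)
      ((finite_ne_one hz).mem_toFinset.2 hV)
    have h2 := Int.self_le_toNat (log (V.v z))
    omega

theorem exists_bound_fam {ι : Type*} [Finite ι] (z : ι → k) :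
    ∃ N : ℕ, ∀ V : Pl k, ∀ i, V.v (z i) ≤ exp (N : ℤ) := by
  classical
  haveI : Fintype ι := Fintype.ofFinite ι
  choose N hN using fun i => exists_bound (z i)
  refine ⟨Finset.univ.sup N, fun V i => (hN i V).trans ?_⟩
  rw [exp_le_exp]
  exact_mod_cast Finset.le_sup (f := N) (Finset.mem_univ i)

/-- infinite places are finitely many -/
theorem inf_finite (φ : RatFunc F →+* k) : {V : Pl k | φ RatFunc.X ∉ V.1}.Finite := by
  have h0 : φ RatFunc.X ≠ 0 := by
    rw [_root_.map_ne_zero]; exact RatFunc.X_ne_zero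
  refine (finite_ne_one h0).subset ?_
  intro V hV
  change φ RatFunc.X ∉ V.1 at hV
  rw [V.mem_iff, not_le] at hV
  exact hV.ne'


section
open Module

theorem str_cocompact {φ : RatFunc F →+* k} (hφ : IsStr F k φ) :
    ∃ N : ℕ, ∀ x : k, ∃ y : k, (∀ V : Pl k, φ RatFunc.X ∈ V.1 → V.v y ≤ 1) ∧
      ∀ V : Pl k, φ RatFunc.X ∉ V.1 → V.v (x - y) ≤ exp (N : ℤ) := by
  classical
  letI : Algebra (RatFunc F) k := φ.toAlgebra
  letI : Algebra F[X] k := (φ.comp (algebraMap F[X] (RatFunc F))).toAlgebra
  haveI : IsScalarTower F[X] (RatFunc F) k := IsScalarTower.of_algebraMap_eq' rfl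
  haveI : FiniteDimensional (RatFunc F) k := hφ.1
  haveI : Algebra.IsSeparable (RatFunc F) k := hφ.2
  have hX : φ RatFunc.X = tt F := by
    change _ = φ (algebraMap F[X] (RatFunc F) X)
    rw [RatFunc.algebraMap_X]
  haveI : IsLocalization (Algebra.algebraMapSubmonoid (OO F k) (nonZeroDivisors F[X])) k :=
    IsIntegralClosure.isLocalization F[X] (RatFunc F) k (OO F k)
  let e := Module.Free.chooseBasis F[X] (OO F k)
  let b := e.localizationLocalization (RatFunc F) (nonZeroDivisors F[X]) k
  have hb : ∀ i, b i = (e i : k) := fun i => by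
    rw [Basis.localizationLocalization_apply]; rfl
  -- bound
  obtain ⟨N, hN⟩ : ∃ N : ℕ, ∀ V : Pl k, φ RatFunc.X ∉ V.1 → ∀ i, V.v (b i) ≤ exp (N : ℤ) := by
    obtain ⟨N, hN⟩ := exists_bound_fam (fun i => b i)
    exact ⟨N, fun V _ i => hN V i⟩
  refine ⟨N, fun x => ?_⟩
  choose p s hps hs using fun r : RatFunc F => ratfunc_split r
  refine ⟨∑ i, algebraMap F[X] k (p (b.repr x i)) * b i, ?_, ?_⟩
  · intro V hV
    rw [← V.mem_iff]
    have hle := OO_le (F := F) V.1 (by rw [← hX]; exact hV)
    have : ∑ i, algebraMap F[X] k (p (b.repr x i)) * b i =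
        algebraMap (OO F k) k (∑ i, (p (b.repr x i)) • e i) := by
      rw [map_sum]
      refine Finset.sum_congr rfl fun i _ => ?_
      rw [Algebra.smul_def, map_mul, ← IsScalarTower.algebraMap_apply, hb]
      rfl
    rw [this]
    exact hle _
  · intro V hV
    have : x - ∑ i, algebraMap F[X] k (p (b.repr x i)) * b i =
        ∑ i, φ (s (b.repr x i)) * b i := by
      conv_lhs => rw [← b.sum_repr x]
      rw [← Finset.sum_sub_distrib]
      refine Finset.sum_congr rfl fun i _ => ?_
      rw [b.sum_repr x, Algebra.smul_def]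
      have h3 := hps (b.repr x i)
      have h4 : algebraMap (RatFunc F) k (b.repr x i) = algebraMap F[X] k (p (b.repr x i)) +
          φ (s (b.repr x i)) := by
        conv_lhs => rw [h3]
        rw [map_add]; rfl
      rw [h4]; ring
    rw [this]
    refine Valuation.map_sum_le _ fun i _ => ?_
    rw [map_mul]
    calc V.v (φ (s (b.repr x i))) * V.v (b i) ≤ 1 * exp (N : ℤ) := by
          refine mul_le_mul' ?_ (hN V hV i)
          refine v_inf_le V hV ?_
          rcases hs (b.repr x i) with h | h
          · exact Or.inl h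
          · exact Or.inr h.le
      _ = exp (N : ℤ) := one_mul _

/-- an element which is integral at all infinite places is integral over the local ring at
infinity -/
theorem int_inf {φ : RatFunc F →+* k} (hφ : IsStr F k φ) (A : ValuationSubring (RatFunc F))
    (hA : ∀ f : RatFunc F, f ≠ 0 → (f ∈ A ↔ f.intDegree ≤ 0)) (x : k)
    (hx : ∀ V : Pl k, φ RatFunc.X ∉ V.1 → V.v x ≤ 1) :
    (φ.comp A.subtype).IsIntegralElem x := by
  by_contra hcon
  letI : Algebra A k := (φ.comp A.subtype).toAlgebra
  let B : Subring k := (integralClosure A k).toSubring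
  have hxB : x ∉ B := hcon
  haveI : IsIntegrallyClosedIn B k :=
    inferInstanceAs (IsIntegrallyClosedIn (integralClosure A k) k)
  obtain ⟨V, hBV, hxV⟩ := Subring.exists_le_valuationSubring_of_isIntegrallyClosedIn hxB
  have hAV : ∀ a : RatFunc F, a ∈ A → φ a ∈ V := fun a ha =>
    hBV ((integralClosure A k).algebraMap_mem ⟨a, ha⟩)
  have hV : V ≠ ⊤ := by
    rintro rfl; exact hxV (ValuationSubring.mem_top _)
  by_cases hXV : φ RatFunc.X ∈ V
  · have hall : ∀ f : RatFunc F, φ f ∈ V := by
      intro f
      by_cases hf : f = 0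
      · subst hf; rw [map_zero]; exact V.zero_mem
      have hXn : (RatFunc.X : RatFunc F) ^ (f.intDegree.toNat) ≠ 0 :=
        pow_ne_zero _ RatFunc.X_ne_zero
      have e1 : f = RatFunc.X ^ (f.intDegree.toNat) * (f / RatFunc.X ^ (f.intDegree.toNat)) := by
        field_simp
      have hdeg : ∀ n : ℕ, ((RatFunc.X : RatFunc F) ^ n).intDegree = n := by
        intro n
        induction n with
        | zero => simp
        | succ n ih =>
          rw [pow_succ, RatFunc.intDegree_mul (pow_ne_zero _ RatFunc.X_ne_zero) RatFunc.X_ne_zero,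
            ih, RatFunc.intDegree_X]
          push_cast; ring
      have e2 : f / RatFunc.X ^ (f.intDegree.toNat) ∈ A := by
        rw [hA _ (div_ne_zero hf hXn), RatFunc.intDegree_div hf hXn, hdeg]
        have := Int.self_le_toNat f.intDegree
        omega
      rw [e1, map_mul, map_pow]
      exact V.mul_mem _ _ (pow_mem hXV _) (hAV _ e2)
    letI : Algebra (RatFunc F) k := φ.toAlgebra
    haveI : FiniteDimensional (RatFunc F) k := hφ.1
    have hint : IsIntegral (RatFunc F) x := Algebra.IsIntegral.isIntegral x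
    let f : RatFunc F →+* V := φ.codRestrict V.toSubring hall
    have : IsIntegral V x := by
      letI : Algebra (RatFunc F) V := f.toAlgebra
      haveI : IsScalarTower (RatFunc F) V k := IsScalarTower.of_algebraMap_eq (fun _ => rfl)
      exact hint.tower_top
    obtain ⟨y, hy⟩ := IsIntegrallyClosed.isIntegral_iff.1 this
    apply hxV
    rw [← hy]
    exact y.2
  · exact hxV ((Pl.mem_iff ⟨V, hV⟩ x).2 (hx ⟨V, hV⟩ hXV))

theorem intDegree_X_pow (n : ℕ) : ((RatFunc.X : RatFunc F) ^ n).intDegree = n := by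
  induction n with
  | zero => simp
  | succ n ih =>
    rw [pow_succ, RatFunc.intDegree_mul (pow_ne_zero _ RatFunc.X_ne_zero) RatFunc.X_ne_zero,
      ih, RatFunc.intDegree_X]
    push_cast; ring

/-- finiteness of Riemann-Roch spaces -/
theorem str_bdd {φ : RatFunc F →+* k} (hφ : IsStr F k φ) (m : ℕ) :
    {x : k | (∀ V : Pl k, φ RatFunc.X ∈ V.1 → V.v x ≤ 1) ∧
      ∀ V : Pl k, φ RatFunc.X ∉ V.1 → V.v x ≤ exp (m : ℤ)}.Finite := by
  classical
  letI : Algebra (RatFunc F) k := φ.toAlgebra
  letI : Algebra F[X] k := (φ.comp (algebraMap F[X] (RatFunc F))).toAlgebra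
  haveI : IsScalarTower F[X] (RatFunc F) k := IsScalarTower.of_algebraMap_eq' rfl
  haveI : FiniteDimensional (RatFunc F) k := hφ.1
  haveI : Algebra.IsSeparable (RatFunc F) k := hφ.2
  have hX : φ RatFunc.X = tt F := by
    change _ = φ (algebraMap F[X] (RatFunc F) X)
    rw [RatFunc.algebraMap_X]
  haveI : IsLocalization (Algebra.algebraMapSubmonoid (OO F k) (nonZeroDivisors F[X])) k :=
    IsIntegralClosure.isLocalization F[X] (RatFunc F) k (OO F k)
  let e := Module.Free.chooseBasis F[X] (OO F k)
  let b := e.localizationLocalization (RatFunc F) (nonZeroDivisors F[X]) k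
  have hb : ∀ i, b i = (e i : k) := fun i => by
    rw [Basis.localizationLocalization_apply]; rfl
  let A : ValuationSubring (RatFunc F) := (RatFunc.inftyValuation F).valuationSubring
  have hA : ∀ f : RatFunc F, f ≠ 0 → (f ∈ A ↔ f.intDegree ≤ 0) := by
    intro f hf
    change RatFunc.inftyValuation F f ≤ 1 ↔ _
    rw [RatFunc.inftyValuation_apply, RatFunc.inftyValuation_of_nonzero F hf, ← exp_zero,
      exp_le_exp]
  obtain ⟨N, hN⟩ := exists_bound_fam (fun i => b.traceDual i)
  -- trace of an element integral at infinity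
  have htr : ∀ x : k, (∀ V : Pl k, φ RatFunc.X ∉ V.1 → V.v x ≤ 1) →
      Algebra.trace (RatFunc F) k x ∈ A := by
    intro x hx
    have h1 := int_inf hφ A hA x hx
    letI : Algebra A k := (φ.comp A.subtype).toAlgebra
    haveI : IsScalarTower A (RatFunc F) k := IsScalarTower.of_algebraMap_eq' rfl
    have h2 : IsIntegral A x := h1
    have h3 : IsIntegral A (Algebra.trace (RatFunc F) k x) := Algebra.isIntegral_trace h2
    obtain ⟨y, hy⟩ := IsIntegrallyClosed.isIntegral_iff.1 h3
    rw [← hy]
    exact y.2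
  have hcoord : ∀ x : k, (∀ V : Pl k, φ RatFunc.X ∉ V.1 → V.v x ≤ exp (m : ℤ)) → ∀ i,
      b.repr x i = 0 ∨ (b.repr x i).intDegree ≤ m + N := by
    intro x hx i
    by_cases h0 : b.repr x i = 0
    · exact Or.inl h0
    right
    have h1 : b.repr x i = Algebra.trace (RatFunc F) k (x * b.traceDual i) := by
      have := Basis.traceDual_repr_apply (K := RatFunc F) (b := b.traceDual) x i
      rw [Basis.traceDual_traceDual] at this
      rw [this, Algebra.traceForm_apply]
    have h2 : Algebra.trace (RatFunc F) k ((φ RatFunc.X ^ (m + N))⁻¹ * (x * b.traceDual i)) ∈ A := by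
      apply htr
      intro V hV
      have hX1 : exp (1 : ℤ) ≤ V.v (φ RatFunc.X) := by
        have h1 : 1 < V.v (φ RatFunc.X) := by
          rw [V.mem_iff, not_le] at hV; exact hV
        have hX0 : V.v (φ RatFunc.X) ≠ 0 := ne_of_gt (lt_trans zero_lt_one h1)
        rw [← exp_zero, ← lt_log_iff_exp_lt hX0] at h1
        rw [← le_log_iff_exp_le hX0]
        omega
      have hX2 : exp ((m : ℤ) + N) ≤ V.v (φ RatFunc.X ^ (m + N)) := by
        rw [map_pow]
        calc exp ((m : ℤ) + N) = (exp (1 : ℤ)) ^ (m + N) := by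
              rw [← exp_nsmul]; simp
          _ ≤ _ := pow_le_pow_left' hX1 _
      have hX3 : 0 < V.v (φ RatFunc.X ^ (m + N)) := lt_of_lt_of_le exp_pos hX2
      rw [map_mul, map_inv₀, inv_mul_le_iff₀ hX3, mul_one, map_mul]
      refine le_trans (mul_le_mul' (hx V hV) (hN V i)) ?_
      rw [← exp_add]; exact hX2
    have h3 : (φ RatFunc.X ^ (m + N))⁻¹ * (x * b.traceDual i) =
      ((RatFunc.X : RatFunc F) ^ (m + N))⁻¹ • (x * b.traceDual i) := by
      rw [Algebra.smul_def, map_inv₀, map_pow]; rfl
    rw [h3, map_smul, ← h1, smul_eq_mul, hA, RatFunc.intDegree_mul, RatFunc.intDegree_inv,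
      intDegree_X_pow] at h2
    · push_cast at h2; omega
    · exact inv_ne_zero (pow_ne_zero _ RatFunc.X_ne_zero)
    · exact h0
    · exact mul_ne_zero (inv_ne_zero (pow_ne_zero _ RatFunc.X_ne_zero)) h0
  let G : (Module.Free.ChooseBasisIndex F[X] (OO F k) → degreeLT F (m + N + 1)) → k := fun p =>
    ∑ i, algebraMap F[X] k (p i : F[X]) * b i
  haveI : Finite (degreeLT F (m + N + 1)) :=
    Finite.of_equiv _ (degreeLTEquiv F (m + N + 1)).symm.toEquiv
  refine (Set.finite_range G).subset ?_
  rintro x ⟨hx1, hx2⟩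
  have hxO : x ∈ (algebraMap (OO F k) k).range := by
    apply HeightOneSpectrum.mem_integers_of_valuation_le_one
    intro v
    have h1 := hx1 ⟨hosV k v, hosV_ne_top v⟩ (by rw [hX]; exact tt_mem_hosV v)
    rwa [Pl.eq_v ⟨hosV k v, hosV_ne_top v⟩ (v.valuation k) (valuation_surjective k v) rfl] at h1
  obtain ⟨z, hz⟩ := hxO
  have hrep : ∀ i, b.repr x i = algebraMap F[X] (RatFunc F) (e.repr z i) := by
    intro i
    rw [← hz]
    exact Basis.localizationLocalization_repr_algebraMap _ _ _ _ _ _
  refine ⟨fun i => ⟨e.repr z i, ?_⟩, ?_⟩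
  · rw [mem_degreeLT]
    by_cases h0 : e.repr z i = 0
    · rw [h0, degree_zero]
      exact WithBot.bot_lt_coe _
    · have h1 : b.repr x i ≠ 0 := by
        rw [hrep]; simpa using h0
      have h2 := (hcoord x hx2 i).resolve_left h1
      rw [hrep, RatFunc.intDegree_polynomial] at h2
      rw [degree_eq_natDegree h0]
      have h3 : (e.repr z i).natDegree < m + N + 1 := by omega
      exact_mod_cast h3
  · change ∑ i, algebraMap F[X] k (e.repr z i) * b i = x
    conv_rhs => rw [← b.sum_repr x]
    refine Finset.sum_congr rfl fun i _ => ?_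
    rw [hrep, Algebra.smul_def, ← IsScalarTower.algebraMap_apply]

end

end Inf

end

end Vale.Agent.P011.H271
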