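import Vale.Agent.P011.H271.KSF
import Mathlib.LinearAlgebra.Matrix.Charpoly.Coeff
import Mathlib.LinearAlgebra.Matrix.Charpoly.LinearMap
import Mathlib.RingTheory.Norm.Basic
import Mathlib.RingTheory.Trace.Basic
import Mathlib.FieldTheory.IntermediateField.Adjoin.Basic

/-!
# Cubic extensions and valuations: general part (helper271)

(Twin of `H672/Conic1.lean`, `H672/Conic2.lean` for arbitrary valuations.)
-/

open Polynomial Module

namespace Vale.Agent.P011.H271.ConF

section point

variable {k F : Type*} [Field k] [Field F] [Algebra k F]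

/-- A root of the characteristic polynomial of a noncentral element gives a point. -/
theorem point_of_root {R : Type*} [Field R] [Algebra k R] (hF : finrank k F = 3) {x : F}
    (hx : x ∉ (algebraMap k F).range) {y : R} (b : Basis (Fin 3) k F)
    (hy : aeval y (Algebra.leftMulMatrix b x).charpoly = 0) : Nonempty (F →ₐ[k] R) := by
  have hfd : FiniteDimensional k F := Module.finite_of_finrank_pos (by omega)
  have hint : IsIntegral k x := Algebra.IsIntegral.isIntegral x
  -- the field generated by `x`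
  have h1 : IntermediateField.adjoin k {x} = ⊤ := by
    have hdvd : finrank k (IntermediateField.adjoin k {x}) ∣ 3 := by
      rw [← hF]
      exact ⟨_, (finrank_mul_finrank k (IntermediateField.adjoin k {x}) F).symm⟩
    rcases (Nat.dvd_prime Nat.prime_three).mp hdvd with h | h
    · exfalso
      rw [IntermediateField.finrank_eq_one_iff] at h
      have h2 := IntermediateField.mem_adjoin_simple_self k x
      rw [h, IntermediateField.mem_bot] at h2
      exact hx h2
    · exact IntermediateField.eq_of_le_of_finrank_eq le_top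
        (by rw [h, IntermediateField.finrank_top', hF])
  have h2 : (minpoly k x).natDegree = 3 := by
    rw [← IntermediateField.adjoin.finrank hint, h1, IntermediateField.finrank_top', hF]
  have h3 : (Algebra.leftMulMatrix b x).charpoly = minpoly k x := by
    have h4 : aeval x (Algebra.leftMulMatrix b x).charpoly = 0 := by
      have h5 := Matrix.aeval_self_charpoly (Algebra.leftMulMatrix b x)
      rw [Polynomial.aeval_algHom_apply] at h5
      exact Algebra.leftMulMatrix_injective b (by rw [h5, map_zero])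
    have h5 := minpoly.dvd k x h4
    refine (eq_of_monic_of_dvd_of_natDegree_le (minpoly.monic hint)
      (Matrix.charpoly_monic _) h5 ?_)
    rw [Matrix.charpoly_natDegree_eq_dim, h2]
    simp
  rw [h3] at hy
  have e1 := (IntermediateField.adjoinRootEquivAdjoin k hint).symm
  have f1 : AdjoinRoot (minpoly k x) →ₐ[k] R := AdjoinRoot.liftAlgHom _ (Algebra.ofId k R) y (by
    rw [← hy]; rfl)
  have e2 : F ≃ₐ[k] (IntermediateField.adjoin k {x} : IntermediateField k F) :=
    IntermediateField.topEquiv.symm.trans (IntermediateField.equivOfEq h1.symm)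
  exact ⟨f1.comp (e1.toAlgHom.comp e2.toAlgHom)⟩

end point

section val

variable {k Γ : Type*} [Field k] [LinearOrderedCommGroupWithZero Γ] (v : Valuation k Γ)

theorem trace_lt (M : Matrix (Fin 3) (Fin 3) k)
    (hM : ∀ i j, v (M i j) ≤ 1) (h3 : ∀ i j, v ((M ^ 3) i j) < 1) :
    v M.trace < 1 := by
  set O := v.valuationSubring with hO
  have hint : v.Integers O := Valuation.valuationSubring.integers _
  have hmem : ∀ x : O, x ∈ IsLocalRing.maximalIdeal O ↔ v (algebraMap O k x) < 1 := by
    intro x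
    rw [IsLocalRing.mem_maximalIdeal, mem_nonunits_iff, hint.isUnit_iff_valuation_eq_one]
    exact ⟨fun h => lt_of_le_of_ne x.2 h, fun h => h.ne⟩
  obtain ⟨N, hN⟩ : ∃ N : Matrix (Fin 3) (Fin 3) O, (algebraMap O k).mapMatrix N = M :=
    ⟨Matrix.of fun i j => ⟨M i j, hM i j⟩, by ext i j; rfl⟩
  have hN3 : ((IsLocalRing.residue O).mapMatrix N) ^ 3 = 0 := by
    rw [← map_pow]
    ext i j
    rw [RingHom.mapMatrix_apply, Matrix.map_apply, Matrix.zero_apply,
      IsLocalRing.residue_eq_zero_iff, hmem]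
    have h4 : (algebraMap O k).mapMatrix (N ^ 3) = M ^ 3 := by rw [map_pow, hN]
    have h5 := congrFun (congrFun h4 i) j
    rw [RingHom.mapMatrix_apply, Matrix.map_apply] at h5
    rw [h5]
    exact h3 i j
  have h5 := (Matrix.isNilpotent_trace_of_isNilpotent ⟨3, hN3⟩).eq_zero
  have h6 : IsLocalRing.residue O N.trace = 0 := by
    rw [← h5, Matrix.trace, Matrix.trace, map_sum]
    rfl
  rw [IsLocalRing.residue_eq_zero_iff, hmem] at h6
  have h7 : algebraMap O k N.trace = M.trace := by
    rw [← hN, Matrix.trace, Matrix.trace, map_sum]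
    rfl
  rwa [h7] at h6

theorem coeff_charpoly_le (M : Matrix (Fin 3) (Fin 3) k)
    (hM : ∀ i j, v (M i j) ≤ 1) (i : ℕ) : v (M.charpoly.coeff i) ≤ 1 := by
  set O := v.valuationSubring with hO
  obtain ⟨N, hN⟩ : ∃ N : Matrix (Fin 3) (Fin 3) O, (algebraMap O k).mapMatrix N = M :=
    ⟨Matrix.of fun i j => ⟨M i j, hM i j⟩, by ext i j; rfl⟩
  rw [← hN, RingHom.mapMatrix_apply, Matrix.charpoly_map, coeff_map]
  exact (N.charpoly.coeff i).2

omit [LinearOrderedCommGroupWithZero Γ] in
theorem charpoly_eq (M : Matrix (Fin 3) (Fin 3) k) :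
    M.charpoly = X ^ 3 + C (M.charpoly.coeff 2) * X ^ 2 + C (M.charpoly.coeff 1) * X +
      C (M.charpoly.coeff 0) := by
  have h1 : M.charpoly.natDegree = 3 := by rw [Matrix.charpoly_natDegree_eq_dim]; simp
  have h2 : M.charpoly.coeff 3 = 1 := by
    have := M.charpoly_monic.coeff_natDegree
    rwa [h1] at this
  conv_lhs => rw [M.charpoly.as_sum_range_C_mul_X_pow, h1]
  rw [Finset.sum_range_succ, Finset.sum_range_succ, Finset.sum_range_succ, Finset.sum_range_succ,
    Finset.sum_range_zero, h2, C_1]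
  ring

section mat

variable {v}

theorem mul_le_one {M N : Matrix (Fin 3) (Fin 3) k} (hM : ∀ i j, v (M i j) ≤ 1)
    (hN : ∀ i j, v (N i j) ≤ 1) (i j : Fin 3) : v ((M * N) i j) ≤ 1 := by
  rw [Matrix.mul_apply]
  refine Valuation.map_sum_le _ fun l _ => ?_
  rw [map_mul]
  exact mul_le_one' (hM _ _) (hN _ _)

theorem mul_lt_one {M N : Matrix (Fin 3) (Fin 3) k} (hM : ∀ i j, v (M i j) < 1)
    (hN : ∀ i j, v (N i j) ≤ 1) (i j : Fin 3) : v ((M * N) i j) < 1 := by
  rw [Matrix.mul_apply]
  refine Valuation.map_sum_lt _ one_ne_zero fun l _ => ?_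
  rw [map_mul]
  exact mul_lt_one_of_lt_of_le (hM _ _) (hN _ _)

theorem one_le_one (i j : Fin 3) : v ((1 : Matrix (Fin 3) (Fin 3) k) i j) ≤ 1 := by
  rw [Matrix.one_apply]
  split_ifs <;> simp

theorem pow_le_one {M : Matrix (Fin 3) (Fin 3) k} (hM : ∀ i j, v (M i j) ≤ 1)
    (n : ℕ) : ∀ i j : Fin 3, v ((M ^ n) i j) ≤ 1 := by
  induction n with
  | zero => intro i j; rw [pow_zero]; exact one_le_one i j
  | succ n ih => intro i j; rw [pow_succ]; exact mul_le_one ih hM i j

/-- The third power of a matrix whose characteristic polynomial is `X ^ 3` modulo `v`. -/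
theorem cube_lt {M : Matrix (Fin 3) (Fin 3) k} (hM : ∀ i j, v (M i j) ≤ 1)
    (h : ∀ i < 3, v (M.charpoly.coeff i) < 1) (i j : Fin 3) :
    v ((M ^ 3) i j) < 1 := by
  have h1 := M.aeval_self_charpoly
  rw [charpoly_eq M] at h1
  simp only [map_add, map_mul, map_pow, aeval_X, aeval_C] at h1
  have h2 : M ^ 3 = -(M.charpoly.coeff 2 • M ^ 2 + M.charpoly.coeff 1 • M +
      M.charpoly.coeff 0 • (1 : Matrix (Fin 3) (Fin 3) k)) := by
    rw [Algebra.smul_def, Algebra.smul_def, Algebra.smul_def, mul_one]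
    linear_combination (norm := abel) h1
  rw [h2, Matrix.neg_apply, Valuation.map_neg, Matrix.add_apply, Matrix.add_apply,
    Matrix.smul_apply, Matrix.smul_apply, Matrix.smul_apply, smul_eq_mul, smul_eq_mul, smul_eq_mul]
  refine Valuation.map_add_lt _ (Valuation.map_add_lt _ ?_ ?_) ?_
  · rw [map_mul]; exact mul_lt_one_of_lt_of_le (h 2 (by omega)) (pow_le_one hM 2 _ _)
  · rw [map_mul]; exact mul_lt_one_of_lt_of_le (h 1 (by omega)) (hM _ _)
  · rw [map_mul]; exact mul_lt_one_of_lt_of_le (h 0 (by omega)) (one_le_one _ _)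

end mat

/-! ### polynomials -/

/-- The coefficients of `p` are integral at `v`. -/
def IntAt (p : k[X]) : Prop := ∀ i, v (p.coeff i) ≤ 1

variable {v}

theorem eval_le {p : k[X]} (hp : IntAt v p) {n : ℕ}
    (hn : p.natDegree ≤ n) (t : k) : v (p.eval t) ≤ max 1 (v t) ^ n := by
  rw [eval_eq_sum_range' (Nat.lt_succ_of_le hn)]
  refine Valuation.map_sum_le _ fun i hi => ?_
  rw [Finset.mem_range] at hi
  rw [map_mul, map_pow]
  calc v (p.coeff i) * v t ^ i
      ≤ 1 * max 1 (v t) ^ i :=
        mul_le_mul' (hp i) (pow_le_pow_left' (le_max_right _ _) i)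
    _ ≤ max 1 (v t) ^ n := by
        rw [one_mul]
        exact pow_le_pow_right' (le_max_left _ _) (by omega)

theorem eval_le_one {p : k[X]} (hp : IntAt v p) {t : k}
    (ht : v t ≤ 1) : v (p.eval t) ≤ 1 := by
  refine (eval_le hp le_rfl t).trans ?_
  rw [max_eq_left ht, one_pow]

/-- Polynomials without a common factor have no common zero modulo `v`. -/
theorem exists_unit_at {ι : Type*} [Fintype ι] {P U : ι → k[X]}
    (hU : ∑ j, U j * P j = 1) (hv : ∀ j, IntAt v (U j)) {t : k} (ht : v t ≤ 1) :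
    ∃ j, 1 ≤ v ((P j).eval t) := by
  by_contra hcon
  push Not at hcon
  have h2 : (∑ j, (U j).eval t * (P j).eval t) = 1 := by
    have := congrArg (Polynomial.eval t) hU
    simpa [Polynomial.eval_finset_sum] using this
  have h3 : v (∑ j, (U j).eval t * (P j).eval t) < 1 := by
    refine Valuation.map_sum_lt _ one_ne_zero fun j _ => ?_
    rw [map_mul]
    calc _ ≤ 1 * v ((P j).eval t) := mul_le_mul_left (eval_le_one (hv j) ht) _
      _ < 1 := by rw [one_mul]; exact hcon j
  rw [h2, map_one] at h3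
  exact lt_irrefl _ h3

end val

section unit

variable {k F Γ : Type*} [Field k] [Field F] [Algebra k F] [LinearOrderedCommGroupWithZero Γ]

/-- The basis `b` is good at `v`: structure constants and coordinates of `1` are integral,
the discriminant is a unit. -/
structure GoodB (b : Basis (Fin 3) k F) (v : Valuation k Γ) : Prop where
  mul : ∀ i j l, v (b.repr (b i * b j) l) ≤ 1
  one : ∀ l, v (b.repr 1 l) ≤ 1
  disc : v (Algebra.traceMatrix k b).det = 1

variable {v : Valuation k Γ}

omit [Field F] [Algebra k F] in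
theorem adjugate_le {M : Matrix (Fin 3) (Fin 3) k} (hM : ∀ i j, v (M i j) ≤ 1)
    (i j : Fin 3) : v (M.adjugate i j) ≤ 1 := by
  set O := v.valuationSubring with hO
  obtain ⟨N, hN⟩ : ∃ N : Matrix (Fin 3) (Fin 3) O, (algebraMap O k).mapMatrix N = M :=
    ⟨Matrix.of fun i j => ⟨M i j, hM i j⟩, by ext i j; rfl⟩
  rw [← hN, ← RingHom.map_adjugate]
  exact (N.adjugate i j).2

theorem lmm_le {b : Basis (Fin 3) k F} (hb : GoodB b v) {x : F}
    (hx : ∀ l, v (b.repr x l) ≤ 1) (i j : Fin 3) :
    v (Algebra.leftMulMatrix b x i j) ≤ 1 := by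
  rw [Algebra.leftMulMatrix_eq_repr_mul]
  have h1 : x * b j = ∑ l, b.repr x l • (b l * b j) := by
    conv_lhs => rw [← b.sum_repr x, Finset.sum_mul]
    simp only [smul_mul_assoc]
  rw [h1, map_sum, Finset.sum_apply']
  refine Valuation.map_sum_le _ fun l _ => ?_
  rw [map_smul, Finsupp.smul_apply, smul_eq_mul, map_mul]
  exact mul_le_one' (hx _) (hb.mul _ _ _)

theorem basis_le {b : Basis (Fin 3) k F} (j l : Fin 3) : v (b.repr (b j) l) ≤ 1 := by
  rw [b.repr_self_apply]
  split_ifs <;> simp

/-- An integral element which is nilpotent modulo `v` vanishes modulo `v`. -/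
theorem coord_lt {b : Basis (Fin 3) k F} (hb : GoodB b v) {x : F}
    (hx : ∀ l, v (b.repr x l) ≤ 1)
    (h : ∀ i < 3, v ((Algebra.leftMulMatrix b x).charpoly.coeff i) < 1) (j : Fin 3) :
    v (b.repr x j) < 1 := by
  have h1 : ∀ l, v (Algebra.trace k F (x * b l)) < 1 := by
    intro l
    rw [Algebra.trace_eq_matrix_trace b]
    refine trace_lt v _ (fun i j => ?_) (fun i j => ?_)
    · rw [map_mul]
      exact mul_le_one (lmm_le hb hx) (lmm_le hb (basis_le l)) i j
    · rw [← map_pow, mul_pow, map_mul, map_pow, map_pow]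
      exact mul_lt_one (cube_lt (lmm_le hb hx) h) (pow_le_one (lmm_le hb (basis_le l)) 3) i j
  set τ := Algebra.traceMatrix k b with hτ
  have hτint : ∀ i j, v (τ i j) ≤ 1 := by
    intro i j
    rw [hτ, Algebra.traceMatrix_apply, Algebra.traceForm_apply, Algebra.trace_eq_matrix_trace b,
      Matrix.trace]
    refine Valuation.map_sum_le _ fun l _ => ?_
    exact lmm_le hb (hb.mul i j) l l
  have h2 : ∀ l, Algebra.trace k F (x * b l) = Matrix.vecMul (b.repr x) τ l := by
    intro l
    rw [Matrix.vecMul, dotProduct]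
    conv_lhs => rw [← b.sum_repr x, Finset.sum_mul, map_sum]
    refine Finset.sum_congr rfl fun i _ => ?_
    rw [smul_mul_assoc, map_smul, smul_eq_mul]
    rfl
  have h3 : Matrix.vecMul (Matrix.vecMul (b.repr x) τ) τ.adjugate = τ.det • (b.repr x : Fin 3 → k) := by
    rw [Matrix.vecMul_vecMul, Matrix.mul_adjugate, Matrix.vecMul_smul, Matrix.vecMul_one]
  have h4 := congrFun h3 j
  have h5 : v (Matrix.vecMul (Matrix.vecMul (b.repr x) τ) τ.adjugate j) < 1 := by
    rw [Matrix.vecMul, dotProduct]
    refine Valuation.map_sum_lt _ one_ne_zero fun l _ => ?_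
    rw [map_mul, ← h2]
    exact mul_lt_one_of_lt_of_le (h1 l) (adjugate_le hτint _ _)
  rw [h4, Pi.smul_apply, smul_eq_mul, map_mul, hb.disc, one_mul] at h5
  exact h5

/-- The norm of a primitive element is a unit at a good place without a point. The hypothesis
`hensel` is the lemma of Hensel for cubic polynomials with a simple root. -/
theorem norm_unit {R : Type*} [Field R] [Algebra k R] (hF : finrank k F = 3)
    {b : Basis (Fin 3) k F} (hb : GoodB b v)
    (hensel : ∀ (p : k[X]) (p0 p1 p2 : k), p = X ^ 3 + C p2 * X ^ 2 + C p1 * X + C p0 →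
      v p0 < 1 → v p1 ≤ 1 → v p2 ≤ 1 → (v p1 = 1 ∨ (v p1 < 1 ∧ v p2 = 1)) →
      ∃ y : R, aeval y p = 0)
    (hno : ¬ Nonempty (F →ₐ[k] R)) {x : F}
    (hx : ∀ l, v (b.repr x l) ≤ 1) {j : Fin 3}
    (hj : 1 ≤ v (b.repr x j)) : v (Algebra.norm k x) = 1 := by
  set P := (Algebra.leftMulMatrix b x).charpoly with hP
  have hle : ∀ i, v (P.coeff i) ≤ 1 := coeff_charpoly_le v _ (lmm_le hb hx)
  have hN : Algebra.norm k x = -P.coeff 0 := by
    rw [Algebra.norm_eq_matrix_det b, Matrix.det_eq_sign_charpoly_coeff]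
    simp [hP]
    norm_num
  rw [hN, Valuation.map_neg]
  by_contra hne
  have h0 : v (P.coeff 0) < 1 := lt_of_le_of_ne (hle 0) hne
  by_cases hall : ∀ i < 3, v (P.coeff i) < 1
  · exact absurd (coord_lt hb hx hall j) (not_lt.mpr hj)
  have h12 : v (P.coeff 1) = 1 ∨ (v (P.coeff 1) < 1 ∧ v (P.coeff 2) = 1) := by
    by_contra hcon
    push Not at hcon
    apply hall
    have h1 : v (P.coeff 1) < 1 := lt_of_le_of_ne (hle 1) hcon.1
    have h2 : v (P.coeff 2) < 1 := lt_of_le_of_ne (hle 2) (hcon.2 h1)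
    intro i hi
    interval_cases i
    · exact h0
    · exact h1
    · exact h2
  obtain ⟨y, hy⟩ := hensel P _ _ _ (charpoly_eq _) h0 (hle 1) (hle 2) h12
  by_cases hx1 : x ∈ (algebraMap k F).range
  · obtain ⟨c, rfl⟩ := hx1
    rw [Algebra.norm_algebraMap, hF] at hN
    have h3 : v c < 1 := by
      have h4 : v c ^ 3 < 1 := by
        rw [← map_pow, hN, Valuation.map_neg]; exact h0
      by_contra h5
      push Not at h5
      exact absurd h4 (not_lt.mpr (one_le_pow₀ h5))
    have h4 : b.repr (algebraMap k F c) j = c * b.repr 1 j := by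
      rw [Algebra.algebraMap_eq_smul_one, map_smul, Finsupp.smul_apply, smul_eq_mul]
    rw [h4, map_mul] at hj
    exact absurd (mul_lt_one_of_lt_of_le h3 (hb.one j)) (not_lt.mpr hj)
  · exact hno (point_of_root hF hx1 b hy)

end unit

end Vale.Agent.P011.H271.ConF
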