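import Vale.Agent.P011.H961.SA
import Vale.Agent.P011.H698.PlusRem
import Vale.Agent.P011.H698.SolvFF
import Vale.Agent.P011.H698.FG
import Vale.Agent.P011.H738.SolvFF
import Vale.Agent.P011.H73.OmFF

/-!
# Strong approximation inside a coset of a dense normal subgroup of finite index, function fields

First part: the core of a normal subgroup of finite index of `GA f` in the unitary group contains
noncentral elements of every level, and approximation at one place holds for it.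
-/

open Module Matrix Topology Filter

set_option linter.unusedSectionVars false

namespace Vale.Agent.P011.H271.CosetF

open Vale.Agent.P011.H738 Vale.Agent.P011.H271 Vale.Agent.P011.H698 Vale.Agent.P011.H976
  Vale.Agent.P011.H961 Vale.Agent.P011.H74 TensorProduct

variable {k K A Ω : Type} [Field k] [GFF k] [Field K] [StarRing K] [Ring A] [StarRing A]
  [Algebra k K] [Algebra k A] [Algebra K A] [IsScalarTower k K A] [StarModule K A] {n N : ℕ}
  [Field Ω] [Algebra K Ω] {f : A →ₐ[K] Matrix (Fin n) (Fin n) Ω} {B : Basis (Fin N) k A}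

/-- `M` contains noncentral elements of every level without condition at `q`. -/
def HasNC (B : Basis (Fin N) k A) (q : Place k) (M : Subgroup (UA A)) : Prop :=
  ∀ (T : Finset (Place k)), Big B T → ∀ ε : ℝ, 0 < ε → ∃ u ∈ M,
    ((u : Aˣ) : A) ∈ Lv B {q} T ε ∧ ∃ x : A, ((u : Aˣ) : A) * x ≠ x * ((u : Aˣ) : A)

/-- A level which avoids a finite set of elements different from one. -/
theorem exists_avoid {q : Place k} {S : Set (UA A)} (hS : S.Finite) (h1 : (1 : UA A) ∉ S)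
    {v0 : Place k} (hv0 : v0 ≠ q) (T : Finset (Place k)) {ε : ℝ} (hε : 0 < ε) :
    ∃ (T' : Finset (Place k)) (ε' : ℝ), T ⊆ T' ∧ 0 < ε' ∧ ε' ≤ ε ∧
      ∀ u ∈ S, ((u : Aˣ) : A) ∉ Lv B {q} T' ε' := by
  classical
  have h2 : ∀ u : UA A, u ∈ S → ∃ δ : ℝ, 0 < δ ∧ ¬ Sm B v0 δ (((u : Aˣ) : A) - 1) := by
    intro u hu
    have h3 : ((u : Aˣ) : A) - 1 ≠ 0 := by
      intro h
      apply h1
      have h4 : u = 1 := Subtype.ext (Units.ext (sub_eq_zero.mp h))
      rwa [← h4]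
    obtain ⟨i, hi⟩ : ∃ i, B.repr (((u : Aˣ) : A) - 1) i ≠ 0 := by
      by_contra hcon
      push Not at hcon
      apply h3
      apply B.repr.injective
      rw [map_zero]
      exact Finsupp.ext hcon
    exact ⟨v0.abv (B.repr (((u : Aˣ) : A) - 1) i), v0.abv.pos hi, fun h => lt_irrefl _ (h i)⟩
  choose! δ hδ hδ' using h2
  obtain ⟨m, hm, hm'⟩ : ∃ m : ℝ, 0 < m ∧ ∀ u ∈ S, m ≤ δ u := by
    clear h1
    induction S, hS using Set.Finite.induction_on with
    | empty => exact ⟨1, one_pos, by simp⟩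
    | @insert a s ha hs ih =>
      obtain ⟨m, hm, hm'⟩ := ih (fun u hu => hδ u (Set.mem_insert_of_mem _ hu))
        (fun u hu => hδ' u (Set.mem_insert_of_mem _ hu))
      refine ⟨min (δ a) m, lt_min (hδ a (Set.mem_insert _ _)) hm, fun i hi => ?_⟩
      rcases hi with rfl | hi
      · exact min_le_left _ _
      · exact (min_le_right _ _).trans (hm' i hi)
  refine ⟨insert v0 T, min ε m, Finset.subset_insert _ _, lt_min hε hm, min_le_left _ _,
    fun u hu hcon => ?_⟩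
  refine hδ' u hu ((hcon.1 v0 (Finset.mem_insert_self _ _) hv0).mono ?_)
  exact (min_le_right _ _).trans (hm' u hu)

theorem exists_ne_place (hk : IsGlobalFunctionField k) (hA : Anis k K A n) (hn : n ≠ 0)
    (q : Place k) : ∃ v : Place k, v ≠ q := by
  obtain ⟨v, hv, -⟩ := H519.exists_split_place hk hA hn {q} 0
  exact ⟨v, by simpa using hv⟩

/-- **The core of a normal subgroup of finite index.** -/
theorem exists_core (hk : IsGlobalFunctionField k) (hA : Anis k K A n) (hn : 2 ≤ n) {q : Place k}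
    {φ : K →ₐ[k] q.comp} {g : A →+* Matrix (Fin n) (Fin n) q.comp}
    (hφ : ∀ c : K, g (algebraMap K A c) = algebraMap q.comp _ (φ c))
    (hspan : Submodule.span q.comp (Set.range fun x : A => (g x, (g (star x)).transpose)) = ⊤)
    (f : A →ₐ[K] Matrix (Fin n) (Fin n) Ω) (B : Basis (Fin N) k A)
    (Q : Subgroup (GA f)) [Q.Normal] [Q.FiniteIndex] :
    ∃ M : Subgroup (UA A), M.Normal ∧ M ≤ GA f ∧ (∀ x : GA f, (x : UA A) ∈ M → x ∈ Q) ∧
      HasNC B q M := by
  classical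
  have hst := H519.star_smul_of_anis hA
  obtain ⟨v0, hv0⟩ := exists_ne_place hk hA (by omega) q
  obtain ⟨X, hXf, hX⟩ := fg_FLv hA hn hφ hspan f B
  have : Finite X := hXf
  let a : UA A → MulAut (GA f) := fun u => MulAut.conjNormal u
  set D := Subgroup.closure X with hD
  let ψ : UA A → (GA f →* GA f ⧸ Q) :=
    fun u => (QuotientGroup.mk' Q).comp ((a u : MulAut (GA f)) : GA f →* GA f)
  have hψ : ∀ u x, ψ u x = 1 ↔ a u x ∈ Q := fun u x => by
    change QuotientGroup.mk' Q (a u x) = 1 ↔ _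
    rw [QuotientGroup.mk'_apply, QuotientGroup.eq_one_iff]
  let r : UA A → (X → GA f ⧸ Q) := fun u x => ψ u x
  have hr : ∀ u v, r u = r v → ∀ x ∈ D, ψ u x = ψ v x := fun u v h x hx =>
    MonoidHom.eqOn_closure (f := ψ u) (g := ψ v) (s := X) (fun x hx => congrFun h ⟨x, hx⟩) hx
  have hfin : (Set.range r).Finite := Set.toFinite _
  choose fr hfr using fun y : Set.range r => y.2
  -- the core
  let M0 : Subgroup (GA f) := ⨅ u, Q.comap ((a u : MulAut (GA f)) : GA f →* GA f)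
  have hM0Q : M0 ≤ Q := by
    intro x hx
    have h1 := Subgroup.mem_iInf.mp hx 1
    have h2 : a 1 x = x := by
      change (MulAut.conjNormal (1 : UA A)) x = x
      rw [map_one, MulAut.one_apply]
    change a 1 x ∈ Q at h1
    rwa [h2] at h1
  have hM0n : ∀ (u : UA A), ∀ x ∈ M0, MulAut.conjNormal u x ∈ M0 := by
    intro u x hx
    rw [Subgroup.mem_iInf] at hx ⊢
    intro v
    have h1 := hx (v * u)
    change a (v * u) x ∈ Q at h1
    change a v (a u x) ∈ Q
    have h2 : a (v * u) = a v * a u := map_mul MulAut.conjNormal v u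
    rwa [h2, MulAut.mul_apply] at h1
  -- the finite quotient of `D`
  have : Finite (Set.range r) := hfin
  let Ψ : GA f →* (Set.range r → GA f ⧸ Q) :=
    { toFun := fun x y => ψ (fr y) x
      map_one' := funext fun y => map_one _
      map_mul' := fun x x' => funext fun y => map_mul _ _ _ }
  have hΨ : ∀ x ∈ D, Ψ x = 1 → x ∈ M0 := by
    intro x hx h
    rw [Subgroup.mem_iInf]
    intro u
    change a u x ∈ Q
    have h3 : r (fr ⟨r u, u, rfl⟩) = r u := hfr ⟨r u, u, rfl⟩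
    rw [← hψ, ← hr _ _ h3 x hx]
    exact congrFun h ⟨r u, u, rfl⟩
  refine ⟨M0.map (GA f).subtype, ⟨?_⟩, ?_, ?_, ?_⟩
  · rintro _ ⟨x, hx, rfl⟩ u
    exact ⟨MulAut.conjNormal u x, hM0n u x hx, MulAut.conjNormal_apply u x⟩
  · rintro _ ⟨x, -, rfl⟩
    exact x.2
  · rintro x ⟨y, hy, hxy⟩
    have h5 : y = x := Subtype.ext hxy
    rw [← h5]
    exact hM0Q hy
  · -- noncentral elements
    intro T hT ε hε
    by_contra hcon
    push Not at hcon
    obtain ⟨ε1, hε1, hle, hle1, hml, -⟩ := mul_level (B := B) (S := ({q} : Set (Place k))) hst hT hε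
    obtain ⟨ε2, hε2, hle2, hle21, -, hsl⟩ :=
      mul_level (B := B) (S := ({q} : Set (Place k))) hst hT hε1
    rw [mem_Fc (GA_mem _)] at hX
    obtain ⟨T3, hTT3, hT3, ε3, hε3, hε31, hε3ε, hD3⟩ := mem_FLv' T ε2 hε2 hX
    have hlv : Lv B {q} T3 ε3 ⊆ Lv B {q} T ε2 := fun x hx => lv_mono hTT3 hT hε3ε hε31 hx
    have hD4 : ∀ u : GA f, (((u : UA A) : Aˣ) : A) ∈ Lv B {q} T3 ε3 → u ∈ D := by
      intro u hu
      obtain ⟨u', hu', h⟩ := hD3 u u.2 hu
      have h6 : u' = u := Subtype.ext h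
      rwa [h6] at hu'
    -- the level is finite
    have hZ := finite_central hA (by omega : n ≠ 0) f
    have hfinL : {u : UA A | u ∈ GA f ∧ ((u : Aˣ) : A) ∈ Lv B {q} T3 ε3}.Finite := by
      have h7 : ∀ c : Set.range r → GA f ⧸ Q, {u : GA f | (((u : UA A) : Aˣ) : A) ∈ Lv B {q} T3 ε3 ∧
          Ψ u = c}.Finite := by
        intro c
        rcases Set.eq_empty_or_nonempty {u : GA f | (((u : UA A) : Aˣ) : A) ∈ Lv B {q} T3 ε3 ∧
          Ψ u = c} with h | ⟨u0, hu0, hu0c⟩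
        · rw [h]
          exact Set.finite_empty
        · refine Set.Finite.of_finite_image
            (f := fun u : GA f => star (((u0 : UA A) : Aˣ) : A) * (((u : UA A) : Aˣ) : A))
            (hZ.subset ?_) ?_
          · rintro _ ⟨u, ⟨hu, huc⟩, rfl⟩
            have hs0 : star (((u0 : UA A) : Aˣ) : A) = ((((u0⁻¹ : GA f) : UA A) : Aˣ) : A) :=
              (ua_inv (u0 : UA A)).symm
            have e : star (((u0 : UA A) : Aˣ) : A) * (((u : UA A) : Aˣ) : A) =
                ((((u0⁻¹ * u : GA f) : UA A) : Aˣ) : A) := by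
              rw [hs0]
              rfl
            have h8 : u0⁻¹ * u ∈ M0 := by
              refine hΨ _ (D.mul_mem (D.inv_mem (hD4 _ hu0)) (hD4 _ hu)) ?_
              rw [map_mul, map_inv, hu0c, huc, inv_mul_cancel]
            have h9 : ((((u0⁻¹ * u : GA f) : UA A) : Aˣ) : A) ∈ Lv B {q} T ε := by
              rw [← e]
              exact lv_mono (Finset.Subset.refl T) hT hle hle1
                (hml _ (hsl _ (hlv hu0)) _ (lv_mono (Finset.Subset.refl T) hT hle2 hle21 (hlv hu)))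
            have h10 := hcon ((u0⁻¹ * u : GA f) : UA A) ⟨_, h8, rfl⟩ h9
            rw [Set.mem_ofPred_eq]
            dsimp only
            rw [e]
            exact ⟨mem_GA.mp (u0⁻¹ * u : GA f).2, h10⟩
          · intro u _ u' _ h
            have hs0 : star (((u0 : UA A) : Aˣ) : A) = ((((u0⁻¹ : GA f) : UA A) : Aˣ) : A) :=
              (ua_inv (u0 : UA A)).symm
            simp only [hs0] at h
            have h11 : u0⁻¹ * u = u0⁻¹ * u' := Subtype.ext (Subtype.ext (Units.ext h))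
            exact mul_left_cancel h11
      have h12 := Set.finite_iUnion h7
      refine (h12.image (GA f).subtype).subset ?_
      rintro u ⟨hu, hul⟩
      exact ⟨⟨u, hu⟩, Set.mem_iUnion.mpr ⟨Ψ ⟨u, hu⟩, hul, rfl⟩, rfl⟩
    -- a smaller level
    obtain ⟨T4, ε4, hT34, hε4, hε43, hav⟩ := exists_avoid (B := B)
      (S := {u : UA A | (u ∈ GA f ∧ ((u : Aˣ) : A) ∈ Lv B {q} T3 ε3) ∧
        ∃ x : A, ((u : Aˣ) : A) * x ≠ x * ((u : Aˣ) : A)})
      (hfinL.subset fun u hu => hu.1) (by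
        rintro ⟨-, x, hx⟩
        apply hx
        change (1 : A) * x = x * 1
        rw [one_mul, mul_one]) hv0 T3 hε3
    obtain ⟨u, hu, hul, hun⟩ := exists_noncentral hA hn hφ hspan f B (hT3.mono hT34) hε4
    exact hav u ⟨⟨hu, lv_mono hT34 hT3 hε43 (hε43.trans hε31) hul⟩, hun⟩ hul

section one

variable {v : Place k} {L : Type} [NontriviallyNormedField L]
  {E : Subgroup (Matrix (Fin n) (Fin n) L)ˣ} {g : A →+* Matrix (Fin n) (Fin n) L}
  [ProperSpace L] [IsUltrametricDist L]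

omit [ProperSpace L] in
/-- Noncentral elements near one. -/
theorem app_inf' (h : LM f B v E g)
    (hst : ∀ (c : k) (x : A), star (c • x) = c • star x) {q : Place k} (hvq : v ≠ q)
    {M : Subgroup (UA A)} (hM : HasNC B q M)
    (T : Finset (Place k)) (hq : q ∉ T) (W : Place k → Set (UA A))
    (hW : ∀ w, W w ∈ nrF B (MonoidHom.id (UA A)) w) (O : Set E) (hO : O ∈ 𝓝 (1 : E)) :
    ∃ x ∈ M, x ∈ nzU A ∧ h.iota x ∈ O ∧
      (levF B (MonoidHom.id (UA A)) hst).Of T W Set.univ {q, v} x := by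
  classical
  obtain ⟨O', hO', hOO'⟩ := (mem_nhds_subtype _ _ _).mp hO
  obtain ⟨δ, hδ, hball⟩ := exists_ball_units hO'
  obtain ⟨ε1, hε1, hn⟩ := h.near hst hδ
  choose eW heW hW' using hW
  obtain ⟨T2, -, hT2⟩ := exists_big B (∅ : Finset (Place k))
  obtain ⟨m, hm, hmT⟩ : ∃ m : ℝ, 0 < m ∧ ∀ w ∈ T, m ≤ eW w := by
    clear hq
    induction T using Finset.induction_on with
    | empty => exact ⟨1, one_pos, by simp⟩
    | insert a s _ ih =>
      obtain ⟨m, hm, hm'⟩ := ih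
      refine ⟨min (eW a) m, lt_min (heW a) hm, fun i hi => ?_⟩
      rcases Finset.mem_insert.mp hi with rfl | hi
      · exact min_le_left _ _
      · exact (min_le_right _ _).trans (hm' i hi)
  obtain ⟨T', hT'd⟩ : ∃ T', T' = insert v (T ∪ T2) := ⟨_, rfl⟩
  have hTT' : T ⊆ T' := by
    rw [hT'd]
    exact Finset.subset_union_left.trans (Finset.subset_insert _ _)
  have hT2T' : T2 ⊆ T' := by
    rw [hT'd]
    exact Finset.subset_union_right.trans (Finset.subset_insert _ _)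
  have hvT' : v ∈ T' := by
    rw [hT'd]
    exact Finset.mem_insert_self _ _
  have hT' : Big B T' := hT2.mono hT2T'
  obtain ⟨ε, hεd⟩ : ∃ ε, ε = min (min ε1 1) m := ⟨_, rfl⟩
  have hε : 0 < ε := by rw [hεd]; exact lt_min (lt_min hε1 one_pos) hm
  have hεε1 : ε ≤ ε1 := by rw [hεd]; exact (min_le_left _ _).trans (min_le_left _ _)
  have hεε2 : ε ≤ 1 := by rw [hεd]; exact (min_le_left _ _).trans (min_le_right _ _)
  have hεm : ε ≤ m := by rw [hεd]; exact min_le_right _ _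
  obtain ⟨u, hu, hul, y, hy⟩ := hM T' hT' ε hε
  have hvq' : v ∉ ({q} : Set (Place k)) := fun h => hvq h
  have hnear := hn _ ((hul.1 v hvT' hvq').mono hεε1)
  refine ⟨u, hu, ⟨y, hy⟩, hOO' (hball _ hnear.1 ?_), fun w hw => ?_, trivial, fun w hw hwS => ?_⟩
  · rw [h.iota_inv]
    exact hnear.2
  · have hwq : w ∉ ({q} : Set (Place k)) := by
      intro h
      rw [Set.mem_singleton_iff] at h
      exact hq (h ▸ hw)
    exact hW' w u ((hul.1 w (hTT' hw) hwq).mono (hεm.trans (hmT w hw)))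
  · have hwq : w ∉ ({q} : Set (Place k)) := by
      intro h
      exact hwS (Or.inl h)
    rw [levF_Kint]
    by_cases hwT' : w ∈ T'
    · by_cases hgd : Gd B w
      · exact (mem_kintF B _ hgd).mpr (hgd.of_near
          ((hul.1 w hwT' hwq).mono hεε2).bd)
      · rw [kintF_bad B _ hgd]
        trivial
    · exact mem_kintF_of B _ (hul.2 w hwT' hwq)

/-- **Approximation at one place.** -/
theorem approx' (h : LM f B v E g) (hA : Anis k K A n)
    (hst : ∀ (c : k) (x : A), star (c • x) = c • star x) {q : Place k} (hvq : v ≠ q)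
    (M : Subgroup (UA A)) [M.Normal] (hM : HasNC B q M)
    (T : Finset (Place k)) (hqT : q ∉ T) (hvT : v ∉ T) (W : Place k → Set (UA A))
    (hW : ∀ w, W w ∈ nrF B (MonoidHom.id (UA A)) w) (x : UA A) (hx : x ∈ GA f)
    (O : Set (UA A)) (hO : O ∈ nrF B (MonoidHom.id (UA A)) v) :
    ∃ ν ∈ M, (levF B (MonoidHom.id (UA A)) hst).Of T W Set.univ {q, v} ν ∧ x * ν ∈ O := by
  classical
  obtain ⟨R, hR⟩ := h.app_unb
  obtain ⟨Mw, R3, hMfin, hcoc⟩ := h.app_coc hA hst hvq
  have hW0o : IsOpen (ubE E 1) := isOpen_ubE one_pos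
  have hW01 : ubE E 1 ∈ 𝓝 (1 : E) := hW0o.mem_nhds (ub_one le_rfl)
  have hL0 : IsCompact ((fun p : E × E => p.1⁻¹ * p.2 * p.1) '' (ubE E R ×ˢ ubE E 1)) :=
    ((h.compact R).prod (h.compact 1)).image (by fun_prop)
  refine (levF B (MonoidHom.id (UA A)) hst).approx q v h.iota h.app_nhds M (nzU A) ?_ (ubE E R)
    (ubE E 1) _ hW01 hL0 (fun s hs w hw => ⟨(s, w), ⟨hs, hw⟩, rfl⟩) (fun y _ hy => hR y hy)
    (ubE E R3) (h.compact R3) {γ | ∀ w, w ≠ q → w ≠ v → Bd B w (Mw w) ((γ : Aˣ) : A)}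
    (fun a _ => hcoc a) hMfin.toFinset ?_ ?_ ?_ (ncE E) (fun y hy hy' c _ => app_nc E R y hy hy' c)
    (tgE E) (fun H _ hHn hb => h.app_loc H hHn hb) T hqT hvT W hW Set.univ univ_mem x ?_ O hO
  · intro T hq _ W hW Woo hWoo O hO
    have : Woo = Set.univ := mem_top.mp hWoo
    rw [this]
    exact app_inf' h hst hvq hM T hq W hW O hO
  · intro γ hγ w hw hwq hwv
    have hMw : Mw w = 1 := by
      by_contra hcon
      exact hw (hMfin.mem_toFinset.mpr hcon)
    rw [levF_Kint]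
    refine mem_kintF_of B _ ?_
    have := hγ w hwq hwv
    rwa [hMw] at this
  · rintro w hwq hwv U ⟨ε, hε, hU⟩
    obtain ⟨ε', hε', hc⟩ := conj_near B hst w (R := Mw w) hε
    refine ⟨_, ball_mem B _ w hε', fun γ hγ y hy => hU _ ?_⟩
    rw [el_mul, el_mul, el_inv]
    exact hc _ _ (el_mul_star _ γ) (hγ w hwq hwv) hy
  · intro U hU
    have hU' : U = Set.univ := mem_top.mp hU
    exact ⟨U, hU, fun _ _ _ _ => by rw [hU']; trivial⟩
  · change (((h.iota x)⁻¹ : E) : (Matrix (Fin n) (Fin n) L)ˣ).val.det = 1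
    rw [← map_inv, h.iota_val]
    exact h.det _ (mem_GA.mp ((GA f).inv_mem hx))

end one

/-- One pole is removed. -/
theorem remove_pole' (hA : Anis k K A n)
    (hst : ∀ (c : k) (x : A), star (c • x) = c • star x) {q v : Place k} (hvq : v ≠ q)
    (hmod : ∃ (L : Type) (_ : NontriviallyNormedField L) (_ : ProperSpace L)
      (_ : IsUltrametricDist L) (E : Subgroup (Matrix (Fin n) (Fin n) L)ˣ)
      (g : A →+* Matrix (Fin n) (Fin n) L), LM f B v E g)
    (M : Subgroup (UA A)) [M.Normal] (hMG : M ≤ GA f) (hM : HasNC B q M)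
    (T : Finset (Place k)) (hqT : q ∉ T) (hvT : v ∉ T) (W : Place k → Set (GA f))
    (hW : ∀ w, W w ∈ nrF B (GA f).subtype w) (x : GA f) :
    ∃ ν : GA f, (ν : UA A) ∈ M ∧ (∀ w ∈ T, ν ∈ W w) ∧
      (∀ w ∉ T, w ∉ ({q, v} : Set (Place k)) → ν ∈ kintF B (GA f).subtype hst w) ∧
      x * ν ∈ kintF B (GA f).subtype hst v := by
  obtain ⟨L, _, _, _, E, g, h⟩ := hmod
  choose eW heW hW' using hW
  obtain ⟨ν, hνM, ⟨h1, -, h3⟩, h4⟩ := approx' h hA hst hvq M hM T hqT hvT
    (fun w => {u | Sm B w (eW w) (el (MonoidHom.id (UA A)) u - 1)})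
    (fun w => ball_mem B _ w (heW w)) (x : UA A) x.2
    (kintF B (MonoidHom.id (UA A)) hst v : Subgroup (UA A))
    ((levF B (MonoidHom.id (UA A)) hst).int_nr v)
  refine ⟨⟨ν, hMG hνM⟩, hνM, fun w hw => hW' w _ (h1 w hw), fun w hw hw' => ?_, ?_⟩
  · rw [kintF_iff]
    exact h3 w hw hw'
  · rw [kintF_iff]
    exact h4

/-- **The poles are removed by an element of `M` which is close to one at the places of `T`.** -/
theorem poles (hA : Anis k K A n) (hst : ∀ (c : k) (x : A), star (c • x) = c • star x)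
    {q : Place k} (M : Subgroup (UA A)) [M.Normal] (hMG : M ≤ GA f) (hM : HasNC B q M)
    (T : Finset (Place k)) (hqT : q ∉ T)
    (hmod : ∀ v, v ∉ T → v ≠ q → ∃ (L : Type) (_ : NontriviallyNormedField L) (_ : ProperSpace L)
      (_ : IsUltrametricDist L) (E : Subgroup (Matrix (Fin n) (Fin n) L)ˣ)
      (g : A →+* Matrix (Fin n) (Fin n) L), LM f B v E g)
    {ε : ℝ} (hε : 0 < ε) (x : GA f) :
    ∃ y : GA f, (y : UA A) ∈ M ∧ (∀ v ∈ T, Sm B v ε (((y : UA A) : Aˣ) - 1 : A)) ∧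
      ∀ v ∉ T, v ≠ q → x * y ∈ kintF B (GA f).subtype hst v := by
  classical
  obtain ⟨μ, hμc, hμ1, -, hμ3⟩ := (levF B (GA f).subtype hst).exists_fix
    (QuotientGroup.mk' (M.subgroupOf (GA f))) q T
    (by
      intro v hv hvq y W1 hW1 Woo hWoo
      obtain ⟨ν, hνM, h1, h2, h3⟩ := remove_pole' hA hst hvq (hmod v hv hvq) M hMG hM
        T hqT hv W1 hW1 y
      have hWoo' : Woo = Set.univ := mem_top.mp hWoo
      refine ⟨ν, ?_, ⟨h1, by rw [hWoo']; trivial, fun w hw hw' => ?_⟩, h3⟩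
      · rw [QuotientGroup.mk'_apply, QuotientGroup.eq_one_iff, Subgroup.mem_subgroupOf]
        exact hνM
      · exact h2 w hw hw')
    _ x le_rfl (fun w => {u | Sm B w ε (el (GA f).subtype u - 1)})
    (fun w => ball_mem B _ w hε) Set.univ univ_mem
  rw [QuotientGroup.mk'_apply, QuotientGroup.eq_one_iff, Subgroup.mem_subgroupOf] at hμc
  exact ⟨μ, hμc, fun v hv => hμ1 v hv, fun v hv hvq => hμ3 v hv hvq⟩

/-- The elements of `GA f` close to one at finitely many places of division type. -/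
def NearA (f : A →ₐ[K] Matrix (Fin n) (Fin n) Ω) (B : Basis (Fin N) k A)
    (V : Subgroup (GA f)) : Prop :=
  ∃ T : Finset (Place k), (∀ v ∈ T, v ∈ Adiv k K A) ∧ ∃ ε : ℝ, 0 < ε ∧ ∀ g : GA f,
    (∀ v ∈ T, Sm B v ε ((((g : UA A) : Aˣ) : A) - 1)) → g ∈ V

/-- **Every coset of a dense normal subgroup of finite index comes close to one at finitely many
places.** -/
theorem coset_near (hk : IsGlobalFunctionField k) (hA : Anis k K A n) (hn : 3 ≤ n)
    (f : A →ₐ[K] Matrix (Fin n) (Fin n) Ω) (B : Basis (Fin N) k A)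
    {Q H : Subgroup (GA f)} [Q.Normal] [Q.FiniteIndex]
    (hd : ∀ V : Subgroup (GA f), NearA f B V → H ≤ Q ⊔ V)
    (P : Finset (Place k)) {x : GA f} (hx : x ∈ H) {ε : ℝ} (hε : 0 < ε) :
    ∃ y ∈ Q, ∀ v ∈ P, Sm B v ε ((((x * y : GA f) : UA A) : Aˣ) - 1 : A) := by
  classical
  have hn0 : n ≠ 0 := by omega
  have hst := H519.star_smul_of_anis hA
  have hSL : StarLinR k A := ⟨hst⟩
  obtain ⟨q, hqP, -, φ, g, hφ, -, hspan⟩ := H519.exists_split_place hk hA hn0 P 0
  let H0 : ∀ v : P, BCR k (v : Place k).comp A (BR B (v : Place k).comp) (Fin N) := fun v =>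
    bcrT B (v : Place k).comp
  let ι : GA f →* (∀ v : P, UA (BR B (v : Place k).comp)) :=
    (MonoidHom.pi fun v => jUA (H0 v)).comp (GA f).subtype
  have hcoord : ∀ (v : P) (x : A) (i : Fin N),
      ‖(H0 v).φ ((H0 v).j x) i‖ = (v : Place k).abv (B.repr x i) := by
    intro v x i
    rw [(H0 v).φ_eq, norm_alg]
    rfl
  let _ : TopologicalSpace (GA f) := TopologicalSpace.induced ι inferInstance
  have hgrp : IsTopologicalGroup (GA f) := topologicalGroup_induced ι
  have hcont : Continuous ι := continuous_induced_dom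
  -- neighbourhoods
  have hnb1 : ∀ {ε : ℝ}, 0 < ε → {g : GA f | ∀ v ∈ P, Sm B v ε ((((g : UA A) : Aˣ) : A) - 1)} ∈
      𝓝 (1 : GA f) := by
    intro ε hε
    have h1 := set_pi_mem_nhds (x := (1 : ∀ v : P, UA (BR B (v : Place k).comp)))
      (Set.toFinite (Set.univ : Set P)) fun v _ =>
        box_mem (H0 v) (1 : UA (BR B (v : Place k).comp)) hε
    have h2 : Tendsto ι (𝓝 1) (𝓝 1) := by
      have := hcont.tendsto 1
      rwa [map_one] at this
    refine Filter.mem_of_superset (h2 h1) fun g hg v hv i => ?_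
    have h3 : ‖(H0 ⟨v, hv⟩).φ ((H0 ⟨v, hv⟩).j (((g : UA A) : Aˣ) : A) - 1) i‖ < ε :=
      hg ⟨v, hv⟩ (Set.mem_univ _) i
    rw [← map_one (H0 ⟨v, hv⟩).j, ← map_sub, hcoord] at h3
    exact h3
  have hnb2 : ∀ O ∈ 𝓝 (1 : GA f), ∃ ε : ℝ, 0 < ε ∧ ∀ g : GA f,
      (∀ v ∈ P, Sm B v ε ((((g : UA A) : Aˣ) : A) - 1)) → g ∈ O := by
    intro O hO
    rw [nhds_induced, Filter.mem_comap] at hO
    obtain ⟨O', hO', hOO'⟩ := hO
    rw [map_one, nhds_pi, Filter.mem_pi] at hO'
    obtain ⟨I, -, W, hW, hIW⟩ := hO'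
    choose δ hδ hδW using fun v : P => nhds_UA (H0 v) (1 : UA (BR B (v : Place k).comp)) (hW v)
    obtain ⟨η, hη, hηδ⟩ := exists_pos_le δ hδ
    refine ⟨η, hη, fun g hg => hOO' (hIW fun v _ => hδW v _ fun i => ?_)⟩
    have h1 := hg v v.2 i
    change ‖(H0 v).φ ((H0 v).j (((g : UA A) : Aˣ) : A) - 1) i‖ < δ v
    rw [← map_one (H0 v).j, ← map_sub, hcoord]
    exact h1.trans_le (hηδ v)
  -- the closure is open
  obtain ⟨C, hCd⟩ : ∃ C : Subgroup (GA f), C = Q.topologicalClosure := ⟨_, rfl⟩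
  have hQC : Q ≤ C := by
    rw [hCd]
    exact Q.le_topologicalClosure
  have hCn : C.Normal := by
    rw [hCd]
    exact Subgroup.is_normal_topologicalClosure Q
  have hCf : C.FiniteIndex := Subgroup.finiteIndex_of_le hQC
  have hCc : IsClosed (C : Set (GA f)) := by
    rw [hCd]
    exact Q.isClosed_topologicalClosure
  have hCo : IsOpen (C : Set (GA f)) := C.isOpen_of_isClosed_of_finiteIndex hCc
  have hC1 : (C : Set (GA f)) ∈ 𝓝 (1 : GA f) := hCo.mem_nhds C.one_mem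
  obtain ⟨ε1, hε1, h1⟩ := hnb2 _ hC1
  -- the closure is a level
  have hCF : (C : Set (GA f)) ∈ Fc (GA f) (FLv f B ({q} : Set (Place k))) := by
    obtain ⟨T', hPT', hT'⟩ := exists_big B P
    rw [mem_Fc (GA_mem _)]
    refine mem_FLv.mpr ⟨T', hT', min ε1 1, lt_min hε1 one_pos, min_le_right _ _,
      fun u hu hul => ⟨⟨u, hu⟩, h1 _ fun v hv => ?_, rfl⟩⟩
    have hvq : v ∉ ({q} : Set (Place k)) := by
      intro h
      rw [Set.mem_singleton_iff] at h
      exact hqP (h ▸ hv)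
    exact (hul.1 v (hPT' hv) hvq).mono (min_le_left _ _)
  obtain ⟨M, hMn, hMG, -, hM1, hMC⟩ := mem_of_SA (F₁ := FNr f B) (GA f)
    (lev_FLv hst ({q} : Set (Place k))) (GA_mem _) (fun R hRn hRG hRF => by
      obtain ⟨T, -, ε, hε, h⟩ := H961.sa_ff hk hA hn hφ hspan f B R hRG hRF
      exact mem_FNr.mpr ⟨T, ε, hε, h⟩) (fg_FLv hA (by omega) hφ hspan f B) C hCF
  obtain ⟨T, hT, ε2, hε2, h2⟩ := rem_FF_all hk hA hn f B (splitNS hA hn0) M hMn hMG hM1
  have h3 : H ≤ C := by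
    refine (hd C ⟨T, hT, ε2, hε2, fun g hg => hMC g (h2 _ g.2 hg)⟩).trans ?_
    exact sup_le hQC le_rfl
  have h4 : x⁻¹ ∈ closure (Q : Set (GA f)) := by
    have h5 := C.inv_mem (h3 hx)
    rw [hCd] at h5
    exact h5
  have h5 : {z : GA f | ∀ v ∈ P, Sm B v ε ((((x * z : GA f) : UA A) : Aˣ) - 1 : A)} ∈
      𝓝 x⁻¹ := by
    have hc : Continuous fun z : GA f => x * z := by fun_prop
    have h6 : Tendsto (fun z : GA f => x * z) (𝓝 x⁻¹) (𝓝 1) := by
      have := hc.tendsto x⁻¹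
      rwa [mul_inv_cancel] at this
    exact h6 (hnb1 hε)
  obtain ⟨y, hy, hyQ⟩ := mem_closure_iff_nhds.mp h4 _ h5
  exact ⟨y, hyQ, hy⟩

/-- There is a local model at `v`. -/
def Mod (f : A →ₐ[K] Matrix (Fin n) (Fin n) Ω) (B : Basis (Fin N) k A) (v : Place k) : Prop :=
  ∃ (L : Type) (_ : NontriviallyNormedField L) (_ : ProperSpace L) (_ : IsUltrametricDist L)
    (E : Subgroup (Matrix (Fin n) (Fin n) L)ˣ) (g : A →+* Matrix (Fin n) (Fin n) L), LM f B v E g

/-- For prime degree there are models at all places which are not of division type. -/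
theorem mod_of_prime (hk : IsGlobalFunctionField k) (hA : Anis k K A n) (hn : 3 ≤ n)
    (hp : n.Prime) (f : A →ₐ[K] Matrix (Fin n) (Fin n) Ω) (B : Basis (Fin N) k A) {v : Place k}
    (hv : v ∉ Adiv k K A) : Mod f B v := by
  have hcen := hA.central
  have hsim := hA.simple
  have hn0 : n ≠ 0 := by omega
  have : FiniteDimensional K A := FiniteDimensional.of_finrank_pos (by
    rw [hA.finrank_eq]
    exact pow_pos hp.pos 2)
  rcases isEmpty_or_nonempty (K →ₐ[k] v.comp) with hs | ⟨⟨φ⟩⟩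
  · obtain ⟨L, _, _, _, _, _, φ, h1, h2, h3, h4, h5, h6⟩ :=
      exists_quad_field hA.fixed hA.star_ne v hs
    obtain ⟨g, hg⟩ := splitNS hA hn0 v hs L φ h1 h2 h3 h4 h5 h6
    obtain ⟨E, hE⟩ := lm_nonsplit hk hA hn f B h1 h2 h3 h4 h5 h6 hg
    exact ⟨L, inferInstance, inferInstance, inferInstance, E, g, hE⟩
  · let _ : Algebra K v.comp := (φ : K →+* v.comp).toAlgebra
    obtain ⟨g⟩ := H73.exists_split_prime (E := v.comp) hp hA.finrank_eq fun h => hv ⟨φ, h⟩
    let _ := nnfPlace v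
    exact ⟨v.comp, nnfPlace v, inferInstance, inferInstance, ⊤, (g : A →+* _),
      lm_split hA (by omega) f B (φ := φ) fun c => g.commutes c⟩

/-- **Strong approximation inside a coset**, in the group `GA f`. -/
theorem coset_strongG (hk : IsGlobalFunctionField k) (hA : Anis k K A n) (hn : 3 ≤ n)
    (f : A →ₐ[K] Matrix (Fin n) (Fin n) Ω) (B : Basis (Fin N) k A)
    {Q H : Subgroup (GA f)} [Q.Normal] [Q.FiniteIndex]
    (hd : ∀ V : Subgroup (GA f), NearA f B V → H ≤ Q ⊔ V)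
    {q : Place k} {φ : K →ₐ[k] q.comp} {g : A →+* Matrix (Fin n) (Fin n) q.comp}
    (hφ : ∀ c : K, g (algebraMap K A c) = algebraMap q.comp _ (φ c))
    {T : Finset (Place k)} (hb : Big B T) (hmod : ∀ v, v ∉ T → v ≠ q → Mod f B v)
    {x w : GA f} (hx : x ∈ H) (hw : w ∈ H) {ε : ℝ} (hε : 0 < ε) :
    ∃ x' : GA f, x⁻¹ * x' ∈ Q ∧
      (∀ v ∈ T, v ≠ q → Sm B v ε ((((x' : UA A) : Aˣ) : A) - (((w : UA A) : Aˣ) : A))) ∧
      ∀ v, v ∉ T → v ≠ q → Bd B v 1 (((x' : UA A) : Aˣ) : A) := by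
  classical
  have hn0 : n ≠ 0 := by omega
  have hst := H519.star_smul_of_anis hA
  have hcen := hA.central
  have hsim := hA.simple
  have hspan := H519.span_swap hA.finrank_eq hn0 hA.star_ne (φ : K →+* q.comp) g hφ
  obtain ⟨M, hMn, hMG, hMQ, hMnc⟩ := exists_core hk hA (by omega) hφ hspan f B Q
  -- the margin
  obtain ⟨P, hPd⟩ : ∃ P : Finset (Place k), P = T.erase q := ⟨_, rfl⟩
  have hPT : ∀ v ∈ T, v ≠ q → v ∈ P := fun v hv hvq => by
    rw [hPd]
    exact Finset.mem_erase.mpr ⟨hvq, hv⟩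
  have hqP : q ∉ P := by
    rw [hPd]
    exact Finset.notMem_erase _ _
  have hPT' : ∀ v, v ∉ P → v ≠ q → v ∉ T := fun v hv hvq hvT => hv (hPT v hvT hvq)
  have hmar : ∀ v : Place k, ∃ δ : ℝ, 0 < δ ∧ ∀ t : A, Sm B v δ (t - 1) →
      Sm B v ε ((((w : UA A) : Aˣ) : A) * t - (((w : UA A) : Aˣ) : A)) := by
    intro v
    obtain ⟨C, hC1, -, hCm, -⟩ := exists_const B hst
    obtain ⟨R, hR1, hR⟩ := exists_bd (B := B) (v := v) ((((w : UA A) : Aˣ) : A))
    have hC0 : 0 < C v := one_pos.trans_le (hC1 v)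
    have hR0 : 0 < R := one_pos.trans_le hR1
    refine ⟨ε / (2 * (C v * R)), by positivity, fun t ht => ?_⟩
    have e : (((w : UA A) : Aˣ) : A) * t - (((w : UA A) : Aˣ) : A) =
        (((w : UA A) : Aˣ) : A) * (t - 1) := by
      rw [mul_sub, mul_one]
    rw [e]
    refine (hCm v _ _ _ _ hR0.le (by positivity) hR ht.bd).sm ?_
    have : C v * R * (ε / (2 * (C v * R))) = ε / 2 := by field_simp
    rw [this]
    linarith
  choose δ hδ hδ' using hmar
  have hball : ∀ v, {u : GA f | Sm B v (δ v) (el (GA f).subtype u - 1)} ∈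
      nrF B (GA f).subtype v := fun v => ball_mem B _ v (hδ v)
  choose W hW hmul using fun v => (levF B (GA f).subtype hst).mul_nr v _ (hball v)
  have hcj : ∀ v, ∃ W' ∈ nrF B (GA f).subtype v, ∀ u ∈ W', w⁻¹ * u * w⁻¹⁻¹ ∈ W v := fun v =>
    (levF B (GA f).subtype hst).conj_nr v w⁻¹ _ (hW v)
  choose W' hW' hconj using hcj
  choose e1 he1 he1' using hW
  choose e2 he2 he2' using hW'
  obtain ⟨m, hm, hmP⟩ : ∃ m : ℝ, 0 < m ∧ ∀ v ∈ P, m ≤ min (e1 v) (e2 v) := by
    clear hPd hPT hqP hPT'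
    induction P using Finset.induction_on with
    | empty => exact ⟨1, one_pos, by simp⟩
    | insert a s _ ih =>
      obtain ⟨m, hm, hm'⟩ := ih
      refine ⟨min (min (e1 a) (e2 a)) m, lt_min (lt_min (he1 a) (he2 a)) hm, fun i hi => ?_⟩
      rcases Finset.mem_insert.mp hi with rfl | hi
      · exact min_le_left _ _
      · exact (min_le_right _ _).trans (hm' i hi)
  -- the first step
  obtain ⟨y, hy, hz⟩ := coset_near hk hA hn f B hd P (H.mul_mem hx (H.inv_mem hw)) hm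
  obtain ⟨x1, hx1⟩ : ∃ x1 : GA f, x1 = x * w⁻¹ * y * w := ⟨_, rfl⟩
  have hx1Q : x⁻¹ * x1 ∈ Q := by
    have h2 := (inferInstance : Q.Normal).conj_mem y hy w⁻¹
    rw [inv_inv] at h2
    have h3 : x⁻¹ * x1 = w⁻¹ * y * w := by rw [hx1]; group
    rwa [h3]
  -- the second step
  obtain ⟨y2, hy2, hy2P, hy2i⟩ := poles hA hst M hMG hMnc P hqP
    (fun v hv hvq => hmod v (hPT' v hv hvq) hvq) hm x1
  obtain ⟨x', hx'⟩ : ∃ x' : GA f, x' = x1 * y2 := ⟨_, rfl⟩
  refine ⟨x', ?_, fun v hv hvq => ?_, fun v hv hvq => ?_⟩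
  · rw [hx', ← mul_assoc]
    exact Q.mul_mem hx1Q (hMQ y2 hy2)
  · have hvP := hPT v hv hvq
    have e : x' = w * (w⁻¹ * (x * w⁻¹ * y) * w⁻¹⁻¹ * y2) := by rw [hx', hx1]; group
    rw [e]
    refine hδ' v _ (hmul v _ (hconj v _ (he2' v _ ?_)) _ (he1' v _ ?_))
    · exact (hz v hvP).mono ((hmP v hvP).trans (min_le_right _ _))
    · exact (hy2P v hvP).mono ((hmP v hvP).trans (min_le_left _ _))
  · have hvP : v ∉ P := fun h => hv (by rw [hPd] at h; exact Finset.mem_of_mem_erase h)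
    have h1 := hy2i v hvP hvq
    rw [mem_kintF B _ (hb v hv), ← hx'] at h1
    exact h1

/-- The elements of `SUA f` close to one at finitely many places of division type. -/
def NearS (f : A →ₐ[K] Matrix (Fin n) (Fin n) Ω) (B : Basis (Fin N) k A)
    (V : Subgroup (SUA f)) : Prop :=
  ∃ T : Finset (Place k), (∀ v ∈ T, v ∈ Adiv k K A) ∧ ∃ ε : ℝ, 0 < ε ∧ ∀ g : SUA f,
    (∀ v ∈ T, Sm B v ε (((g : Aˣ) : A) - 1)) → g ∈ V

/-- **Strong approximation inside a coset.**  `x` is congruent modulo `Q` to an element which is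
close to `w` at the places of `T` and which is integral at all other places, except possibly at
`q`. -/
theorem coset_strongF (hk : IsGlobalFunctionField k) (hA : Anis k K A n) (hn : 3 ≤ n)
    (f : A →ₐ[K] Matrix (Fin n) (Fin n) Ω) (B : Basis (Fin N) k A)
    {Q H : Subgroup (SUA f)} [Q.Normal] (hi : Q.index ≠ 0)
    (hd : ∀ V : Subgroup (SUA f), NearS f B V → H ≤ Q ⊔ V)
    {q : Place k} {φ : K →ₐ[k] q.comp} {g : A →+* Matrix (Fin n) (Fin n) q.comp}
    (hφ : ∀ c : K, g (algebraMap K A c) = algebraMap q.comp _ (φ c))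
    {T : Finset (Place k)} (hb : Big B T) (hmod : ∀ v, v ∉ T → v ≠ q → Mod f B v)
    {x w : SUA f} (hx : x ∈ H) (hw : w ∈ H) {ε : ℝ} (hε : 0 < ε) :
    ∃ x' : SUA f, x⁻¹ * x' ∈ Q ∧
      (∀ v ∈ T, v ≠ q → Sm B v ε (((x' : Aˣ) : A) - ((w : Aˣ) : A))) ∧
      ∀ v, v ∉ T → v ≠ q → Bd B v 1 ((x' : Aˣ) : A) := by
  let e : GA f ≃* SUA f := eGA f
  have hQf : (Q.comap (e : GA f →* SUA f)).FiniteIndex := ⟨by
    rw [Subgroup.index_comap_of_surjective _ e.surjective]
    exact hi⟩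
  have hQn : (Q.comap (e : GA f →* SUA f)).Normal := inferInstance
  obtain ⟨x0, rfl⟩ := e.surjective x
  obtain ⟨w0, rfl⟩ := e.surjective w
  obtain ⟨x', h1, h2, h3⟩ := coset_strongG hk hA hn f B (Q := Q.comap (e : GA f →* SUA f))
    (H := H.comap (e : GA f →* SUA f)) (fun V hV y hy => by
      obtain ⟨T', hT', ε', hε', h⟩ := hV
      have h4 := hd (V.map (e : GA f →* SUA f)) ⟨T', hT', ε', hε', fun g hg => by
        obtain ⟨g', rfl⟩ := e.surjective g
        exact ⟨g', h g' hg, rfl⟩⟩ hy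
      have h5 : Q ⊔ V.map (e : GA f →* SUA f) =
          (Q.comap (e : GA f →* SUA f) ⊔ V).map (e : GA f →* SUA f) := by
        rw [Subgroup.map_sup, Subgroup.map_comap_eq_self_of_surjective e.surjective]
      rw [h5] at h4
      obtain ⟨y', hy', h6⟩ := h4
      have h7 : y' = y := e.injective h6
      rwa [h7] at hy') hφ hb hmod hx hw hε
  refine ⟨e x', ?_, h2, h3⟩
  have h8 : e (x0⁻¹ * x') ∈ Q := h1
  rwa [map_mul, map_inv] at h8

/-- The version for prime degree. -/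
theorem coset_strong_prime (hk : IsGlobalFunctionField k) (hA : Anis k K A n) (hn : 3 ≤ n)
    (hp : n.Prime) (f : A →ₐ[K] Matrix (Fin n) (Fin n) Ω) (B : Basis (Fin N) k A)
    {Q H : Subgroup (SUA f)} [Q.Normal] (hi : Q.index ≠ 0)
    (hd : ∀ V : Subgroup (SUA f), NearS f B V → H ≤ Q ⊔ V)
    {q : Place k} (φ : K →ₐ[k] q.comp) (hq : q ∉ Adiv k K A)
    {T : Finset (Place k)} (hb : Big B T) (hTA : ∀ v ∈ Adiv k K A, v ∈ T)
    {x w : SUA f} (hx : x ∈ H) (hw : w ∈ H) {ε : ℝ} (hε : 0 < ε) :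
    ∃ x' : SUA f, x⁻¹ * x' ∈ Q ∧
      (∀ v ∈ T, v ≠ q → Sm B v ε (((x' : Aˣ) : A) - ((w : Aˣ) : A))) ∧
      ∀ v, v ∉ T → v ≠ q → Bd B v 1 ((x' : Aˣ) : A) := by
  have hcen := hA.central
  have hsim := hA.simple
  have : FiniteDimensional K A := FiniteDimensional.of_finrank_pos (by
    rw [hA.finrank_eq]
    exact pow_pos hp.pos 2)
  let _ : Algebra K q.comp := (φ : K →+* q.comp).toAlgebra
  obtain ⟨g⟩ := H73.exists_split_prime (E := q.comp) hp hA.finrank_eq fun h => hq ⟨φ, h⟩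
  exact coset_strongF hk hA hn f B hi hd (φ := φ) (g := (g : A →+* _))
    (fun c => g.commutes c) hb
    (fun v hv _ => mod_of_prime hk hA hn hp f B fun h => hv (hTA v h)) hx hw hε

end Vale.Agent.P011.H271.CosetF
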