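import Vale.Agent.P011.H698.DensFF
import Vale.Agent.P011.H182.Nma

/-!
# Weak approximation for unitary elements over function fields (helper271)

(Twin of `H182/WAU.lean`, every characteristic.)
-/

set_option linter.unusedSectionVars false

open Module

namespace Vale.Agent.P011.H271.WauF

open Vale.Agent.P011.H738 Vale.Agent.P011.H271 Vale.Agent.P011.H698 Vale.Agent.P011.H74
open Vale.Agent.P011.H182 (na na_le_of_coord)

/-- A field with a place is infinite. -/
theorem infinite_of_placeW {k : Type} [Field k] (q : Place k) : Infinite k := by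
  obtain ⟨x, hx⟩ := q.normalized.2.1
  have hx1 : 1 < q.abv x := by
    rw [hx]
    exact_mod_cast one_lt_qq q
  refine Infinite.of_injective (fun n : ℕ => x ^ n) fun a b h => ?_
  have h1 : q.abv x ^ a = q.abv x ^ b := by
    rw [← map_pow, ← map_pow]
    exact congrArg q.abv h
  exact pow_right_injective₀ (zero_lt_one.trans hx1) hx1.ne' h1

variable {k K D : Type} [Field k] [GFF k] [Field K] [StarRing K] [DivisionRing D] [StarRing D]
  [Algebra k K] [Algebra k D] [Algebra K D] [IsScalarTower k K D] [StarModule K D] {n N : ℕ}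

omit [GFF k] [StarRing D] in
theorem na_lt_of_coord (B : Basis (Fin N) k D) (a : AbsoluteValue k ℝ) {x : D} {ε : ℝ}
    (hε : 0 < ε) (h : ∀ i, a (B.repr x i) < ε / (N + 1)) : na B a x < ε := by
  have h1 : na B a x ≤ N * (ε / (N + 1)) := na_le_of_coord B a fun i => (h i).le
  refine h1.trans_lt ?_
  have h2 : (0 : ℝ) < N + 1 := by positivity
  rw [← mul_div_assoc, div_lt_iff₀ h2, mul_comm ε]
  nlinarith

/-- **Weak approximation**: a unitary element near given unitary elements at finitely many
places. -/
theorem wa_unitaryF (hA : Anis k K D n) (B : Basis (Fin N) k D) {P : Set (Place k)}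
    (hP : P.Finite) {u : Place k → D} (hu : ∀ v ∈ P, u v * star (u v) = 1) {ε : Place k → ℝ}
    (hε : ∀ v, 0 < ε v) :
    ∃ w : D, w * star w = 1 ∧ ∀ v ∈ P, na B v.abv (w - u v) < ε v := by
  classical
  rcases P.eq_empty_or_nonempty with rfl | ⟨q, hq⟩
  · exact ⟨1, by rw [star_one, mul_one], fun v hv => absurd hv (Set.notMem_empty v)⟩
  have hinf : Infinite k := infinite_of_placeW q
  set S : Finset (Place k) := hP.toFinset with hS
  have hne : S.Nonempty := ⟨q, by rw [hS, Set.Finite.mem_toFinset]; exact hq⟩
  obtain ⟨v1, _, hv1⟩ := S.exists_min_image ε hne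
  have hη : 0 < ε v1 / (N + 1) := div_pos (hε v1) (by positivity)
  let a : Place k → UA D := fun v =>
    if h : u v * star (u v) = 1 then
      ⟨⟨u v, star (u v), h, by
        have h0 : u v ≠ 0 := left_ne_zero_of_mul_eq_one h
        rw [← inv_eq_of_mul_eq_one_right h, inv_mul_cancel₀ h0]⟩, h⟩
    else 1
  have ha : ∀ v ∈ P, (((a v : UA D) : Dˣ) : D) = u v := by
    intro v hv
    have h : u v * star (u v) = 1 := hu v hv
    simp only [a, dif_pos h]
  obtain ⟨w, hw⟩ := weak_unitary' hA B S a hη
  refine ⟨((w : Dˣ) : D), ua_mul_star w, fun v hv => ?_⟩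
  have h1 := hw v (by rw [hS, Set.Finite.mem_toFinset]; exact hv)
  rw [ha v hv] at h1
  refine na_lt_of_coord B v.abv (hε v) fun i => (h1 i).trans_le ?_
  refine div_le_div_of_nonneg_right (hv1 v ?_) (by positivity)
  rw [hS, Set.Finite.mem_toFinset]
  exact hv

/-- **Weak approximation**, data in the completions: a unitary element of `D` near given unitary
elements of the completions `D_v` at finitely many places. -/
theorem wa_unitary_compF [StarLinR k D] (hA : Anis k K D n) (B : Basis (Fin N) k D)
    (S : Finset (Place k)) (x : ∀ v : S, BR B (v : Place k).comp)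
    (hx : ∀ v, x v * star (x v) = 1) (hx' : ∀ v, star (x v) * x v = 1) {ε : ℝ} (hε : 0 < ε)
    (q : Place k) :
    ∃ w : D, w * star w = 1 ∧ ∀ (v : S) (i : Fin N), ‖eqF B (v : Place k).comp
      ((bcrT B (v : Place k).comp).j w - x v) i‖ < ε := by
  have hinf : Infinite k := infinite_of_placeW q
  obtain ⟨w, hw⟩ := weak_unitary hA B S x hx hx' hε
  exact ⟨((w : Dˣ) : D), ua_mul_star w, hw⟩

end Vale.Agent.P011.H271.WauF
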