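import Vale.Agent.P011.H271.CosetF
import Vale.Agent.P011.H271.WauF

/-!
# Strong approximation inside a coset over function fields, in the letters `na`, `Ig`
-/

open Module

set_option linter.unusedSectionVars false

namespace Vale.Agent.P011.H271.CosetF

open Vale.Agent.P011.H738 Vale.Agent.P011.H271 Vale.Agent.P011.H698
open Vale.Agent.P011.H182 (na Ig)

variable {k K D Ω : Type} [Field k] [GFF k] [Field K] [StarRing K] [DivisionRing D] [StarRing D]
  [Algebra k K] [Algebra k D] [Algebra K D] [IsScalarTower k K D] [StarModule K D] {n N : ℕ}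
  [Field Ω] [Algebra K Ω]

/-- **Strong approximation inside a coset**, twin of `H182.coset_strong`, for prime degree. -/
theorem coset_strong_na (hk : IsGlobalFunctionField k) (hA : Anis k K D n) (hn : 3 ≤ n)
    (hp : n.Prime) (f : D →ₐ[K] Matrix (Fin n) (Fin n) Ω) (B : Basis (Fin N) k D)
    {Q H : Subgroup (SUA f)} [Q.Normal] (hi : Q.index ≠ 0)
    (hd : ∀ V : Subgroup (SUA f), NearS f B V → H ≤ Q ⊔ V)
    {q : Place k} (φ : K →ₐ[k] q.comp) (hq : q ∉ Adiv k K D)
    {T : Set (Place k)} (hT : T.Finite) (hb : ∀ v, ¬ Gd B v → v ∈ T)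
    (hTA : ∀ v ∈ Adiv k K D, v ∈ T)
    {x w : SUA f} (hx : x ∈ H) (hw : w ∈ H) {ε : ℝ} (hε : 0 < ε) :
    ∃ x' : SUA f, x⁻¹ * x' ∈ Q ∧
      (∀ v ∈ T, v ≠ q → na B v.abv (((x' : Dˣ) : D) - ((w : Dˣ) : D)) < ε) ∧
      ∀ v, v ∉ T → v ≠ q → Ig B v.abv ((x' : Dˣ) : D) := by
  have hε' : 0 < ε / (N + 1) := by positivity
  obtain ⟨x', h1, h2, h3⟩ := coset_strong_prime hk hA hn hp f B hi hd φ hq
    (T := hT.toFinset) (fun v hv => by
      by_contra hcon
      exact hv (hT.mem_toFinset.mpr (hb v hcon)))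
    (fun v hv => hT.mem_toFinset.mpr (hTA v hv)) hx hw hε'
  refine ⟨x', h1, fun v hv hvq => ?_, fun v hv hvq => ?_⟩
  · exact WauF.na_lt_of_coord B v.abv hε (h2 v (hT.mem_toFinset.mpr hv) hvq)
  · exact h3 v (fun h => hv (hT.mem_toFinset.mp h)) hvq

end Vale.Agent.P011.H271.CosetF
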