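import Vale.Agent.P011.H271.PolF
import Vale.Agent.P011.H738.LocDF1

/-!
# The local conditions at the places outside the exceptional set, over function fields
-/

open Module

set_option linter.unusedSectionVars false

namespace Vale.Agent.P011.H271.S3

open Vale.Agent.P011.H775 Vale.Agent.P011.H948 Vale.Agent.P011.H738
open Vale.Agent.P011.H487 (nu de tz ph gg S_of_unitary star_gg de_ne_zero T_tz tz_norm tz_unitary
  star_ph star_de)

section crit

variable {K : Type} [Field K]

theorem abv_nat_le (V : Place K) (n : ℕ) : V.abv (n : K) ≤ 1 := by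
  induction n with
  | zero => rw [Nat.cast_zero, map_zero]; exact zero_le_one
  | succ n ih =>
    rw [Nat.cast_succ]
    exact (V.nonarch _ _).trans (max_le ih (by rw [map_one]))

theorem abv_ofNat_le (V : Place K) (n : ℕ) [n.AtLeastTwo] : V.abv (OfNat.ofNat n : K) ≤ 1 := by
  have := abv_nat_le V n
  exact this

/-- Auxiliary: a number whose cube is near `27` at `V`. -/
theorem cube_near (V : Place K) {T c : K} (hc : V.abv c ≤ 1)
    (hT : V.abv T ≤ 1) (h1 : V.abv (T - 3 * c) < 1)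
    (h2 : V.abv (1 - c ^ 3) < 1) : V.abv (T ^ 3 - 27) < 1 := by
  have h3 : V.abv (3 : K) ≤ 1 := abv_ofNat_le V 3
  have h27 : V.abv (27 : K) ≤ 1 := abv_ofNat_le V 27
  have e : T ^ 3 - 27 = (T - 3 * c) * (T ^ 2 + T * (3 * c) + (3 * c) ^ 2) +
      -(27 * (1 - c ^ 3)) := by ring
  have h4 : V.abv (3 * c) ≤ 1 := by
    rw [map_mul]
    exact mul_le_one₀ h3 (V.abv.nonneg _) hc
  have h5 : V.abv (T ^ 2 + T * (3 * c) + (3 * c) ^ 2) ≤ 1 := by
    refine (V.nonarch _ _).trans (max_le ((V.nonarch _ _).trans (max_le ?_ ?_)) ?_)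
    · rw [map_pow]
      exact pow_le_one₀ (V.abv.nonneg _) hT
    · rw [map_mul]
      exact mul_le_one₀ hT (V.abv.nonneg _) h4
    · rw [map_pow]
      exact pow_le_one₀ (V.abv.nonneg _) h4
  rw [e]
  refine (V.nonarch _ _).trans_lt (max_lt ?_ ?_)
  · rw [map_mul]
    exact (mul_le_of_le_one_right (V.abv.nonneg _) h5).trans_lt h1
  · rw [V.abv.map_neg, map_mul]
    exact (mul_le_of_le_one_left (V.abv.nonneg _) h27).trans_lt h2

/-- One half of the criterion. -/
theorem crit_half (V : Place K) {T p q : K} (hq : q ≠ 0) (hT : T = p / q)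
    (hp : V.abv p ≤ 1) (hq1 : V.abv q ≤ 1)
    (hG : 1 ≤ V.abv (p ^ 3 - 27 * q ^ 3)) :
    (V.abv q = 1 ∧ V.abv T ≤ 1 ∧ 1 ≤ V.abv (T ^ 3 - 27)) ∨ 1 < V.abv T := by
  have hq0 : 0 < V.abv q := V.abv.pos hq
  have h27 : V.abv (27 : K) ≤ 1 := abv_ofNat_le V 27
  rcases hq1.lt_or_eq with h1 | h1
  · right
    have h2 : V.abv (-(27 * q ^ 3)) < 1 := by
      rw [V.abv.map_neg, map_mul, map_pow]
      exact (mul_le_of_le_one_left (pow_nonneg (V.abv.nonneg _) 3) h27).trans_lt
        (pow_lt_one₀ (V.abv.nonneg _) h1 (by norm_num))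
    have h3 : 1 ≤ V.abv p := by
      by_contra hcon
      rw [not_le] at hcon
      have h4 : V.abv (p ^ 3) < 1 := by
        rw [map_pow]
        exact pow_lt_one₀ (V.abv.nonneg _) hcon (by norm_num)
      rw [sub_eq_add_neg] at hG
      exact absurd hG (not_le.mpr ((V.nonarch _ _).trans_lt (max_lt h4 h2)))
    rw [hT, map_div₀, lt_div_iff₀ hq0, one_mul]
    exact h1.trans_le h3
  · left
    refine ⟨h1, ?_, ?_⟩
    · rw [hT, map_div₀, h1, div_one]
      exact hp
    · have e : T ^ 3 - 27 = (p ^ 3 - 27 * q ^ 3) / q ^ 3 := by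
        rw [hT]
        field_simp
      rw [e, map_div₀, map_pow, h1, one_pow, div_one]
      exact hG

variable {D : Type} [StarRing K] [DivisionRing D] [StarRing D] [Algebra K D] (C : Cub K D)

/-- **The criterion at the places outside the exceptional set.** -/
theorem crit (h : SCub C) (V : Place K) {x z : D}
    (hx : x * star x = 1) (hxN : C.N x = 1) (hz : z ≠ 0) (hc : Commute z (star z)) {b : K}
    (hb : V.abv b = 1) (hN1 : V.abv (C.N z) ≤ 1)
    (hN2 : V.abv (C.N (star z)) ≤ 1) (hp1 : V.abv (ph C x z) ≤ 1)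
    (hp2 : V.abv (ph C (star x) (star z)) ≤ 1)
    (hG : 1 ≤ V.abv (gg C x z) ∨ 1 ≤ V.abv (gg C (star x) (star z))) :
    LocDF C (x * tz C z) V b := by
  have hb0 : b ≠ 0 := by
    rintro rfl
    rw [map_zero] at hb
    exact zero_ne_one hb
  have hzs : star z ≠ 0 := by rwa [Ne, star_eq_zero]
  have hyN : C.N (x * tz C z) = 1 := by rw [C.N_mul, hxN, tz_norm C hz, one_mul]
  have hyU : x * tz C z * star (x * tz C z) = 1 := by
    rw [star_mul, mul_assoc, ← mul_assoc (tz C z), tz_unitary C h hz hc, one_mul, hx]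
  have hT := T_tz C x z
  have hS : C.S (x * tz C z) = ph C (star x) (star z) / de C (star z) := by
    rw [S_of_unitary C h hyU hyN, hT, star_div₀, star_ph C h x hc, star_de C h]
  have hnn : ∀ c : K, 0 ≤ V.abv c := fun c => V.abv.nonneg c
  have hd1 : V.abv (de C z) ≤ 1 := by
    rw [de, map_mul, map_pow]
    exact mul_le_one₀ hN1 (pow_nonneg (hnn _) 2) (pow_le_one₀ (hnn _) hN2)
  have hd2 : V.abv (de C (star z)) ≤ 1 := by
    rw [de, map_mul, map_pow, star_star]
    exact mul_le_one₀ hN2 (pow_nonneg (hnn _) 2) (pow_le_one₀ (hnn _) hN1)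
  have hNN : V.abv (de C z) = 1 ↔ V.abv (de C (star z)) = 1 := by
    have key : ∀ a c : ℝ, 0 ≤ a → 0 ≤ c → a ≤ 1 → c ≤ 1 → a * c ^ 2 = 1 → a = 1 ∧ c = 1 := by
      intro a c ha0 hc0 ha hc' h4
      have h5 : c = 1 := by
        refine le_antisymm hc' ?_
        by_contra hcon
        rw [not_le] at hcon
        have h6 : a * c ^ 2 < 1 :=
          (mul_le_of_le_one_left (pow_nonneg hc0 2) ha).trans_lt
            (pow_lt_one₀ hc0 hcon (by norm_num))
        exact absurd h4 h6.ne
      rw [h5, one_pow, mul_one] at h4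
      exact ⟨h4, h5⟩
    rw [de, de, map_mul, map_mul, map_pow, map_pow, star_star]
    constructor
    · intro h4
      obtain ⟨h5, h6⟩ := key _ _ (hnn _) (hnn _) hN1 hN2 h4
      rw [h5, h6]
      norm_num
    · intro h4
      obtain ⟨h5, h6⟩ := key _ _ (hnn _) (hnn _) hN2 hN1 h4
      rw [h5, h6]
      norm_num
  have hyN1 : V.abv (C.N (x * tz C z)) ≤ 1 := by rw [hyN, map_one]
  rcases hG with hG | hG
  · rcases crit_half V (de_ne_zero C hz) hT hp1 hd1 hG with ⟨h4, h5, h6⟩ | h4
    · refine LocDF.of_not_cube h5 ?_ hyN1 hb ?_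
      · rw [hS, map_div₀, hNN.mp h4, div_one]
        exact hp2
      · rintro ⟨c, hc1, hc2, -, hc4⟩
        rw [hyN] at hc4
        exact absurd h6 (not_le.mpr (cube_near V hc1 h5 hc2 hc4))
    · exact LocDF.of_big hb0 hyN (Or.inl h4)
  · rcases crit_half V (de_ne_zero C hzs) hS hp2 hd2 hG with ⟨h4, h5, h6⟩ | h4
    · refine LocDF.of_not_cube ?_ h5 hyN1 hb ?_
      · rw [hT, map_div₀, hNN.mpr h4, div_one]
        exact hp1
      · rintro ⟨c, hc1, -, hc3, hc4⟩
        rw [hyN] at hc4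
        refine absurd h6 (not_le.mpr (cube_near V (c := c ^ 2) ?_ h5 hc3 ?_))
        · rw [map_pow]
          exact pow_le_one₀ (hnn _) hc1
        · have e : 1 - (c ^ 2) ^ 3 = (1 - c ^ 3) * (1 + c ^ 3) := by ring
          rw [e, map_mul]
          refine (mul_le_of_le_one_right (hnn _) ?_).trans_lt hc4
          refine (V.nonarch _ _).trans (max_le (by rw [map_one]) ?_)
          rw [map_pow]
          exact pow_le_one₀ (hnn _) hc1
    · exact LocDF.of_big hb0 hyN (Or.inr h4)

end crit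

end Vale.Agent.P011.H271.S3
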