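import Vale.Agent.P011.H271.Appr

/-! # Finite places of a function field with a separating structure (helper271) -/

namespace Vale.Agent.P011.H271

open Polynomial IsDedekindDomain HeightOneSpectrum WithZero

noncomputable section

/-- a place of `k`: a nontrivial valuation ring -/
def Pl (k : Type*) [Field k] : Type _ := {V : ValuationSubring k // V ≠ ⊤}

section Str

variable (F : Type) [Field F] (k : Type*) [Field k] [Algebra F[X] k]
  [Algebra (RatFunc F) k] [IsScalarTower F[X] (RatFunc F) k] [FiniteDimensional (RatFunc F) k]
  [Algebra.IsSeparable (RatFunc F) k]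

/-- the ring of integers attached to the structure -/
abbrev OO := integralClosure F[X] k

theorem faithful : FaithfulSMul F[X] k := by
  rw [faithfulSMul_iff_algebraMap_injective]
  rw [IsScalarTower.algebraMap_eq F[X] (RatFunc F) k]
  exact (algebraMap (RatFunc F) k).injective.comp (IsFractionRing.injective F[X] (RatFunc F))

instance instFaith : FaithfulSMul F[X] k := faithful F k

instance instFrac : IsFractionRing (OO F k) k :=
  integralClosure.isFractionRing_of_finite_extension (RatFunc F) k

instance instDed : IsDedekindDomain (OO F k) :=
  IsIntegralClosure.isDedekindDomain F[X] (RatFunc F) k _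

instance instFinMod : Module.Finite F[X] (OO F k) :=
  IsIntegralClosure.finite F[X] (RatFunc F) k _

instance instFree : Module.Free F[X] (OO F k) :=
  IsIntegralClosure.module_free F[X] (RatFunc F) k _

variable {k}

/-- the variable, inside `k` -/
def tt : k := algebraMap F[X] k X

variable {F}

theorem OO_le [Finite F] (V : ValuationSubring k) (h : tt F ∈ V) (x : OO F k) :
    algebraMap (OO F k) k x ∈ V := by
  have hF : ∀ c : F, algebraMap F[X] k (C c) ∈ V := by
    intro c
    by_cases hc : c = 0
    · subst hc; rw [C_0, map_zero]; exact V.zero_mem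
    have : Fintype F := Fintype.ofFinite F
    have h1 : c ^ (Fintype.card F - 1) = 1 := FiniteField.pow_card_sub_one_eq_one c hc
    have h2 : (algebraMap F[X] k (C c)) ^ (Fintype.card F - 1) = 1 := by
      rw [← map_pow, ← C_pow, h1, C_1, map_one]
    have hpos : Fintype.card F - 1 ≠ 0 := by
      have := Fintype.one_lt_card (α := F)
      omega
    rw [← ValuationSubring.valuation_le_one_iff]
    have h3 : V.valuation (algebraMap F[X] k (C c)) ^ (Fintype.card F - 1) = 1 := by
      rw [← map_pow, h2, map_one]
    rcases pow_eq_one_iff.1 h3 with h4 | h4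
    · exact h4.le
    · exact absurd h4 hpos
  have hp : ∀ p : F[X], algebraMap F[X] k p ∈ V := by
    intro p
    induction p using Polynomial.induction_on with
    | C a => exact hF a
    | add p q hp hq => rw [map_add]; exact V.add_mem _ _ hp hq
    | monomial n a h' =>
      rw [pow_succ, ← mul_assoc, map_mul]
      exact V.mul_mem _ _ h' h
  -- integrality
  let f : F[X] →+* V := (algebraMap F[X] k).codRestrict V.toSubring hp
  have hx : IsIntegral F[X] (x : k) := x.2
  have : IsIntegral V (x : k) := by
    letI : Algebra F[X] V := f.toAlgebra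
    haveI : IsScalarTower F[X] V k := IsScalarTower.of_algebraMap_eq (fun _ => rfl)
    exact hx.tower_top
  obtain ⟨y, hy⟩ := IsIntegrallyClosed.isIntegral_iff.1 this
  change (x : k) ∈ V
  rw [← hy]
  exact y.2

theorem tt_mem_hosV (v : HeightOneSpectrum (OO F k)) : (tt F : k) ∈ hosV k v := by
  have : (tt F : k) = algebraMap (OO F k) k (algebraMap F[X] (OO F k) X) := by
    rw [← IsScalarTower.algebraMap_apply]; rfl
  rw [this]
  exact valuation_le_one v _

/-- finite places = primes of the ring of integers -/
theorem exists_hosV [Finite F] (V : ValuationSubring k) (hV : V ≠ ⊤) (h : tt F ∈ V) :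
    ∃ v : HeightOneSpectrum (OO F k), hosV k v = V :=
  exists_hos V hV (OO_le V h)

instance instHFQ [Finite F] : Ring.HasFiniteQuotients (OO F k) := by
  have : Ring.HasFiniteQuotients F[X] := ⟨fun {I} hI => by
    obtain ⟨p, hp⟩ := (IsPrincipalIdealRing.principal I).principal
    have hp0 : p ≠ 0 := by
      rintro rfl
      apply hI
      rw [hp]; simp
    have : Module.Finite F (AdjoinRoot p) := (AdjoinRoot.powerBasis hp0).finite
    have h2 : Finite (AdjoinRoot p) := Module.finite_of_finite F
    rw [hp]
    exact h2⟩
  exact Ring.HasFiniteQuotients.of_module_finite F[X] (OO F k)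

theorem residue_finite [Finite F] (v : HeightOneSpectrum (OO F k)) :
    Finite (OO F k ⧸ v.asIdeal) :=
  Ring.HasFiniteQuotients.finiteQuotient v.ne_bot

end Str

end

end Vale.Agent.P011.H271
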