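import Vale.Agent.P011.H271.GF

/-! # Normalised valuations of the places, approximation (helper271) -/

namespace Vale.Agent.P011.H271

open Polynomial IsDedekindDomain HeightOneSpectrum WithZero

set_option linter.style.haveILetI false
set_option linter.unusedSectionVars false

noncomputable section

section Gen
variable {k : Type*} [Field k] {R : Type*} [CommRing R] [IsDedekindDomain R] [Algebra R k]
  [IsFractionRing R k]

theorem hosV_residue_finite (v : HeightOneSpectrum R) [Finite (R ⧸ v.asIdeal)] :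
    Finite (IsLocalRing.ResidueField (hosV k v)) := by
  let f : R →+* hosV k v := (algebraMap R k).codRestrict (hosV k v).toSubring
    (fun r => valuation_le_one v r)
  let g : R →+* IsLocalRing.ResidueField (hosV k v) := (IsLocalRing.residue (hosV k v)).comp f
  have hg : ∀ a ∈ v.asIdeal, g a = 0 := by
    intro a ha
    change IsLocalRing.residue _ (f a) = 0
    rw [IsLocalRing.residue_eq_zero_iff, ValuationSubring.valuation_lt_one_iff]
    have h1 : v.valuation k (algebraMap R k a) < 1 := by
      rw [valuation_of_algebraMap, intValuation_lt_one_iff_mem]; exact ha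
    have he : (v.valuation k).IsEquiv (hosV k v).valuation :=
      Valuation.isEquiv_valuation_valuationSubring _
    exact he.lt_one_iff_lt_one.1 h1
  let h := Ideal.Quotient.lift v.asIdeal g hg
  refine Finite.of_surjective h ?_
  intro y
  obtain ⟨x, rfl⟩ := IsLocalRing.residue_surjective y
  obtain ⟨a, ha⟩ := exists_valuation_sub_lt_of_integer (K := k) v (x := (x : k)) x.2 1
  refine ⟨Ideal.Quotient.mk _ a, ?_⟩
  change IsLocalRing.residue _ (f a) = _
  rw [← sub_eq_zero, ← map_sub, IsLocalRing.residue_eq_zero_iff,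
    ValuationSubring.valuation_lt_one_iff]
  have he : (v.valuation k).IsEquiv (hosV k v).valuation :=
    Valuation.isEquiv_valuation_valuationSubring _
  exact he.lt_one_iff_lt_one.1 ha

end Gen

section One

variable {F : Type} [Field F] [Finite F] {k : Type*} [Field k]

/-- the package of one structure at its finite places -/
theorem str_place {φ : RatFunc F →+* k} (hφ : IsStr F k φ) (V : Pl k) (hV : φ RatFunc.X ∈ V.1) :
    ∃ v : Valuation k (WithZero (Multiplicative ℤ)), Function.Surjective v ∧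
      v.valuationSubring = V.1 ∧ Finite (IsLocalRing.ResidueField V.1) := by
  letI : Algebra (RatFunc F) k := φ.toAlgebra
  letI : Algebra F[X] k := (φ.comp (algebraMap F[X] (RatFunc F))).toAlgebra
  haveI : IsScalarTower F[X] (RatFunc F) k := IsScalarTower.of_algebraMap_eq' rfl
  haveI : FiniteDimensional (RatFunc F) k := hφ.1
  haveI : Algebra.IsSeparable (RatFunc F) k := hφ.2
  have h : tt F ∈ V.1 := by
    change φ (algebraMap F[X] (RatFunc F) X) ∈ V.1
    rw [RatFunc.algebraMap_X]; exact hV
  obtain ⟨v, hv⟩ := exists_hosV V.1 V.2 h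
  haveI := residue_finite v
  refine ⟨v.valuation k, valuation_surjective k v, hv, ?_⟩
  rw [← hv]
  exact hosV_residue_finite v

theorem Pl.X_or {φ : RatFunc F →+* k} (V : Pl k) :
    φ RatFunc.X ∈ V.1 ∨ (φ RatFunc.X)⁻¹ ∈ V.1 := V.1.mem_or_inv_mem _

end One

section Glob

variable {k : Type*} [Field k] [GFF k]

theorem Pl.exists_v (V : Pl k) :
    ∃ v : Valuation k (WithZero (Multiplicative ℤ)), Function.Surjective v ∧
      v.valuationSubring = V.1 ∧ Finite (IsLocalRing.ResidueField V.1) := by
  obtain ⟨F, iF, iFin, φ, hφ⟩ := GFF.out (k := k)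
  rcases Pl.X_or (φ := φ) V with h | h
  · exact str_place hφ V h
  · obtain ⟨e, he⟩ := exists_inv F
    refine str_place (hφ.comp e) V ?_
    change φ (e RatFunc.X) ∈ V.1
    rw [he, map_inv₀]; exact h

/-- the normalised valuation of a place -/
def Pl.v (V : Pl k) : Valuation k (WithZero (Multiplicative ℤ)) := V.exists_v.choose

theorem Pl.v_surj (V : Pl k) : Function.Surjective V.v := V.exists_v.choose_spec.1

theorem Pl.v_sub (V : Pl k) : V.v.valuationSubring = V.1 := V.exists_v.choose_spec.2.1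

theorem Pl.resfin (V : Pl k) : Finite (IsLocalRing.ResidueField V.1) :=
  V.exists_v.choose_spec.2.2

theorem Pl.mem_iff (V : Pl k) (x : k) : x ∈ V.1 ↔ V.v x ≤ 1 := by
  rw [← V.v_sub]; rfl

theorem Pl.eq_v (V : Pl k) (v : Valuation k (WithZero (Multiplicative ℤ)))
    (hv : Function.Surjective v) (h : v.valuationSubring = V.1) : V.v = v :=
  val_eq_of_subring_eq _ _ V.v_surj hv (by rw [V.v_sub, h])

theorem Pl.ext_v {V W : Pl k} (h : V.v = W.v) : V = W := by
  apply Subtype.ext
  rw [← V.v_sub, ← W.v_sub, h]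

variable {F : Type} [Field F] [Finite F]

/-- Approximation at the finite places of a structure. -/
theorem str_approx {φ : RatFunc F →+* k} (hφ : IsStr F k φ) (T : Finset (Pl k))
    (hT : ∀ V ∈ T, φ RatFunc.X ∈ V.1) (x : Pl k → k) (n : ℕ) :
    ∃ y : k, (∀ V ∈ T, V.v (y - x V) ≤ exp (-(n : ℤ))) ∧
      ∀ V : Pl k, V ∉ T → φ RatFunc.X ∈ V.1 → V.v y ≤ 1 := by
  classical
  letI : Algebra (RatFunc F) k := φ.toAlgebra
  letI : Algebra F[X] k := (φ.comp (algebraMap F[X] (RatFunc F))).toAlgebra
  haveI : IsScalarTower F[X] (RatFunc F) k := IsScalarTower.of_algebraMap_eq' rfl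
  haveI : FiniteDimensional (RatFunc F) k := hφ.1
  haveI : Algebra.IsSeparable (RatFunc F) k := hφ.2
  have hX : φ RatFunc.X = tt F := by
    change _ = φ (algebraMap F[X] (RatFunc F) X)
    rw [RatFunc.algebraMap_X]
  rw [hX] at hT ⊢
  have hex : ∀ V : Pl k, tt F ∈ V.1 → ∃ v : HeightOneSpectrum (OO F k), hosV k v = V.1 :=
    fun V h => exists_hosV V.1 V.2 h
  let pl : HeightOneSpectrum (OO F k) → Pl k := fun v => ⟨hosV k v, hosV_ne_top v⟩
  have hpl : ∀ v, (pl v).v = v.valuation k := fun v =>
    (pl v).eq_v _ (valuation_surjective k v) rfl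
  have hinj : Function.Injective pl := fun v w h => hosV_injective (Subtype.ext_iff.1 h)
  have hex' : ∀ V : Pl k, tt F ∈ V.1 → ∃ v : HeightOneSpectrum (OO F k), pl v = V :=
    fun V h => by
      obtain ⟨v, hv⟩ := hex V h
      exact ⟨v, Subtype.ext hv⟩
  obtain ⟨y, hy1, hy2⟩ := dedekind_approx (k := k) (T.preimage pl hinj.injOn) (fun v => x (pl v)) n
  refine ⟨y, ?_, ?_⟩
  · intro V hV
    obtain ⟨v, rfl⟩ := hex' V (hT V hV)
    rw [hpl]
    exact hy1 v (by simpa using hV)
  · intro V hV hXV
    obtain ⟨v, rfl⟩ := hex' V hXV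
    rw [hpl]
    exact hy2 v (by simpa using hV)

theorem str_finite {φ : RatFunc F →+* k} (hφ : IsStr F k φ) {x : k} (hx : x ≠ 0) :
    {V : Pl k | φ RatFunc.X ∈ V.1 ∧ V.v x ≠ 1}.Finite := by
  classical
  letI : Algebra (RatFunc F) k := φ.toAlgebra
  letI : Algebra F[X] k := (φ.comp (algebraMap F[X] (RatFunc F))).toAlgebra
  haveI : IsScalarTower F[X] (RatFunc F) k := IsScalarTower.of_algebraMap_eq' rfl
  haveI : FiniteDimensional (RatFunc F) k := hφ.1
  haveI : Algebra.IsSeparable (RatFunc F) k := hφ.2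
  have hX : φ RatFunc.X = tt F := by
    change _ = φ (algebraMap F[X] (RatFunc F) X)
    rw [RatFunc.algebraMap_X]
  let pl : HeightOneSpectrum (OO F k) → Pl k := fun v => ⟨hosV k v, hosV_ne_top v⟩
  have hpl : ∀ v, (pl v).v = v.valuation k := fun v =>
    (pl v).eq_v _ (valuation_surjective k v) rfl
  refine ((hos_finite (R := OO F k) hx).image pl).subset ?_
  rintro V ⟨h1, h2⟩
  rw [hX] at h1
  obtain ⟨v, hv⟩ := exists_hosV V.1 V.2 h1
  have hV : pl v = V := Subtype.ext hv
  refine ⟨v, ?_, hV⟩
  rw [← hV, hpl] at h2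
  exact h2

/-- an element has finitely many zeros and poles -/
theorem finite_ne_one {x : k} (hx : x ≠ 0) : {V : Pl k | V.v x ≠ 1}.Finite := by
  obtain ⟨F, iF, iFin, φ, hφ⟩ := GFF.out (k := k)
  obtain ⟨e, he⟩ := exists_inv F
  refine ((str_finite hφ hx).union (str_finite (hφ.comp e) hx)).subset ?_
  intro V hV
  rcases Pl.X_or (φ := φ) V with h | h
  · exact Or.inl ⟨h, hV⟩
  · refine Or.inr ⟨?_, hV⟩
    change φ (e RatFunc.X) ∈ V.1
    rw [he, map_inv₀]; exact h

end Glob

end

end Vale.Agent.P011.H271
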