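import Vale.Agent.P011.H271.KSF
import Mathlib.Analysis.Normed.Unbundled.SpectralNorm
import Mathlib.FieldTheory.IsAlgClosed.AlgebraicClosure

/-! # The quadratic extension of a local field given by a quadratic extension of a dense subfield
(helper271) -/

namespace Vale.Agent.P011.H271.QuadF

open Polynomial Module IntermediateField

set_option linter.style.haveILetI false
set_option linter.unusedSectionVars false

noncomputable section

section alg

variable {k K : Type} [Field k] [Field K] [StarRing K] [Algebra k K]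

theorem exists_dec (hfix : ∀ x : K, star x = x ↔ x ∈ Set.range (algebraMap k K)) {θ : K}
    (hθ : star θ ≠ θ) (x : K) : ∃ a b : k, x = algebraMap k K a * θ + algebraMap k K b := by
  have h0 : θ - star θ ≠ 0 := sub_ne_zero.mpr (Ne.symm hθ)
  have h1 : star ((x - star x) / (θ - star θ)) = (x - star x) / (θ - star θ) := by
    rw [star_div₀, star_sub, star_sub, star_star, star_star, div_eq_div_iff, ]
    · ring
    · rw [← neg_sub]; exact neg_ne_zero.mpr h0
    · exact h0
  obtain ⟨a, ha⟩ := (hfix _).mp h1
  have h2 : star (x - algebraMap k K a * θ) = x - algebraMap k K a * θ := by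
    have h3 : algebraMap k K a * (θ - star θ) = x - star x := by
      rw [ha, div_mul_cancel₀ _ h0]
    have h4 : star (algebraMap k K a) = algebraMap k K a := (hfix _).mpr ⟨a, rfl⟩
    rw [star_sub, star_mul', h4]
    linear_combination h3
  obtain ⟨b, hb⟩ := (hfix _).mp h2
  exact ⟨a, b, by rw [hb]; ring⟩

theorem exists_tn (hfix : ∀ x : K, star x = x ↔ x ∈ Set.range (algebraMap k K)) (θ : K) :
    ∃ t n : k, algebraMap k K t = θ + star θ ∧ algebraMap k K n = θ * star θ := by
  obtain ⟨t, ht⟩ := (hfix (θ + star θ)).mp (by rw [star_add, star_star, add_comm])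
  obtain ⟨n, hn⟩ := (hfix (θ * star θ)).mp (by rw [star_mul', star_star, mul_comm])
  exact ⟨t, n, ht, hn⟩

theorem finite_of_fix (hfix : ∀ x : K, star x = x ↔ x ∈ Set.range (algebraMap k K))
    (hne : ∃ x : K, star x ≠ x) : Module.Finite k K := by
  classical
  obtain ⟨θ, hθ⟩ := hne
  refine ⟨⟨({θ, 1} : Finset K), ?_⟩⟩
  rw [eq_top_iff]
  intro x _
  obtain ⟨a, b, rfl⟩ := exists_dec hfix hθ x
  rw [← Algebra.smul_def, Algebra.algebraMap_eq_smul_one]
  refine Submodule.add_mem _ (Submodule.smul_mem _ _ (Submodule.subset_span (by simp)))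
    (Submodule.smul_mem _ _ (Submodule.subset_span (by simp)))

end alg

variable {k K F : Type} [Field k] [Field K] [StarRing K] [Algebra k K]
  [NontriviallyNormedField F] [IsUltrametricDist F] [ProperSpace F] [Algebra k F]

/-- The embedding of `K` in an algebraic closure of `F`. -/
theorem exists_emb [Algebra.IsAlgebraic k K] : Nonempty (K →ₐ[k] AlgebraicClosure F) :=
  ⟨IsAlgClosed.lift⟩

section

variable (hfix : ∀ x : K, star x = x ↔ x ∈ Set.range (algebraMap k K)) {θ : K}
  (hθ : star θ ≠ θ) (hv : IsEmpty (K →ₐ[k] F)) (ψ : K →ₐ[k] AlgebraicClosure F)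

include hfix hθ hv in
theorem notMem : ψ θ ∉ Set.range (algebraMap F (AlgebraicClosure F)) := by
  rintro ⟨a, ha⟩
  have h1 : ∀ x : K, ψ x ∈ (IsScalarTower.toAlgHom k F (AlgebraicClosure F)).range := by
    intro x
    obtain ⟨c, d, rfl⟩ := exists_dec hfix hθ x
    refine ⟨algebraMap k F c * a + algebraMap k F d, ?_⟩
    change algebraMap F (AlgebraicClosure F) _ = _
    rw [map_add, map_mul, ha, map_add, map_mul, AlgHom.commutes, AlgHom.commutes,
      ← IsScalarTower.algebraMap_apply, ← IsScalarTower.algebraMap_apply]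
  let e := AlgEquiv.ofInjective (IsScalarTower.toAlgHom k F (AlgebraicClosure F))
    (algebraMap F (AlgebraicClosure F)).injective
  exact hv.false ((e.symm : _ →ₐ[k] F).comp (ψ.codRestrict _ h1))

/-- the polynomial -/
def pol (t n : k) : F[X] := X ^ 2 - C (algebraMap k F t) * X + C (algebraMap k F n)

theorem pol_monic (t n : k) : (pol t n : F[X]).Monic := by
  unfold pol; monicity!

theorem pol_natDegree (t n : k) : (pol t n : F[X]).natDegree = 2 := by
  unfold pol; compute_degree!

theorem pol_root {t n : k} (ht : algebraMap k K t = θ + star θ)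
    (hn : algebraMap k K n = θ * star θ) : aeval (ψ θ) (pol t n : F[X]) = 0 := by
  have h1 : algebraMap F (AlgebraicClosure F) (algebraMap k F t) = ψ θ + ψ (star θ) := by
    rw [← map_add, ← ht, AlgHom.commutes, ← IsScalarTower.algebraMap_apply]
  have h2 : algebraMap F (AlgebraicClosure F) (algebraMap k F n) = ψ θ * ψ (star θ) := by
    rw [← map_mul, ← hn, AlgHom.commutes, ← IsScalarTower.algebraMap_apply]
  unfold pol
  rw [map_add, map_sub, map_mul, map_pow, aeval_X, aeval_C, aeval_C, h1, h2]
  ring

theorem pol_root' {t n : k} (ht : algebraMap k K t = θ + star θ)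
    (hn : algebraMap k K n = θ * star θ) : aeval (ψ (star θ)) (pol t n : F[X]) = 0 := by
  refine pol_root (θ := star θ) ψ ?_ ?_
  · rw [star_star, ht, add_comm]
  · rw [star_star, hn, mul_comm]

theorem isInt {t n : k} (ht : algebraMap k K t = θ + star θ)
    (hn : algebraMap k K n = θ * star θ) : IsIntegral F (ψ θ) :=
  ⟨pol t n, pol_monic t n, pol_root ψ ht hn⟩

include hfix hθ hv in
theorem minpoly_eq {t n : k} (ht : algebraMap k K t = θ + star θ)
    (hn : algebraMap k K n = θ * star θ) : minpoly F (ψ θ) = pol t n := by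
  have hi := isInt (F := F) ψ ht hn
  have h1 : 2 ≤ (minpoly F (ψ θ)).natDegree := by
    rw [minpoly.two_le_natDegree_iff hi]
    exact fun ⟨a, ha⟩ => notMem hfix hθ hv ψ ⟨a, ha⟩
  have h2 := minpoly.dvd F _ (pol_root (F := F) ψ ht hn)
  refine (Polynomial.eq_of_monic_of_dvd_of_natDegree_le (minpoly.monic hi) (pol_monic t n)
    h2 ?_).symm
  rw [pol_natDegree]
  exact h1

end

/-- The general statement. -/
theorem exists_quad (hfix : ∀ x : K, star x = x ↔ x ∈ Set.range (algebraMap k K))
    (hne : ∃ x : K, star x ≠ x) (hv : IsEmpty (K →ₐ[k] F))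
    (hd : DenseRange (algebraMap k F)) :
    ∃ (L : Type) (_ : NontriviallyNormedField L) (_ : ProperSpace L) (_ : IsUltrametricDist L)
      (_ : StarRing L) (_ : Algebra F L) (φ : K →+* L), (∀ x : L, ‖star x‖ = ‖x‖) ∧
      (∀ x, φ (star x) = star (φ x)) ∧ DenseRange φ ∧
      (∀ c : k, φ (algebraMap k K c) = algebraMap F L (algebraMap k F c)) ∧
      (∀ c : F, ‖algebraMap F L c‖ = ‖c‖) ∧ finrank F L = 2 := by
  haveI : Module.Finite k K := finite_of_fix hfix hne
  obtain ⟨θ, hθ⟩ := hne
  obtain ⟨t, n, ht, hn⟩ := exists_tn hfix θ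
  obtain ⟨ψ⟩ := exists_emb (k := k) (K := K) (F := F)
  have hi : IsIntegral F (ψ θ) := isInt ψ ht hn
  have hmin : minpoly F (ψ θ) = pol t n := minpoly_eq hfix hθ hv ψ ht hn
  let L := F⟮ψ θ⟯
  let pb : PowerBasis F L := adjoin.powerBasis hi
  have hgen : pb.gen = AdjoinSimple.gen F (ψ θ) := adjoin.powerBasis_gen hi
  have hdim : pb.dim = 2 := by
    rw [adjoin.powerBasis_dim, hmin, pol_natDegree]
  have hfr : finrank F L = 2 := by rw [pb.finrank, hdim]
  haveI : FiniteDimensional F L := pb.finite
  have hβ : ψ (star θ) ∈ L := by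
    have h1 : ψ (star θ) = algebraMap F (AlgebraicClosure F) (algebraMap k F t) - ψ θ := by
      rw [← IsScalarTower.algebraMap_apply, ← ψ.commutes t, ht, map_add]
      ring
    rw [h1]
    exact sub_mem (IntermediateField.algebraMap_mem _ _) (mem_adjoin_simple_self F (ψ θ))
  let β : L := ⟨ψ (star θ), hβ⟩
  have hminL : minpoly F pb.gen = pol t n := by
    rw [hgen, ← hmin]
    exact minpoly_gen F (ψ θ)
  have hβ0 : aeval β (minpoly F pb.gen) = 0 := by
    rw [hminL]
    apply (algebraMap L (AlgebraicClosure F)).injective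
    rw [← aeval_algebraMap_apply, map_zero]
    exact pol_root' ψ ht hn
  let σ : L →ₐ[F] L := pb.lift β hβ0
  have hσ1 : σ pb.gen = β := pb.lift_gen β hβ0
  have hsum : (pb.gen : L) + β = algebraMap F L (algebraMap k F t) := by
    apply (algebraMap L (AlgebraicClosure F)).injective
    rw [map_add, hgen]
    change ψ θ + ψ (star θ) = algebraMap F (AlgebraicClosure F) (algebraMap k F t)
    rw [← IsScalarTower.algebraMap_apply, ← ψ.commutes t, ht, map_add]
  have hσ2 : σ β = pb.gen := by
    have h1 : β = algebraMap F L (algebraMap k F t) - pb.gen := by rw [← hsum]; ring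
    rw [h1, map_sub, AlgHom.commutes, hσ1, ← hsum]
    ring
  have hσσ : σ.comp σ = AlgHom.id F L := by
    refine pb.algHom_ext ?_
    rw [AlgHom.comp_apply, hσ1, hσ2]
    rfl
  let e : L ≃ₐ[F] L := AlgEquiv.ofAlgHom σ σ hσσ hσσ
  letI iN : NontriviallyNormedField L := spectralNorm.nontriviallyNormedField F L
  letI iA : NormedSpace F L := spectralNorm.normedSpace F L
  letI iS : StarRing L :=
    { star := σ
      star_involutive := fun x => by
        rw [← AlgHom.comp_apply, hσσ]
        rfl
      star_mul := fun x y => by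
        change σ (x * y) = σ y * σ x
        rw [map_mul, mul_comm]
      star_add := fun x y => map_add σ x y }
  have hstar : ∀ x : L, star x = σ x := fun _ => rfl
  have hnorm : ∀ x : L, ‖x‖ = spectralNorm F L x := fun _ => rfl
  have hmem : ∀ x : K, ψ x ∈ L := by
    intro x
    obtain ⟨c, d, rfl⟩ := exists_dec hfix hθ x
    rw [map_add, map_mul, ψ.commutes, ψ.commutes, IsScalarTower.algebraMap_apply k F,
      IsScalarTower.algebraMap_apply k F]
    exact add_mem (mul_mem (IntermediateField.algebraMap_mem _ _)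
      (mem_adjoin_simple_self F (ψ θ))) (IntermediateField.algebraMap_mem _ _)
  let φ : K →+* L := (ψ : K →+* AlgebraicClosure F).codRestrict L.toSubfield hmem
  have hφv : ∀ x : K, ((φ x : L) : AlgebraicClosure F) = ψ x := fun _ => rfl
  have hφθ : φ θ = pb.gen := by
    rw [hgen]
    rfl
  have hφθ' : φ (star θ) = β := rfl
  have hφc : ∀ c : k, φ (algebraMap k K c) = algebraMap F L (algebraMap k F c) := by
    intro c
    apply Subtype.ext
    rw [hφv, ψ.commutes, IsScalarTower.algebraMap_apply k F]
    rfl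
  have hstc : ∀ c : k, star (algebraMap k K c) = algebraMap k K c := fun c =>
    (hfix _).mpr ⟨c, rfl⟩
  refine ⟨L, iN, FiniteDimensional.proper F L, ?_, iS, inferInstance, φ, ?_, ?_, ?_, hφc, ?_, hfr⟩
  · exact IsUltrametricDist.isUltrametricDist_of_forall_norm_add_le_max_norm fun x y =>
      isNonarchimedean_spectralNorm x y
  · intro x
    rw [hnorm, hnorm, hstar]
    exact (spectralNorm_eq_of_equiv e x).symm
  · intro x
    obtain ⟨c, d, rfl⟩ := exists_dec hfix hθ x
    rw [star_add, star_mul', hstc, hstc, map_add, map_mul, hφθ', map_add, map_mul, hφθ, hstar,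
      map_add, map_mul, hσ1, hφc, hφc, AlgHom.commutes, AlgHom.commutes]
  · intro y
    rw [Metric.mem_closure_range_iff]
    intro ε hε
    obtain ⟨f, hf, hy⟩ := pb.exists_eq_aeval y
    rw [hdim] at hf
    obtain ⟨c, d, rfl⟩ := Polynomial.exists_eq_X_add_C_of_natDegree_le_one (Nat.lt_succ_iff.mp hf)
    have hy' : y = algebraMap F L c * pb.gen + algebraMap F L d := by
      rw [hy, map_add, map_mul, aeval_C, aeval_C, aeval_X]
    have hg : 0 < ‖pb.gen‖ + 1 := by positivity
    obtain ⟨a, ha⟩ := hd.exists_dist_lt c (show 0 < ε / 2 / (‖pb.gen‖ + 1) by positivity)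
    obtain ⟨b, hb⟩ := hd.exists_dist_lt d (show 0 < ε / 2 by positivity)
    refine ⟨algebraMap k K a * θ + algebraMap k K b, ?_⟩
    rw [dist_eq_norm, map_add, map_mul, hφc, hφc, hφθ, hy']
    have h1 : algebraMap F L c * pb.gen + algebraMap F L d -
        (algebraMap F L (algebraMap k F a) * pb.gen + algebraMap F L (algebraMap k F b)) =
        algebraMap F L (c - algebraMap k F a) * pb.gen + algebraMap F L (d - algebraMap k F b) := by
      rw [map_sub, map_sub]; ring
    rw [h1]
    rw [dist_eq_norm] at ha hb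
    have hext : ∀ c : F, ‖algebraMap F L c‖ = ‖c‖ := fun c => spectralNorm_extends c
    refine (norm_add_le _ _).trans_lt ?_
    rw [norm_mul, hext, hext]
    have h2 : ‖c - algebraMap k F a‖ * ‖pb.gen‖ ≤ ε / 2 := by
      rw [lt_div_iff₀ hg] at ha
      nlinarith [norm_nonneg (c - algebraMap k F a), norm_nonneg pb.gen]
    linarith
  · exact fun c => spectralNorm_extends c

end

end Vale.Agent.P011.H271.QuadF

namespace Vale.Agent.P011.H271

open Vale.Agent.P011.H738 Module

/-- The completion at a place is a nontrivially normed field. -/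
@[reducible] noncomputable def nnfPlace {k : Type} [Field k] (v : Place k) :
    NontriviallyNormedField v.comp :=
  { (inferInstance : NormedField v.comp) with
    non_trivial := by
      obtain ⟨x, hx⟩ := v.normalized.2.1
      refine ⟨algebraMap k v.comp x, ?_⟩
      change 1 < ‖algebraMap k v.comp x‖
      rw [norm_alg, hx]
      exact_mod_cast one_lt_qq v }

theorem exists_quad_field {k K : Type} [Field k] [GFF k] [Field K] [StarRing K] [Algebra k K]
    (hfix : ∀ x : K, star x = x ↔ x ∈ Set.range (algebraMap k K)) (hne : ∃ x : K, star x ≠ x)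
    (v : Place k) (hv : IsEmpty (K →ₐ[k] v.comp)) :
    ∃ (L : Type) (_ : NontriviallyNormedField L) (_ : ProperSpace L) (_ : IsUltrametricDist L)
      (_ : StarRing L) (_ : Algebra v.comp L) (φ : K →+* L), (∀ x : L, ‖star x‖ = ‖x‖) ∧
      (∀ x, φ (star x) = star (φ x)) ∧ DenseRange φ ∧
      (∀ c : k, φ (algebraMap k K c) = algebraMap v.comp L (algebraMap k v.comp c)) ∧
      (∀ c : v.comp, ‖algebraMap v.comp L c‖ = ‖c‖) ∧ finrank v.comp L = 2 := by
  letI := nnfPlace v
  refine QuadF.exists_quad hfix hne hv ?_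
  rw [Metric.denseRange_iff]
  intro x ε hε
  obtain ⟨a, ha⟩ := dense_alg v x hε
  exact ⟨a, by rwa [dist_eq_norm]⟩

end Vale.Agent.P011.H271
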