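import Vale.Agent.P011.H271.BaseR
import Vale.Agent.P011.H271.LetW
import Vale.Agent.P011.H21.MobInst
import Vale.Agent.P011.H966.Loc
import Vale.Agent.P011.H74.M6R
import Vale.Agent.P011.H74.PData
import Vale.Agent.P011.H973.LowFF
import Vale.Agent.P011.H698.DensFF

/-!
# NE over function fields for any anisotropic algebra (helper271), every characteristic

The only hypothesis besides the ones of the division case is the asymptotic upper bound `UPR` for
all sufficiently large finite sets of places.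
-/

set_option linter.unusedSectionVars false

open MeasureTheory Filter Topology Set Module
open scoped ENNReal NNReal CompactlySupported

namespace Vale.Agent.P011.H271.NeRing

open Vale.Agent.P011.H698 Vale.Agent.P011.H738 Vale.Agent.P011.H271 Vale.Agent.P011.H210
  Vale.Agent.P011.H976 Vale.Agent.P011.H74 Vale.Agent.P011.H966

section choice

/-- A field with a place is infinite. -/
theorem infinite_of_placeR {k : Type} [Field k] (q : Place k) : Infinite k := by
  obtain ⟨x, hx⟩ := q.normalized.2.1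
  have hx1 : 1 < q.abv x := by
    rw [hx]
    exact_mod_cast one_lt_qq q
  refine Infinite.of_injective (fun n : ℕ => x ^ n) fun a b h => ?_
  have h1 : q.abv x ^ a = q.abv x ^ b := by
    rw [← map_pow, ← map_pow]
    exact congrArg q.abv h
  exact pow_right_injective₀ (zero_lt_one.trans hx1) hx1.ne' h1

variable {k : Type} [Field k] [GFF k]

theorem exists_mem_OSF (c : k) : ∃ S0 : Finset (Place k), ∀ S, S0 ⊆ S → c ∈ OSF S := by
  classical
  by_cases hc : c = 0
  · exact ⟨∅, fun S _ ↦ hc ▸ (OSF S).zero_mem⟩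
  · refine ⟨(place_finite hc).toFinset, fun S hS v hv ↦ ?_⟩
    by_contra h
    refine hv (hS ((place_finite hc).mem_toFinset.2 ?_))
    exact fun h1 ↦ h h1.le

variable {A ι : Type*} [Ring A] [StarRing A] [Algebra k A] [Fintype ι] (B : Basis ι k A)

omit [GFF k] in
theorem mem_ordO_of {O : Subring k} {x : A} (h1 : ∀ l, InL B O (x * B l))
    (h2 : ∀ l, InL B O (star x * B l)) : x ∈ ordO B O := by
  have hL : ∀ z : A, (∀ l, InL B O (z * B l)) → ∀ y, InL B O y → InL B O (z * y) := by
    intro z hz y hy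
    rw [← B.sum_repr y, Finset.mul_sum]
    refine InL.sum B _ _ fun l _ => ?_
    rw [mul_smul_comm]
    exact InL.smul B (hy l) (hz l)
  exact ⟨hL x h1, hL _ h2⟩

/-- **Choice of `S`.** -/
theorem exists_SFR (F : Finset A) (S1 : Finset (Place k)) :
    ∃ S0 : Finset (Place k), S1 ⊆ S0 ∧ ∀ S, S0 ⊆ S → ∀ x ∈ F, x ∈ ordO B (OSF S) := by
  classical
  choose S hS using fun c : k ↦ exists_mem_OSF c
  set Z : Finset k := (F ×ˢ (Finset.univ : Finset (ι × ι))).image
      (fun p => B.repr (p.1 * B p.2.1) p.2.2) ∪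
    (F ×ˢ (Finset.univ : Finset (ι × ι))).image
      (fun p => B.repr (star p.1 * B p.2.1) p.2.2) with hZ
  refine ⟨S1 ∪ Z.biUnion S, Finset.subset_union_left, fun S' hS' x hx => ?_⟩
  have hz : ∀ z ∈ Z, z ∈ OSF S' := fun z hz => hS z S' (subset_trans
    ((Finset.subset_biUnion_of_mem S hz).trans Finset.subset_union_right) hS')
  refine mem_ordO_of B (fun l i => hz _ ?_) (fun l i => hz _ ?_)
  · refine Finset.mem_union_left _ (Finset.mem_image.2 ⟨(x, l, i), ?_, rfl⟩)
    simp [hx]
  · refine Finset.mem_union_right _ (Finset.mem_image.2 ⟨(x, l, i), ?_, rfl⟩)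
    simp [hx]

end choice

section central

variable {k R A E ι : Type*} [Field k] [CommRing R] [TopologicalSpace R] [IsTopologicalRing R]
  [Algebra k R] [Ring A] [StarRing A] [Algebra k A] [Ring E] [StarRing E] [TopologicalSpace E]
  [IsTopologicalRing E] [Algebra R E] [Fintype ι] [DecidableEq ι] (B : BCR k R A E ι)

/-- Central elements of `A` are central in `E`. -/
theorem j_central {c : A} (hc : ∀ x, c * x = x * c) (y : E) : B.j c * y = y * B.j c := by
  have h := B.b.sum_repr y
  rw [← h, Finset.mul_sum, Finset.sum_mul]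
  refine Finset.sum_congr rfl fun i _ => ?_
  rw [mul_smul_comm, smul_mul_assoc, B.b_apply, ← map_mul, ← map_mul, hc]

end central

section model

variable {k K A : Type} [Field k] [GFF k] [Field K] [StarRing K] [Ring A] [StarRing A]
  [Algebra k A] [Algebra K A] [StarModule K A] [StarLinR k A] {N : ℕ}
  (B : Basis (Fin N) k A) {S : Finset (Place k)} (hS : S.Nonempty)

/-- The position. -/
noncomputable def posR (S : Finset (Place k)) (y : H21.UA A) : unitary (BR B (KSF S)) :=
  iotaU B (KSF S) y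

/-- The denominator. -/
noncomputable def denR (S : Finset (Place k)) (y : H21.UA A) : ℝ :=
  (H699.den (ordO B (OSF S)) ((y : Aˣ) : A) : ℝ)

theorem isOrdR_SR (hS : S.Nonempty) : IsOrdR B (OSF S) (ordO B (OSF S)) := by
  obtain ⟨d, -, hd⟩ := exists_denR B (OSF S) (OSF_den hS)
  exact (isOrdR_ordO B hd).1

include hS in
theorem den_ne (x : A) : H699.den (ordO B (OSF S)) x ≠ 0 := by
  have := countable_A B
  have := KSF_nontrivial hS
  have hG := H380.UpBC.good_KSF hS
  exact H973.Rg.den_ne_zero (bcrT B (KSF S)) hG.disc hG.coc hG.frac (isOrdR_SR B hS) x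

include hS in
/-- The model of the letters. -/
theorem mod_ff [T2Space (BR B (KSF S))] [LocallyCompactSpace (BR B (KSF S))] :
    LetW.Mod K ((ordO B (OSF S)).map (bcrT B (KSF S)).j) (bcrT B (KSF S)).j
      (posR B S) := by
  have := countable_A B
  have := KSF_nontrivial hS
  have hG := H380.UpBC.good_KSF hS
  have hinj : Function.Injective (bcrT B (KSF S)).j := (bcrT B (KSF S)).j_inj
  refine ⟨⟨(H380.UnitsTop.GoodUnits.algebra (bcrT B (KSF S)).φ hG.units).isOpen,
      (H380.UnitsTop.GoodUnits.algebra (bcrT B (KSF S)).φ hG.units).inv⟩,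
    H973.Rg.lring (bcrT B (KSF S)) hG.disc hG.coc (isOrdR_SR B hS),
    (bcrT B (KSF S)).j_star,
    fun c y => j_central (bcrT B (KSF S)) (fun x => Algebra.commutes c x) y,
    fun y => rfl, fun y => ?_⟩
  rw [H699.den_map _ hinj]
  exact den_ne B hS _

end model

section main

variable {k K A Ω : Type} [Field k] [GFF k] [Field K] [StarRing K] [Ring A] [StarRing A]
  [Algebra k K] [Algebra k A] [Algebra K A] [IsScalarTower k K A] [StarModule K A] {n N : ℕ}
  [Field Ω] [Algebra K Ω] {f : A →ₐ[K] Matrix (Fin n) (Fin n) Ω} {B : Basis (Fin N) k A}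

/-- The asymptotic upper bound for all sufficiently large finite sets of places. -/
def UPRF [StarLinR k A] (B : Basis (Fin N) k A) : Prop :=
  ∃ S₁ : Finset (Place k), ∀ S : Finset (Place k), S₁ ⊆ S →
    ∀ (_ : MeasurableSpace (unitary (BR B (KSF S)))) (_ : BorelSpace (unitary (BR B (KSF S))))
      (μ : Measure (unitary (BR B (KSF S)))) [μ.IsHaarMeasure],
      UPR (bcrT B (KSF S)) (uA (A := A)) (ordO B (OSF S)) μ

theorem cocU [StarLinR k A] (hA : Anis k K A n) {S : Finset (Place k)} (hS : S.Nonempty) :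
    CocU (bcrT B (KSF S)) (ordO B (OSF S)) := by
  have := hA.simple
  exact coc_E B hA.anisotropic hS (isOrdR_SR B hS) fun c hc => smul_one_mem_ordO B hc

/-- **`hlim` for a target group**, any anisotropic algebra, from the upper bound. -/
theorem hlim_targetR [StarLinR k A] (hA : Anis k K A n) (hn : 1 < n) {S : Finset (Place k)}
    (hUP : ∀ (_ : MeasurableSpace (unitary (BR B (KSF S))))
      (_ : BorelSpace (unitary (BR B (KSF S))))
      (μ : Measure (unitary (BR B (KSF S)))) [μ.IsHaarMeasure],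
      UPR (bcrT B (KSF S)) (uA (A := A)) (ordO B (OSF S)) μ)
    (q : S) {φ₀ : K →+* (q : Place k).comp} (s : Spl B (q : Place k).comp n)
    (hφ₀ : ∀ c : K, s.f (algebraMap K A c) = algebraMap _ _ (φ₀ c))
    {Q : Type*} [Group Q] {c : UA A →* Q} {P : Subgroup Q}
    (hT0 : Target0 (FLv f B {(q : Place k)}) c P) (T : UA A → UA A)
    (hT : ∀ g y : UA A, T (g * y * g⁻¹) = g * T y * g⁻¹) {ρ : Q} (hρ : ρ ∈ P)
    (φ : C_c(unitary (BR B (KSF S)), ℝ)) (hφ : tsupport φ ⊆ X0 (facS q) s) (a a' : Q) :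
    Tendsto (fun x : ℝ =>
      ∑' y : UA A, (x - 1) * (H699.den (ordO B (OSF S)) ((y : Aˣ) : A) : ℝ) ^ (-x) *
        ({y : UA A | c y = a ∧ c (T y) = a'}.indicator 1 y * φ (iotaU B (KSF S) y)) -
      ∑' y : UA A, (x - 1) * (H699.den (ordO B (OSF S)) ((y : Aˣ) : A) : ℝ) ^ (-x) *
        ({y : UA A | c y = ρ * a * ρ⁻¹ ∧ c (T y) = ρ * a' * ρ⁻¹}.indicator 1 y *
          φ (iotaU B (KSF S) y))) (𝓝[>] 1) (𝓝 0) := by
  have := hT0.fin
  have hS : S.Nonempty := ⟨_, q.2⟩
  have := countable_A B
  have := KSF_nontrivial hS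
  have : Nontrivial (Fin n) := Fin.nontrivial_iff_two_le.2 hn
  have hG := H380.UpBC.good_KSF hS
  obtain ⟨ϖ, hϖ, hpow⟩ := exists_pow_tendsto (q : Place k)
  exact hlimR (bcrT B (KSF S)) (uA (A := A)) hG.disc (isOrdR_SR B hS) (cocU hA hS)
    (fun x => Nat.pos_of_ne_zero (den_ne B hS x)) hUP uA_bijective c T (fun g _ y => hT g y)
    hϖ hpow (jS (facS q) s) (continuous_jS _ s)
    (normal_jS _ s) (isOpen_X0 _ s (isOpen_SR_comp (q : Place k) n))
    (fun p hp => split_X0 _ s hp) ρ (fun O hO => by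
      obtain ⟨g, hgc, -, hgL, o, ho, z, hz⟩ := exists_gam hA (by omega) q s hφ₀
        (isOrdR_SR B hS) hT0 hO hρ
      exact ⟨g, ((mem_UL_iff (isOrdR_SR B hS).star_mem).1 hgL).1, hgc, o, ho, z, hz⟩) φ hφ a a'

/-- **NE over function fields, any anisotropic algebra**, from the upper bound. -/
theorem ne_ffR [StarLinR k A] (hA : Anis k K A n) (hn : 1 < n) (hUP : UPRF B) {q : Place k}
    {φ₀ : K →+* q.comp} (s : Spl B q.comp n)
    (hφ₀ : ∀ c : K, s.f (algebraMap K A c) = algebraMap _ _ (φ₀ c))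
    (hA' : H21.AnisR A) {w : K} (hw : star w ≠ w)
    {E : Type*} [Field E] [StarRing E] [Algebra K E] [StarModule K E] {φ : E →ₐ[K] A}
    (hφ : ∀ x, φ (star x) = star (φ x)) {σ : E} (hσs : star σ = σ)
    (hsr : s.f (φ σ) ∈ SR (Fin n) q.comp) {t : H21.UA A} (ht : ∃ y : E, φ y = ((t : Aˣ) : A))
    {Q : Type*} [Group Q] {c : UA A →* Q} {P : Subgroup Q}
    (hT0 : Target0 (FLv f B {q}) c P) :
    NE (fun y : H21.UA A => c y) P
      {p | ∃ π ∈ H21.PE w φ hA' hw hφ, p = H21.Lm t * π ∨ p = (H21.Lm t)⁻¹ * π}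
      (fun b : k => H21.T w (algebraMap k A b)) := by
  classical
  have hfin := hT0.fin
  have hstk : ∀ c : k, star (algebraMap k A c) = algebraMap k A c := by
    intro c
    rw [Algebra.algebraMap_eq_smul_one, StarLinR.star_smul', star_one]
  set X1 : Set (H21.UA A) := {y | s.f ((y : Aˣ) : A) ∈ SR (Fin n) q.comp} with hX1
  refine ne_of_loc.{0} (X1 := X1) ?_ ?_
  · -- the base point
    intro m h hh
    have hinf : Infinite k := infinite_of_placeR q
    let _ : Algebra k E := ((algebraMap K E).comp (algebraMap k K)).toAlgebra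
    have hkE : ∀ c : k, algebraMap k E c = algebraMap K E (algebraMap k K c) := fun c => rfl
    obtain ⟨x, hx, hx'⟩ := BaseR.exists_base_r hφ (φ₀.comp (algebraMap k K)) (s.f : A →+* _) (by
      intro c
      rw [RingHom.comp_apply, hkE, AlgHom.commutes]
      exact hφ₀ _) (by
        intro c x
        rw [Algebra.smul_def, Algebra.smul_def, star_mul, hkE, ← algebraMap_star_comm,
          (hA.fixed _).2 ⟨c, rfl⟩, mul_comm]) hw hσs hsr h (by
      intro i
      obtain ⟨π, hπ, h1 | h1⟩ := hh i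
      · rw [h1]
        exact mul_mem (BaseR.Lm_mem hφ ht) (BaseR.PE_le hφ hA' hw hπ)
      · rw [h1]
        exact mul_mem (inv_mem (BaseR.Lm_mem hφ ht)) (BaseR.PE_le hφ hA' hw hπ))
    exact ⟨x, hx, hx'⟩
  · intro m h hh
    choose π hπ hh using hh
    choose v e hv he hπ using hπ
    obtain ⟨S₀, hlow⟩ := H973.low_ff hA (by omega) B
    obtain ⟨S₁, hup⟩ := hUP
    obtain ⟨S, hS1, hS2⟩ := exists_SFR B
      ((Finset.univ.image fun j => φ (v j)) ∪ (Finset.univ.image fun j => φ (e j)) ∪
        (Finset.univ.image fun j => φ (e j)⁻¹) ∪ {((t : Aˣ) : A), H21.eta w • (1 : A),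
          LetW.zz w • (1 : A), w • (1 : A)}) (S₀ ∪ S₁ ∪ {q})
    have hLam := hS2 S (Finset.Subset.refl _)
    have hqS : q ∈ S := hS1 (Finset.mem_union_right _ (Finset.mem_singleton_self q))
    have hS : S.Nonempty := ⟨q, hqS⟩
    have hlowS := hlow S (fun v hv => hS1 (Finset.mem_union_left _
      (Finset.mem_union_left _ hv))) hS
    have hupS := hup S (fun v hv => hS1 (Finset.mem_union_left _
      (Finset.mem_union_right _ hv)))
    have hvL : ∀ j, φ (v j) ∈ ordO B (OSF S) := fun j => hLam _ (by simp)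
    have heL : ∀ j, φ (e j) ∈ ordO B (OSF S) := fun j => hLam _ (by simp)
    have heL' : ∀ j, φ (e j)⁻¹ ∈ ordO B (OSF S) := fun j => hLam _ (by simp)
    have htL : ((t : Aˣ) : A) ∈ ordO B (OSF S) := hLam _ (by simp)
    have hηL : H21.eta w • (1 : A) ∈ ordO B (OSF S) := hLam _ (by simp)
    have hzL : LetW.zz w • (1 : A) ∈ ordO B (OSF S) := hLam _ (by simp)
    have hwL : w • (1 : A) ∈ ordO B (OSF S) := hLam _ (by simp)
    have hO := isOrdR_SR B hS
    have hKn := KSF_nontrivial hS
    have hct := countable_A B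
    have hT2 : T2Space (BR B (KSF S)) := (bcrT B (KSF S)).t2
    have hLC : LocallyCompactSpace (BR B (KSF S)) := (bcrT B (KSF S)).locallyCompact
    have hCS : ContinuousStar (BR B (KSF S)) := (bcrT B (KSF S)).continuousStar
    have hM : LetW.Mod K ((ordO B (OSF S)).map (bcrT B (KSF S)).j) (bcrT B (KSF S)).j
      (posR B S) := mod_ff B hS
    have hL : ∀ x ∈ ordO B (OSF S), (bcrT B (KSF S)).j x ∈
      (ordO B (OSF S)).map (bcrT B (KSF S)).j := fun x hx => ⟨x, hx, rfl⟩
    have hinj : Function.Injective (bcrT B (KSF S)).j := (bcrT B (KSF S)).j_inj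
    have hden : (fun y : H21.UA A => (H699.den ((ordO B (OSF S)).map (bcrT B (KSF S)).j)
        ((bcrT B (KSF S)).j ((y : Aˣ) : A)) : ℝ)) =
        denR B S := by
      funext y
      rw [H699.den_map _ hinj]
      rfl
    have gT : ∀ j (y : H21.UA A), Good (posR B S) (denR B S)
        (H21.TE w φ (v j)) y := by
      intro j y
      have h1 := LetW.good_T hM hL hA' hw (H21.star_phi hφ (hv j)) (hvL j) hηL hzL y
      rwa [hden] at h1
    have gW : ∀ j (y : H21.UA A), Good (posR B S) (denR B S)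
        (H21.WE w φ (e j)) y := by
      intro j y
      have h1 := LetW.good_W hM hL hA' hw (e := H21.uE φ (e j))
        (by rw [H21.uE_coe φ (he j)]; exact heL j)
        (by rw [← H21.uE_inv φ (he j), H21.uE_coe φ (inv_ne_zero (he j))]; exact heL' j)
        hO.star_mem hwL hzL y
      rwa [hden] at h1
    have gL : ∀ y : H21.UA A, Good (posR B S) (denR B S) (H21.Lm t) y := by
      intro y
      have h1 := LetW.good_L hM hL t htL hO.star_mem y
      rwa [hden] at h1
    have gL' : ∀ y : H21.UA A, Good (posR B S) (denR B S) (H21.Lm t)⁻¹ y := by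
      intro y
      rw [← H21.Lm_inv]
      have h1 := LetW.good_L hM hL t⁻¹ (by
        rw [← H21.UA_star_eq]
        exact hO.star_mem _ htL) hO.star_mem y
      rwa [hden] at h1
    refine ⟨{g | ∀ y, Good (posR B S) (denR B S) g y},
      fun j y => ?_, ?_⟩
    · have h1 : Good (posR B S) (denR B S) (π j) y := by
        rw [hπ j]
        exact (gW j y).mul (gT j _)
      rcases hh j with h2 | h2
      · rw [h2]
        exact h1.mul (gL _)
      · rw [h2]
        exact h1.mul (gL' _)
    · have hlcU : LocallyCompactSpace (unitary (BR B (KSF S))) :=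
        H380.UnitsTop.locallyCompact_unitary _
      refine ⟨unitary (BR B (KSF S)), inferInstance, inferInstance, hlcU, posR B S, denR B S,
        X0 (facS ⟨q, hqS⟩) s, ?_, ?_, ?_, ?_, ?_, ?_, fun g hg y => hg y⟩
      · intro y
        have h1 := den_ne B hS ((y : Aˣ) : A)
        change (0 : ℝ) < (H699.den (ordO B (OSF S)) ((y : Aˣ) : A) : ℝ)
        exact_mod_cast Nat.pos_of_ne_zero h1
      · exact isOpen_X0 _ s (isOpen_SR_comp q n)
      · intro y hy
        have h1 := pr0_iotaU (facS (⟨q, hqS⟩ : S)) s (y : UA A)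
        rw [mem_X0]
        have h2 : ((pr0 (facS (⟨q, hqS⟩ : S)) s (posR B S y) :
            Matrix.GeneralLinearGroup (Fin n) q.comp) : Matrix (Fin n) (Fin n) q.comp) =
            s.f ((y : Aˣ) : A) := h1
        rw [h2]
        exact hy
      · exact fun C hC => hupR (bcrT B (KSF S)) (uA (A := A))
          (fun x => Nat.pos_of_ne_zero (den_ne B hS x)) hupS C hC
      · intro x0 _ V hV hxV
        obtain ⟨C, hC, hev⟩ := hlowS x0 V hV hxV
        exact ⟨C, hC, hev⟩
      · intro b ρ hρ a a' ψ hψ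
        exact hlim_targetR hA hn hupS ⟨q, hqS⟩ s hφ₀ hT0
          (fun y => H21.T w (algebraMap k A b) y) (fun g y => H21.T_conj hA' hw (hstk b) g y
            (Algebra.commutes b _).symm) hρ ψ hψ a a'

/-- **NE over function fields, any anisotropic algebra**, in the form used by the line theorem. -/
theorem ne_ffR_cE [StarLinR k A] (hA : Anis k K A n) (hn : 1 < n) (hUP : UPRF B) {q : Place k}
    {φ₀ : K →+* q.comp} (s : Spl B q.comp n)
    (hφ₀ : ∀ c : K, s.f (algebraMap K A c) = algebraMap _ _ (φ₀ c))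
    (hA' : H21.AnisR A) {w : K} (hw : star w ≠ w)
    {E : Type*} [Field E] [StarRing E] [Algebra K E] [StarModule K E] [Algebra k E]
    [IsScalarTower k K E] {φ : E →ₐ[K] A}
    (hφ : ∀ x, φ (star x) = star (φ x)) {σ : E} (hσs : star σ = σ)
    (hsr : s.f (φ σ) ∈ SR (Fin n) q.comp)
    {Q : Type*} [Group Q] {c : H21.UA A →* Q} {P : Subgroup Q}
    (hT0 : Target0 (U := UA A) (FLv f B {q}) c P) {τ : E} (hτ : star τ = τ) :
    NE c P {h | ∃ π ∈ H21.PE w φ hA' hw hφ, h = H21.Lm (H21.cE w φ τ) * π ∨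
      h = (H21.Lm (H21.cE w φ τ))⁻¹ * π}
      (fun b : k => H21.TE w φ (algebraMap k E b)) := by
  have h1 : (fun b : k => H21.TE w φ (algebraMap k E b)) =
      fun b : k => H21.T w (algebraMap k A b) := by
    funext b
    have h2 : φ (algebraMap k E b) = algebraMap k A b := by
      rw [IsScalarTower.algebraMap_apply k K E, AlgHom.commutes,
        ← IsScalarTower.algebraMap_apply]
    rw [H21.TE, h2]
  rw [h1]
  exact ne_ffR hA hn hUP s hφ₀ hA' hw hφ hσs hsr
    ⟨H21.te w τ, (H21.cE_coe hA' hw hφ hτ).symm⟩ hT0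

end main

end Vale.Agent.P011.H271.NeRing
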