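import Vale.Agent.P011.H698.PlusOf
import Vale.Agent.P011.H961.Model

/-!
# Commutators of unitary elements close to one, over function fields

`Q ≤ H` are normal subgroups of `G(k)`, the quotient `H / Q` is central in `G(k) / Q` and `H`
contains the elements close to one at the places of `T`.  If every element `h` of `G(k)` close to
one can be multiplied by an element `t` such that `t` and `h t` commute with unitary elements of
the same reduced norm as `u`, and if two unitary elements close to one have the reduced norms of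
two commuting ones, then the commutators of the unitary elements close to one are in `Q`.
-/

open Module
open scoped commutatorElement

set_option linter.unusedSectionVars false

namespace Vale.Agent.P011.H271.StarF

open Vale.Agent.P011.H738 Vale.Agent.P011.H271 Vale.Agent.P011.H698

section group

variable {U : Type*} [Group U] {G H Q : Subgroup U}

theorem comm_good (hc : ∀ g ∈ G, ∀ x ∈ H, ⁅g, x⁆ ∈ Q) {u y e : U} (hy : y ∈ H)
    (he : e * y = y * e) (hu : u * e⁻¹ ∈ G) : ⁅u, y⁆ ∈ Q := by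
  have h1 := hc _ hu y hy
  have h2 : e⁻¹ * y = y * e⁻¹ := by
    rw [inv_mul_eq_iff_eq_mul, ← mul_assoc, he, mul_assoc, mul_inv_cancel, mul_one]
  have h3 : ⁅u * e⁻¹, y⁆ = ⁅u, y⁆ := by
    rw [commutatorElement_def, commutatorElement_def, mul_assoc u, h2]
    group
  rwa [h3] at h1

theorem comm_two (hQ : ∀ g ∈ G, ∀ x ∈ Q, g * x * g⁻¹ ∈ Q) {u h t : U} (hh : h ∈ G)
    (h1 : ⁅u, t⁆ ∈ Q) (h2 : ⁅u, h * t⁆ ∈ Q) : ⁅u, h⁆ ∈ Q := by
  have e : ⁅u, h⁆ = ⁅u, h * t⁆ * (h * ⁅u, t⁆⁻¹ * h⁻¹) := by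
    simp only [commutatorElement_def]
    group
  rw [e]
  exact Q.mul_mem h2 (hQ h hh _ (Q.inv_mem h1))

theorem comm_pair (hQ : ∀ g ∈ G, ∀ x ∈ Q, g * x * g⁻¹ ∈ Q) {u w g' w' e1 e2 : U}
    (hu : u = g' * e1) (hw : w = w' * e2) (hg : g' ∈ G) (he : e1 * e2 = e2 * e1)
    (h1 : ⁅w, g'⁆ ∈ Q) (h2 : ⁅e1, w'⁆ ∈ Q) : ⁅u, w⁆ ∈ Q := by
  have e0 : ⁅e1, e2⁆ = 1 := by rw [commutatorElement_def, he]; group
  have e3 : ⁅e1, w⁆ = ⁅e1, w'⁆ := by
    have : ⁅e1, w⁆ = ⁅e1, w'⁆ * (w' * ⁅e1, e2⁆ * w'⁻¹) := by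
      rw [hw]
      simp only [commutatorElement_def]
      group
    rw [this, e0]
    group
  have e4 : ⁅u, w⁆ = (g' * ⁅e1, w⁆ * g'⁻¹) * ⁅w, g'⁆⁻¹ := by
    rw [hu]
    simp only [commutatorElement_def]
    group
  rw [e4, e3]
  exact Q.mul_mem (hQ g' hg _ h2) (Q.inv_mem h1)

end group

variable {k K A Ω : Type} [Field k] [Field K] [Ring A] [StarRing A]
  [Algebra k A] [Algebra K A] {n N : ℕ} [Field Ω] [Algebra K Ω]

/-- The element is close to one at the places of `T`. -/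
def Nr (B : Basis (Fin N) k A) (T : Set (Place k)) (η : ℝ) (x : A) : Prop :=
  ∀ v ∈ T, Sm B v η (x - 1)

theorem Nr.mono {B : Basis (Fin N) k A} {T : Set (Place k)} {η η' : ℝ} {x : A}
    (h : Nr B T η x) (hη : η ≤ η') : Nr B T η' x := fun v hv => (h v hv).mono hη

/-- The element commutes with a unitary element of reduced norm `b`. -/
def GoodU (f : A →ₐ[K] Matrix (Fin n) (Fin n) Ω) (y : Aˣ) (b : Ω) : Prop :=
  ∃ e : UA A, (e : Aˣ) * y = y * (e : Aˣ) ∧ (f ((e : Aˣ) : A)).det = b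

/-- The elements of reduced norm one close to one at `T` are products of two elements commuting
with unitary elements of given reduced norm. -/
def S3a (f : A →ₐ[K] Matrix (Fin n) (Fin n) Ω) (B : Basis (Fin N) k A) (T : Set (Place k)) :
    Prop :=
  ∀ η : ℝ, 0 < η → ∃ η' : ℝ, 0 < η' ∧ ∀ (u : UA A) (h : SUA f),
    Nr B T η' ((u : Aˣ) : A) → Nr B T η' ((h : Aˣ) : A) →
    ((h : Aˣ) : A) ∉ Set.range (algebraMap K A) →
    ∃ t : SUA f, Nr B T η ((t : Aˣ) : A) ∧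
      GoodU f (t : Aˣ) (f ((u : Aˣ) : A)).det ∧
      GoodU f ((h : Aˣ) * (t : Aˣ)) (f ((u : Aˣ) : A)).det

/-- The reduced norms of two unitary elements close to one are the reduced norms of two commuting
ones. -/
def S3b (f : A →ₐ[K] Matrix (Fin n) (Fin n) Ω) (B : Basis (Fin N) k A) (T : Set (Place k)) :
    Prop :=
  ∀ η : ℝ, 0 < η → ∃ η' : ℝ, 0 < η' ∧ ∀ u w : UA A,
    Nr B T η' ((u : Aˣ) : A) → Nr B T η' ((w : Aˣ) : A) →
    ∃ e1 e2 : UA A, e1 * e2 = e2 * e1 ∧ Nr B T η ((e1 : Aˣ) : A) ∧ Nr B T η ((e2 : Aˣ) : A) ∧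
      (f ((e1 : Aˣ) : A)).det = (f ((u : Aˣ) : A)).det ∧
      (f ((e2 : Aˣ) : A)).det = (f ((w : Aˣ) : A)).det

/-- Quotients of elements close to one. -/
theorem near_div [GFF k] (hst : ∀ (c : k) (x : A), star (c • x) = c • star x)
    (B : Basis (Fin N) k A) (T : Set (Place k)) {η : ℝ} (hη : 0 < η) :
    ∃ η' : ℝ, 0 < η' ∧ η' ≤ η ∧ ∀ x y : A, Nr B T η' x → Nr B T η' y → Nr B T η (x * star y) := by
  obtain ⟨C, h1, hfin, hmul, hstar, -⟩ := exists_const B hst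
  obtain ⟨M, hM1, hM⟩ : ∃ M : ℝ, 1 ≤ M ∧ ∀ v, C v ≤ M := by
    refine ⟨∑ v ∈ hfin.toFinset, C v + 1, ?_, fun v => ?_⟩
    · have := Finset.sum_nonneg fun v (_ : v ∈ hfin.toFinset) => zero_le_one.trans (h1 v)
      linarith
    · have h0 := Finset.sum_nonneg fun v (_ : v ∈ hfin.toFinset) => zero_le_one.trans (h1 v)
      by_cases hv : C v = 1
      · rw [hv]
        linarith
      · have := Finset.single_le_sum (f := C) (s := hfin.toFinset)
          (fun v _ => zero_le_one.trans (h1 v)) (hfin.mem_toFinset.2 hv)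
        linarith
  have hM0 : 0 < M := lt_of_lt_of_le one_pos hM1
  have hη' : 0 < min (min η 1) (η / (2 * (M * M))) :=
    lt_min (lt_min hη one_pos) (div_pos hη (by positivity))
  refine ⟨min (min η 1) (η / (2 * (M * M))), hη', (min_le_left _ _).trans (min_le_left _ _),
    fun x y hx hy v hv => ?_⟩
  set e := min (min η 1) (η / (2 * (M * M))) with he
  have he1 : e ≤ 1 := (min_le_left _ _).trans (min_le_right _ _)
  have he2 : e ≤ η := (min_le_left _ _).trans (min_le_left _ _)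
  have he3 : e * (M * M) < η := by
    have h3 : e ≤ η / (2 * (M * M)) := min_le_right _ _
    have h4 : η / (2 * (M * M)) * (M * M) = η / 2 := by
      field_simp
    calc e * (M * M) ≤ η / (2 * (M * M)) * (M * M) :=
          mul_le_mul_of_nonneg_right h3 (by positivity)
      _ = η / 2 := h4
      _ < η := by linarith
  have hC0 : 0 ≤ C v := zero_le_one.trans (h1 v)
  have hs : Bd B v (C v * e) (star y - 1) := by
    have e1 : star y - 1 = star (y - 1) := by rw [star_sub, star_one]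
    rw [e1]
    exact hstar v e _ hη'.le (hy v hv).bd
  have hm : Bd B v (C v * e * (C v * e)) ((x - 1) * (star y - 1)) :=
    hmul v e (C v * e) _ _ hη'.le (mul_nonneg hC0 hη'.le) (hx v hv).bd hs
  have e2 : x * star y - 1 = (x - 1) * (star y - 1) + ((star y - 1) + (x - 1)) := by noncomm_ring
  rw [e2]
  have hCM : C v ≤ M := hM v
  have hCe : C v * e < η := by
    refine lt_of_le_of_lt ?_ he3
    rw [mul_comm e]
    refine mul_le_mul_of_nonneg_right ?_ hη'.le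
    calc C v ≤ M := hCM
      _ = M * 1 := (mul_one M).symm
      _ ≤ M * M := mul_le_mul_of_nonneg_left hM1 hM0.le
  have hCe2 : C v * e * (C v * e) < η := by
    refine lt_of_le_of_lt ?_ he3
    calc C v * e * (C v * e) = e * e * (C v * C v) := by ring
      _ ≤ e * 1 * (M * M) := by
        refine mul_le_mul (mul_le_mul_of_nonneg_left he1 hη'.le) ?_ (by positivity) ?_
        · exact mul_le_mul hCM hCM hC0 hM0.le
        · rw [mul_one]; exact hη'.le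
      _ = e * (M * M) := by rw [mul_one]
  exact (hm.sm hCe2).add ((hs.sm hCe).add ((hx v hv).mono he2))

variable {f : A →ₐ[K] Matrix (Fin n) (Fin n) Ω} {B : Basis (Fin N) k A} {T : Set (Place k)}

theorem coe_mul_inv (u e : UA A) : ((((u : Aˣ) * (e : Aˣ)⁻¹ : Aˣ)) : A) =
    ((u : Aˣ) : A) * star ((e : Aˣ) : A) := by
  rw [Units.val_mul, ← ua_inv]
  rfl

/-- Unitary elements of the same reduced norm. -/
theorem mul_inv_mem_SUA {u e : UA A} (h : (f ((e : Aˣ) : A)).det = (f ((u : Aˣ) : A)).det) :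
    (u : Aˣ) * (e : Aˣ)⁻¹ ∈ SUA f := by
  refine ⟨Subtype.prop (u * e⁻¹ : UA A), ?_⟩
  have h1 : (f (((u : Aˣ) * (e : Aˣ)⁻¹ : Aˣ) : A)).det * (f ((e : Aˣ) : A)).det =
      (f ((u : Aˣ) : A)).det := by
    rw [← Matrix.det_mul, ← map_mul, ← Units.val_mul, inv_mul_cancel_right]
  have h2 : (f ((e : Aˣ) : A)).det * (f (((e : Aˣ)⁻¹ : Aˣ) : A)).det = 1 := by
    rw [← Matrix.det_mul, ← map_mul, Units.mul_inv, map_one, Matrix.det_one]
  have h3 : (f ((u : Aˣ) : A)).det * (f (((e : Aˣ)⁻¹ : Aˣ) : A)).det = 1 := by rw [← h, h2]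
  rw [Units.val_mul, map_mul, Matrix.det_mul, h3]

/-- **The commutators of an element of reduced norm one and of a unitary element, both close to
one, are in `Q`.** -/
theorem ui_of [GFF k] (h3a : S3a f B T) {Q H : Subgroup (SUA f)} (hQ : Q.Normal)
    {ε : ℝ} (hε : 0 < ε) (hH : ∀ g : SUA f, Nr B T ε ((g : Aˣ) : A) → g ∈ H)
    (hc : ∀ g : SUA f, ∀ x ∈ H, ⁅g, x⁆ ∈ Q) :
    ∃ ε' : ℝ, 0 < ε' ∧ ∀ (u : UA A) (h : SUA f), Nr B T ε' ((u : Aˣ) : A) →
      Nr B T ε' ((h : Aˣ) : A) → ⁅(u : Aˣ), (h : Aˣ)⁆ ∈ Q.map (SUA f).subtype := by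
  have hQm : ∀ g ∈ SUA f, ∀ x ∈ Q.map (SUA f).subtype, g * x * g⁻¹ ∈ Q.map (SUA f).subtype := by
    rintro g hg - ⟨x, hx, rfl⟩
    exact ⟨(⟨g, hg⟩ : SUA f) * x * (⟨g, hg⟩ : SUA f)⁻¹, hQ.conj_mem x hx ⟨g, hg⟩, rfl⟩
  have hcm : ∀ g ∈ SUA f, ∀ x ∈ H.map (SUA f).subtype, ⁅g, x⁆ ∈ Q.map (SUA f).subtype := by
    rintro g hg - ⟨x, hx, rfl⟩
    exact ⟨⁅(⟨g, hg⟩ : SUA f), x⁆, hc ⟨g, hg⟩ x hx, rfl⟩
  obtain ⟨η', hη', h3⟩ := h3a ε hε
  refine ⟨min ε η', lt_min hε hη', fun u h hu hh => ?_⟩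
  by_cases hK : ((h : Aˣ) : A) ∈ Set.range (algebraMap K A)
  · obtain ⟨c, hc'⟩ := hK
    have e1 : (u : Aˣ) * (h : Aˣ) = (h : Aˣ) * (u : Aˣ) := by
      apply Units.ext
      rw [Units.val_mul, Units.val_mul, ← hc']
      exact (Algebra.commutes c _).symm
    have e2 : ⁅(u : Aˣ), (h : Aˣ)⁆ = 1 := by
      rw [commutatorElement_def, e1]
      group
    rw [e2]
    exact Subgroup.one_mem _
  · obtain ⟨t, ht, ⟨e1, he1, he1'⟩, ⟨e2, he2, he2'⟩⟩ := h3 u h (hu.mono (min_le_right _ _))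
      (hh.mono (min_le_right _ _)) hK
    have hhH : h ∈ H := hH h (hh.mono (min_le_left _ _))
    have htH : t ∈ H := hH t ht
    have m1 : ⁅(u : Aˣ), (t : Aˣ)⁆ ∈ Q.map (SUA f).subtype :=
      comm_good hcm ⟨t, htH, rfl⟩ he1 (mul_inv_mem_SUA he1')
    have m2 : ⁅(u : Aˣ), (h : Aˣ) * (t : Aˣ)⁆ ∈ Q.map (SUA f).subtype :=
      comm_good hcm ⟨h * t, H.mul_mem hhH htH, rfl⟩ he2 (mul_inv_mem_SUA he2')
    exact comm_two hQm h.2 m1 m2

/-- **The commutators of the unitary elements close to one are in `Q`.** -/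
theorem star_of [GFF k] (hst : ∀ (c : k) (x : A), star (c • x) = c • star x)
    (h3a : S3a f B T) (h3b : S3b f B T) {Q H : Subgroup (SUA f)} (hQ : Q.Normal)
    {ε : ℝ} (hε : 0 < ε) (hH : ∀ g : SUA f, Nr B T ε ((g : Aˣ) : A) → g ∈ H)
    (hc : ∀ g : SUA f, ∀ x ∈ H, ⁅g, x⁆ ∈ Q) :
    ∃ ε' : ℝ, 0 < ε' ∧ ∀ u w : UA A, Nr B T ε' ((u : Aˣ) : A) →
      Nr B T ε' ((w : Aˣ) : A) → ⁅(u : Aˣ), (w : Aˣ)⁆ ∈ Q.map (SUA f).subtype := by
  have hQm : ∀ g ∈ SUA f, ∀ x ∈ Q.map (SUA f).subtype, g * x * g⁻¹ ∈ Q.map (SUA f).subtype := by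
    rintro g hg - ⟨x, hx, rfl⟩
    exact ⟨(⟨g, hg⟩ : SUA f) * x * (⟨g, hg⟩ : SUA f)⁻¹, hQ.conj_mem x hx ⟨g, hg⟩, rfl⟩
  obtain ⟨ε1, hε1, hui⟩ := ui_of h3a hQ hε hH hc
  obtain ⟨ε2, hε2, hε21, hdiv⟩ := near_div hst B T hε1
  obtain ⟨ε3, hε3, h3⟩ := h3b ε2 hε2
  refine ⟨min ε2 ε3, lt_min hε2 hε3, fun u w hu hw => ?_⟩
  obtain ⟨e1, e2, he, hn1, hn2, hd1, hd2⟩ := h3 u w (hu.mono (min_le_right _ _))
    (hw.mono (min_le_right _ _))
  have hu' : Nr B T ε2 ((u : Aˣ) : A) := hu.mono (min_le_left _ _)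
  have hw' : Nr B T ε2 ((w : Aˣ) : A) := hw.mono (min_le_left _ _)
  have hg1 : (u : Aˣ) * (e1 : Aˣ)⁻¹ ∈ SUA f := mul_inv_mem_SUA hd1
  have hg2 : (w : Aˣ) * (e2 : Aˣ)⁻¹ ∈ SUA f := mul_inv_mem_SUA hd2
  have hng1 : Nr B T ε1 (((u : Aˣ) * (e1 : Aˣ)⁻¹ : Aˣ) : A) := by
    rw [coe_mul_inv]
    exact hdiv _ _ hu' hn1
  have hng2 : Nr B T ε1 (((w : Aˣ) * (e2 : Aˣ)⁻¹ : Aˣ) : A) := by
    rw [coe_mul_inv]
    exact hdiv _ _ hw' hn2
  refine comm_pair hQm (g' := (u : Aˣ) * (e1 : Aˣ)⁻¹) (w' := (w : Aˣ) * (e2 : Aˣ)⁻¹)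
    (e1 := (e1 : Aˣ)) (e2 := (e2 : Aˣ)) (by group) (by group) hg1 ?_ ?_ ?_
  · have := congrArg (fun x : UA A => (x : Aˣ)) he
    exact this
  · exact hui w ⟨_, hg1⟩ (hw'.mono hε21) hng1
  · exact hui e1 ⟨_, hg2⟩ (hn1.mono hε21) hng2

/-- The same for the product in the algebra. -/
theorem star_of' [GFF k] (hst : ∀ (c : k) (x : A), star (c • x) = c • star x)
    (h3a : S3a f B T) (h3b : S3b f B T) {Q H : Subgroup (SUA f)} (hQ : Q.Normal)
    {ε : ℝ} (hε : 0 < ε) (hH : ∀ g : SUA f, Nr B T ε ((g : Aˣ) : A) → g ∈ H)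
    (hc : ∀ g : SUA f, ∀ x ∈ H, ⁅g, x⁆ ∈ Q) :
    ∃ ε' : ℝ, 0 < ε' ∧ ∀ (u w : A) (x : SUA f), u * star u = 1 → star u * u = 1 →
      w * star w = 1 → star w * w = 1 → Nr B T ε' u → Nr B T ε' w →
      ((x : Aˣ) : A) = u * w * star u * star w → x ∈ Q := by
  obtain ⟨ε', hε', h⟩ := star_of hst h3a h3b hQ hε hH hc
  refine ⟨ε', hε', fun u w x hu hu' hw hw' hnu hnw hx => ?_⟩
  obtain ⟨U, hU⟩ : ∃ U : UA A, ((U : Aˣ) : A) = u := ⟨⟨⟨u, star u, hu, hu'⟩, hu⟩, rfl⟩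
  obtain ⟨W, hW⟩ : ∃ W : UA A, ((W : Aˣ) : A) = w := ⟨⟨⟨w, star w, hw, hw'⟩, hw⟩, rfl⟩
  obtain ⟨q, hq, hqx⟩ := h U W (by rwa [hU]) (by rwa [hW])
  have e : q = x := by
    apply Subtype.ext
    apply Units.ext
    rw [hx, ← hU, ← hW, ← ua_inv, ← ua_inv]
    have h1 : ((q : Aˣ)) = (U : Aˣ) * (W : Aˣ) * (U : Aˣ)⁻¹ * (W : Aˣ)⁻¹ := hqx
    rw [h1]
    rfl
  exact e ▸ hq

section finite

variable [StarRing K] [Algebra k K] [IsScalarTower k K A] [StarModule K A]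

/-- **The algebra is a division algebra at finitely many places only.** -/
theorem adiv_finite [GFF k] (hA : Anis k K A n) (hn : 1 < n) : (Adiv k K A).Finite := by
  have hcen := hA.central
  have hsim := hA.simple
  obtain ⟨T, hT⟩ := H961.exists_split_ae (k := k) (A := A) hA.fixed (by omega) hA.finrank_eq
  refine T.finite_toSet.subset fun v hv => ?_
  by_contra hvT
  obtain ⟨φ, h⟩ := id hv
  let _ := nnfPlace v
  obtain ⟨g, hg⟩ := hT v hvT v.comp (φ : K →+* v.comp) (fun c => by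
    change ‖φ (algebraMap k K c)‖ = _
    rw [φ.commutes, norm_alg])
  exact notMem_Adiv hA hn hg hv

end finite

end Vale.Agent.P011.H271.StarF
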