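import Vale.Agent.P011.H271.Strong
import Vale.Agent.P011.H738.FDefs

/-! # Places in the sense of absolute values and valuation rings (helper271) -/

namespace Vale.Agent.P011.H271

open Polynomial IsDedekindDomain HeightOneSpectrum WithZero
open Vale.Agent.P011.H738

set_option linter.style.haveILetI false
set_option linter.unusedSectionVars false

noncomputable section

theorem gff_of_isGlobal {k : Type} [Field k] (h : IsGlobalFunctionField k) : GFF k := by
  obtain ⟨F, iF, iFin, iA, hA⟩ := h
  exact GFF.mk' F k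

theorem card_quot_eq {R S : Type*} [CommRing R] [CommRing S] (e : R ≃+* S) (I : Ideal R)
    (J : Ideal S) (h : ∀ x, x ∈ I ↔ e x ∈ J) : Nat.card (R ⧸ I) = Nat.card (S ⧸ J) := by
  refine Nat.card_congr (Ideal.quotientEquiv I J e ?_).toEquiv
  refine le_antisymm (fun y hy => ?_) (Ideal.map_le_iff_le_comap.2 fun x hx => (h x).1 hx)
  have h1 : e.symm y ∈ I := (h _).2 (by rwa [RingEquiv.apply_symm_apply])
  have h2 := Ideal.mem_map_of_mem (e : R →+* S) h1
  have h3 : (e : R →+* S) (e.symm y) = y := e.apply_symm_apply y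
  rwa [h3] at h2

section place

variable {k : Type} [Field k]

/-- the order of the residue field -/
def qq (v : Place k) : ℕ := Nat.card (integers v.abv v.nonarch ⧸ maxIdeal v.abv v.nonarch)

theorem one_lt_qq (v : Place k) : 1 < qq v := by
  haveI := v.normalized.1
  rw [qq, Finite.one_lt_card_iff_nontrivial]
  refine Ideal.Quotient.nontrivial_iff.2 ?_
  intro h
  have h1 : (1 : integers v.abv v.nonarch) ∈ maxIdeal v.abv v.nonarch := by rw [h]; trivial
  have h2 : v.abv ((1 : integers v.abv v.nonarch) : k) < 1 := h1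
  rw [OneMemClass.coe_one, map_one] at h2
  exact lt_irrefl _ h2

theorem one_lt_qq' (v : Place k) : (1 : ℝ) < qq v := by exact_mod_cast one_lt_qq v

theorem qq_pos (v : Place k) : (0 : ℝ) < qq v := lt_trans one_pos (one_lt_qq' v)

theorem exists_eq_zpow (v : Place k) {x : k} (hx : x ≠ 0) : ∃ m : ℤ, v.abv x = (qq v : ℝ) ^ m :=
  v.normalized.2.2 x hx

open Classical in
/-- the logarithm -/
def ml (v : Place k) (x : k) : ℤ := if hx : x = 0 then 0 else (exists_eq_zpow v hx).choose

theorem ml_spec (v : Place k) {x : k} (hx : x ≠ 0) : v.abv x = (qq v : ℝ) ^ (ml v x) := by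
  rw [ml, dif_neg hx]; exact (exists_eq_zpow v hx).choose_spec

theorem ml_unique (v : Place k) {x : k} (hx : x ≠ 0) {m : ℤ} (h : v.abv x = (qq v : ℝ) ^ m) :
    ml v x = m := by
  rw [ml_spec v hx] at h
  exact (zpow_right_injective₀ (qq_pos v) (one_lt_qq' v).ne') h

open Classical in
/-- the valuation attached to a place -/
def plV (v : Place k) : Valuation k (WithZero (Multiplicative ℤ)) where
  toFun x := if x = 0 then 0 else exp (ml v x)
  map_zero' := by simp
  map_one' := by
    rw [if_neg one_ne_zero, ml_unique v one_ne_zero (m := 0) (by simp)]; simp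
  map_mul' x y := by
    by_cases hx : x = 0
    · simp [hx]
    by_cases hy : y = 0
    · simp [hy]
    rw [if_neg hx, if_neg hy, if_neg (mul_ne_zero hx hy), ← exp_add]
    congr 1
    refine ml_unique v (mul_ne_zero hx hy) ?_
    rw [map_mul, ml_spec v hx, ml_spec v hy, zpow_add₀ (qq_pos v).ne']
  map_add_le_max' x y := by
    by_cases hx : x = 0
    · simp [hx]
    by_cases hy : y = 0
    · simp [hy]
    by_cases hxy : x + y = 0
    · simp [hxy]
    rw [if_neg hx, if_neg hy, if_neg hxy, le_max_iff, exp_le_exp, exp_le_exp]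
    have h := v.nonarch x y
    rw [ml_spec v hx, ml_spec v hy, ml_spec v hxy, le_max_iff,
      zpow_le_zpow_iff_right₀ (one_lt_qq' v), zpow_le_zpow_iff_right₀ (one_lt_qq' v)] at h
    exact h

theorem plV_ne (v : Place k) {x : k} (hx : x ≠ 0) : plV v x = exp (ml v x) := if_neg hx

theorem plV_le (v : Place k) (x : k) (n : ℤ) : plV v x ≤ exp n ↔ v.abv x ≤ (qq v : ℝ) ^ n := by
  by_cases hx : x = 0
  · subst hx
    rw [map_zero, map_zero]
    simp only [zero_le, true_iff]
    exact (zpow_pos (qq_pos v) n).le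
  · rw [plV_ne v hx, exp_le_exp, ml_spec v hx, zpow_le_zpow_iff_right₀ (one_lt_qq' v)]

theorem plV_le_one (v : Place k) (x : k) : plV v x ≤ 1 ↔ v.abv x ≤ 1 := by
  have := plV_le v x 0
  rwa [exp_zero, zpow_zero] at this

theorem plV_surj (v : Place k) : Function.Surjective (plV v) := by
  intro y
  by_cases hy : y = 0
  · exact ⟨0, by rw [map_zero, hy]⟩
  obtain ⟨x, hx⟩ := v.normalized.2.1
  have hx0 : x ≠ 0 := by
    rintro rfl
    rw [map_zero] at hx
    exact (qq_pos v).ne hx
  have hx1 : plV v x = exp 1 := by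
    rw [plV_ne v hx0]
    congr 1
    refine ml_unique v hx0 ?_
    rw [zpow_one]; exact hx
  refine ⟨x ^ (log y), ?_⟩
  rw [map_zpow₀, hx1, ← exp_zsmul, smul_eq_mul, mul_one, exp_log hy]

/-- the valuation subring of a place -/
def toPl (v : Place k) : Pl k := ⟨(plV v).valuationSubring, by
  rw [ne_eq, Valuation.valuationSubring_eq_top_iff, not_not]
  obtain ⟨x, hx⟩ := plV_surj v (exp 1)
  refine ⟨⟨x, ?_, ?_⟩⟩
  · rw [hx]; exact exp_ne_zero
  · rw [hx, ← exp_zero, ne_eq, exp_inj]; norm_num⟩

theorem toPl_v [GFF k] (v : Place k) : (toPl v).v = plV v :=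
  (toPl v).eq_v _ (plV_surj v) rfl

theorem toPl_le [GFF k] (v : Place k) (x : k) (n : ℤ) :
    (toPl v).v x ≤ exp n ↔ v.abv x ≤ (qq v : ℝ) ^ n := by
  rw [toPl_v, plV_le]

theorem toPl_le_one [GFF k] (v : Place k) (x : k) : (toPl v).v x ≤ 1 ↔ v.abv x ≤ 1 := by
  rw [toPl_v, plV_le_one]

theorem toPl_injective : Function.Injective (toPl (k := k)) := by
  intro v w h
  have h1 : ∀ x, v.abv x ≤ 1 ↔ w.abv x ≤ 1 := by
    intro x
    rw [← plV_le_one, ← plV_le_one]
    have : x ∈ (toPl v).1 ↔ x ∈ (toPl w).1 := by rw [h]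
    exact this
  have hV : plV v = plV w := val_eq_of_subring_eq _ _ (plV_surj v) (plV_surj w)
    (congrArg Subtype.val h)
  have h2 : ∀ x, v.abv x < 1 ↔ w.abv x < 1 := by
    intro x
    by_cases hx : x = 0
    · simp [hx]
    have h3 : ∀ u : Place k, u.abv x < 1 ↔ plV u x < 1 := by
      intro u
      rw [plV_ne u hx, ml_spec u hx, ← exp_zero, exp_lt_exp, ← zpow_zero (qq u : ℝ),
        zpow_lt_zpow_iff_right₀ (one_lt_qq' u)]
    rw [h3, h3, hV]
  have hI : integers v.abv v.nonarch = integers w.abv w.nonarch := by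
    ext x; exact h1 x
  have hq : qq v = qq w := by
    exact card_quot_eq (RingEquiv.subringCongr hI) _ _ fun x => h2 (x : k)
  have habv : v.abv = w.abv := by
    ext x
    by_cases hx : x = 0
    · simp [hx]
    have h4 : ml v x = ml w x := by
      have := DFunLike.congr_fun hV x
      rwa [plV_ne v hx, plV_ne w hx, exp_inj] at this
    rw [ml_spec v hx, ml_spec w hx, h4, hq]
  cases v; cases w; congr

variable [GFF k]

theorem one_lt_card (V : Pl k) : 1 < Nat.card (IsLocalRing.ResidueField V.1) := by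
  haveI := V.resfin
  exact Finite.one_lt_card

theorem one_lt_card' (V : Pl k) : (1 : ℝ) < Nat.card (IsLocalRing.ResidueField V.1) := by
  exact_mod_cast one_lt_card V

open Classical in
/-- the normalised absolute value of a valuation subring -/
def plAbv (V : Pl k) : AbsoluteValue k ℝ where
  toFun x := if x = 0 then 0 else (Nat.card (IsLocalRing.ResidueField V.1) : ℝ) ^ log (V.v x)
  map_mul' x y := by
    by_cases hx : x = 0
    · simp [hx]
    by_cases hy : y = 0
    · simp [hy]
    rw [if_neg hx, if_neg hy, if_neg (mul_ne_zero hx hy), map_mul,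
      log_mul ((Valuation.ne_zero_iff _).2 hx) ((Valuation.ne_zero_iff _).2 hy),
      zpow_add₀ (lt_trans one_pos (one_lt_card' V)).ne']
  nonneg' x := by
    split_ifs
    · exact le_rfl
    · positivity
  eq_zero' x := by
    constructor
    · intro h
      by_contra hx
      rw [if_neg hx] at h
      exact (zpow_pos (lt_trans one_pos (one_lt_card' V)) _).ne' h
    · intro h
      rw [if_pos h]
  add_le' x y := by
    by_cases hx : x = 0
    · simp [hx]
    by_cases hy : y = 0
    · simp [hy]
    by_cases hxy : x + y = 0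
    · rw [if_pos hxy]
      split_ifs
      positivity
    rw [if_neg hx, if_neg hy, if_neg hxy]
    have h := V.v.map_add x y
    have hpos := lt_trans one_pos (one_lt_card' V)
    rcases le_max_iff.1 h with h | h
    · have h1 : log (V.v (x + y)) ≤ log (V.v x) := by
        rw [log_le_log ((Valuation.ne_zero_iff _).2 hxy) ((Valuation.ne_zero_iff _).2 hx)]
        exact h
      have := zpow_le_zpow_right₀ (one_lt_card' V).le h1
      have := zpow_pos hpos (log (V.v y))
      linarith
    · have h1 : log (V.v (x + y)) ≤ log (V.v y) := by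
        rw [log_le_log ((Valuation.ne_zero_iff _).2 hxy) ((Valuation.ne_zero_iff _).2 hy)]
        exact h
      have := zpow_le_zpow_right₀ (one_lt_card' V).le h1
      have := zpow_pos hpos (log (V.v x))
      linarith

theorem plAbv_ne (V : Pl k) {x : k} (hx : x ≠ 0) :
    plAbv V x = (Nat.card (IsLocalRing.ResidueField V.1) : ℝ) ^ log (V.v x) := if_neg hx

theorem plAbv_le_one (V : Pl k) (x : k) : plAbv V x ≤ 1 ↔ V.v x ≤ 1 := by
  by_cases hx : x = 0
  · simp [hx]
  rw [plAbv_ne V hx, ← zpow_zero (Nat.card (IsLocalRing.ResidueField V.1) : ℝ),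
    zpow_le_zpow_iff_right₀ (one_lt_card' V), ← exp_zero,
    log_le_iff_le_exp ((Valuation.ne_zero_iff _).2 hx)]

theorem plAbv_lt_one (V : Pl k) (x : k) : plAbv V x < 1 ↔ V.v x < 1 := by
  by_cases hx : x = 0
  · simp [hx]
  rw [plAbv_ne V hx, ← zpow_zero (Nat.card (IsLocalRing.ResidueField V.1) : ℝ),
    zpow_lt_zpow_iff_right₀ (one_lt_card' V), ← exp_zero,
    log_lt_iff_lt_exp ((Valuation.ne_zero_iff _).2 hx)]

theorem plAbv_nonarch (V : Pl k) (x y : k) : plAbv V (x + y) ≤ max (plAbv V x) (plAbv V y) := by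
  by_cases hx : x = 0
  · simp [hx]
  by_cases hy : y = 0
  · simp [hy]
  by_cases hxy : x + y = 0
  · rw [hxy, map_zero]; exact le_max_of_le_left ((plAbv V).nonneg _)
  rw [plAbv_ne V hx, plAbv_ne V hy, plAbv_ne V hxy, le_max_iff,
    zpow_le_zpow_iff_right₀ (one_lt_card' V), zpow_le_zpow_iff_right₀ (one_lt_card' V),
    log_le_log ((Valuation.ne_zero_iff _).2 hxy) ((Valuation.ne_zero_iff _).2 hx),
    log_le_log ((Valuation.ne_zero_iff _).2 hxy) ((Valuation.ne_zero_iff _).2 hy), ← le_max_iff]
  exact V.v.map_add x y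

theorem card_plAbv (V : Pl k) :
    Nat.card (integers (plAbv V) (plAbv_nonarch V) ⧸ maxIdeal (plAbv V) (plAbv_nonarch V)) =
      Nat.card (IsLocalRing.ResidueField V.1) := by
  have hI : integers (plAbv V) (plAbv_nonarch V) = V.1.toSubring := by
    ext x
    change plAbv V x ≤ 1 ↔ x ∈ V.1
    rw [plAbv_le_one, V.mem_iff]
  have he' : V.v.IsEquiv V.1.valuation := by
    have := Valuation.isEquiv_valuation_valuationSubring V.v
    rwa [V.v_sub] at this
  have h2 : ∀ x : V.1, x ∈ IsLocalRing.maximalIdeal V.1 ↔ plAbv V (x : k) < 1 := by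
    intro x
    rw [plAbv_lt_one, he'.lt_one_iff_lt_one, ← ValuationSubring.valuation_lt_one_iff]
  exact card_quot_eq (RingEquiv.subringCongr hI) (maxIdeal (plAbv V) (plAbv_nonarch V))
    (IsLocalRing.maximalIdeal V.1)
    fun x => (h2 ⟨x, (V.mem_iff x).2 ((plAbv_le_one V x).1 x.2)⟩).symm

/-- every nontrivial valuation subring comes from a place -/
theorem toPl_surjective : Function.Surjective (toPl (k := k)) := by
  intro V
  refine ⟨⟨plAbv V, plAbv_nonarch V, ?_, ?_, ?_⟩, ?_⟩
  · haveI := V.resfin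
    refine Nat.finite_of_card_ne_zero ?_
    rw [card_plAbv]
    exact (lt_trans one_pos (one_lt_card V)).ne'
  · obtain ⟨x, hx⟩ := V.exists_val 1
    refine ⟨x, ?_⟩
    have hx0 : x ≠ 0 := by
      rintro rfl; rw [map_zero] at hx; exact exp_ne_zero hx.symm
    rw [card_plAbv, plAbv_ne V hx0, hx, log_exp, zpow_one]
  · intro x hx
    exact ⟨_, by rw [card_plAbv, plAbv_ne V hx]⟩
  · apply Subtype.ext
    ext x
    change plV _ x ≤ 1 ↔ _
    rw [plV_le_one, V.mem_iff]
    exact plAbv_le_one V x

end place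

end

end Vale.Agent.P011.H271
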