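import Vale.Agent.P011.H271.Sep

/-! # Places of a global function field as nontrivial valuation rings (helper271) -/

namespace Vale.Agent.P011.H271

open Polynomial IsDedekindDomain HeightOneSpectrum

set_option linter.style.haveILetI false

noncomputable section

section Dedekind

variable {k : Type*} [Field k] {R : Type*} [CommRing R] [IsDedekindDomain R] [Algebra R k]
  [IsFractionRing R k]

/-- the valuation ring of a prime -/
abbrev hosV (k : Type*) [Field k] {R : Type*} [CommRing R] [IsDedekindDomain R] [Algebra R k]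
  [IsFractionRing R k] (v : HeightOneSpectrum R) : ValuationSubring k :=
  (v.valuation k).valuationSubring

theorem hosV_ne_top (v : HeightOneSpectrum R) : hosV k v ≠ ⊤ := by
  simp only [ne_eq, Valuation.valuationSubring_eq_top_iff, not_not]; infer_instance

theorem hosV_injective : Function.Injective (hosV k (R := R)) := by
  intro v w h
  apply eq_of_valuation_isEquiv_valuation (K := k)
  exact Valuation.isEquiv_iff_valuationSubring _ _ |>.2 h

/-- A nontrivial valuation ring containing a Dedekind domain comes from a prime of it. -/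
theorem exists_hos (V : ValuationSubring k) (hV : V ≠ ⊤) (h : ∀ r : R, algebraMap R k r ∈ V) :
    ∃ v : HeightOneSpectrum R, hosV k v = V := by
  let f : R →+* V := (algebraMap R k).codRestrict V.toSubring h
  have hf : ∀ r, ((f r : V) : k) = algebraMap R k r := fun r => rfl
  let P : Ideal R := (IsLocalRing.maximalIdeal V).comap f
  have hP : P.IsPrime := Ideal.IsPrime.comap f
  have hPmem : ∀ r : R, r ∈ P ↔ V.valuation (algebraMap R k r) < 1 := by
    intro r
    rw [Ideal.mem_comap, ValuationSubring.valuation_lt_one_iff]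
    rfl
  have hnot : ∀ r : R, r ∉ P → (algebraMap R k r)⁻¹ ∈ V := by
    intro r hr
    rw [hPmem, not_lt] at hr
    rw [← ValuationSubring.valuation_le_one_iff, map_inv₀]
    exact inv_le_one_of_one_le₀ hr
  have hne : P ≠ ⊥ := by
    intro h0
    apply hV
    rw [eq_top_iff]
    intro x _
    obtain ⟨a, b, hb, rfl⟩ := IsFractionRing.div_surjective (A := R) x
    rw [div_eq_mul_inv]
    refine V.mul_mem _ _ (h a) (hnot b ?_)
    rw [h0, Ideal.mem_bot]
    exact nonZeroDivisors.ne_zero hb
  let v : HeightOneSpectrum R := ⟨P, hP, hne⟩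
  refine ⟨v, ?_⟩
  rw [hosV, ← valuationSubringAtPrime_eq_valuationSubring]
  apply ValuationSubring.eq_of_le_of_ne_top _ _ hV
  rintro x ⟨a, s, hs, rfl⟩
  exact V.mul_mem _ _ (h a) (hnot s (by simpa using hs))

theorem mem_hosV {v : HeightOneSpectrum R} {x : k} : x ∈ hosV k v ↔ v.valuation k x ≤ 1 :=
  Iff.rfl

end Dedekind

/-! ### uniqueness of normalised valuations -/

section Norm
open WithZero
variable {k : Type*} [Field k]

theorem val_eq_of_subring_eq (v w : Valuation k (WithZero (Multiplicative ℤ)))
    (hv : Function.Surjective v) (hw : Function.Surjective w)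
    (h : v.valuationSubring = w.valuationSubring) : v = w := by
  have he : v.IsEquiv w := Valuation.isEquiv_iff_valuationSubring _ _ |>.2 h
  obtain ⟨π, hπ⟩ := hv (exp (-1))
  have hπ0 : π ≠ 0 := by
    rintro rfl
    rw [map_zero] at hπ
    exact exp_ne_zero hπ.symm
  have hvlt : v π < 1 := by
    rw [hπ, ← exp_zero, exp_lt_exp]; norm_num
  have hwlt : w π < 1 := he.lt_one_iff_lt_one.1 hvlt
  have hw0 : w π ≠ 0 := (Valuation.ne_zero_iff _).2 hπ0
  -- `w π = exp (-1)`
  have key : w π = exp (-1) := by
    apply le_antisymm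
    · rw [← log_le_iff_le_exp hw0]
      have : log (w π) < 0 := by
        rw [← log_one, log_lt_log hw0 one_ne_zero]
        exact hwlt
      omega
    · obtain ⟨ρ, hρ⟩ := hw (exp (-1))
      have hρ0 : ρ ≠ 0 := by
        rintro rfl
        rw [map_zero] at hρ
        exact exp_ne_zero hρ.symm
      have hρlt : w ρ < 1 := by
        rw [hρ, ← exp_zero, exp_lt_exp]; norm_num
      have hvρ : v ρ < 1 := he.lt_one_iff_lt_one.2 hρlt
      have hv0 : v ρ ≠ 0 := (Valuation.ne_zero_iff _).2 hρ0
      have : v ρ ≤ v π := by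
        rw [hπ, ← log_le_iff_le_exp hv0]
        have : log (v ρ) < 0 := by
          rw [← log_one, log_lt_log hv0 one_ne_zero]
          exact hvρ
        omega
      rw [← hρ]
      exact (he _ _).1 this
  ext x
  by_cases hx : x = 0
  · subst hx; simp
  · have hvx : v x ≠ 0 := (Valuation.ne_zero_iff _).2 hx
    set n : ℤ := log (v x) with hn
    have h1 : v (x * π ^ n) = 1 := by
      rw [map_mul, map_zpow₀, hπ, ← exp_zsmul, ← exp_log hvx, ← hn, ← exp_add]
      simp
    have h2 : w (x * π ^ n) = 1 := he.eq_one_iff_eq_one.1 h1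
    rw [map_mul, map_zpow₀] at h1 h2
    rw [hπ] at h1
    rw [key] at h2
    have h3 : (exp (-1) : WithZero (Multiplicative ℤ)) ^ n ≠ 0 := zpow_ne_zero _ exp_ne_zero
    exact mul_right_cancel₀ h3 (h1.trans h2.symm)

end Norm

end

end Vale.Agent.P011.H271
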