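import Vale.Agent.P011.H487.Fam
import Vale.Agent.P011.H487.Coord
import Vale.Agent.P011.H487.Poly
import Vale.Agent.P011.H305.SetF
import Vale.Agent.P011.H738.CubPol

/-!
# The two polynomials of the sieve over a function field
-/

open Module MvPolynomial

set_option linter.unusedSectionVars false

namespace Vale.Agent.P011.H271.S3

open Vale.Agent.P011.H775 Vale.Agent.P011.H948 Vale.Agent.P011.H305
open Vale.Agent.P011.H487 (Pm In nu de tz ph gg S_of_unitary star_gg gg_split split_inv)
open Vale.Agent.P011.H321.Cop (GG XX YY)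

section pmC

variable {k K D : Type} [Field k] [Field K] [Ring D] [Algebra k K] [Algebra k D]
  [Algebra K D] [IsScalarTower k K D] (C : Cub K D) {m : ℕ}

theorem S_formula (h2 : (2 : K) ≠ 0) (x : D) :
    C.S x = (2 : K)⁻¹ * (C.T x * C.T x - C.T (x * x)) := by
  have h := C.T_cr x x
  rw [C.cr_self, map_smul, smul_eq_mul] at h
  have h2' : C.S x = C.T (C.adj x) := rfl
  rw [h2', ← h]
  field_simp

theorem N_formula (h3 : (3 : K) ≠ 0) (x : D) : C.N x = (3 : K)⁻¹ * C.T (x * C.adj x) := by
  rw [C.mul_adj, map_smul, C.T_one, smul_eq_mul]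
  field_simp

variable {F : (Fin m → k) → D} {C}

theorem pm_T (hF : Pm F) : Pm fun x => C.T (F x) := hF.lin (C.T.restrictScalars k)

theorem pm_S (h2 : (2 : K) ≠ 0) (hF : Pm F) : Pm fun x => C.S (F x) := by
  have h1 := (Pm.const (k := k) (m := m) ((2 : K)⁻¹)).mul
    (((pm_T (C := C) hF).mul (pm_T (C := C) hF)).sub (pm_T (C := C) (hF.mul hF)))
  have e : (fun x => C.S (F x)) = fun x => (2 : K)⁻¹ * (C.T (F x) * C.T (F x) - C.T (F x * F x)) :=
    funext fun x => S_formula C h2 (F x)
  rw [e]
  exact h1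

theorem pm_adj (h2 : (2 : K) ≠ 0) (hF : Pm F) : Pm fun x => C.adj (F x) := by
  have h1 := ((hF.mul hF).sub ((pm_T (C := C) hF).smulA hF)).add
    ((pm_S (C := C) h2 hF).smulA (Pm.const (1 : D)))
  have e : (fun x => C.adj (F x)) = fun x => F x * F x - C.T (F x) • F x + C.S (F x) • (1 : D) :=
    funext fun x => C.adj_eq (F x)
  rw [e]
  exact h1

theorem pm_N (h2 : (2 : K) ≠ 0) (h3 : (3 : K) ≠ 0) (hF : Pm F) : Pm fun x => C.N (F x) := by
  have h1 := (Pm.const (k := k) (m := m) ((3 : K)⁻¹)).mul
    (pm_T (C := C) (hF.mul (pm_adj (C := C) h2 hF)))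
  have e : (fun x => C.N (F x)) = fun x => (3 : K)⁻¹ * C.T (F x * C.adj (F x)) :=
    funext fun x => N_formula C h3 (F x)
  rw [e]
  exact h1

end pmC

section coord

variable {k K D : Type} [Field k] [Field K] [StarRing K]
  [DivisionRing D] [StarRing D] [Algebra k K] [Algebra k D] [Algebra K D] [IsScalarTower k K D]
  {d : kˣ} {s : K}

theorem two_ne (hS : SetF k K D d s) : (2 : K) ≠ 0 := by
  rw [← map_ofNat (algebraMap k K) 2]
  exact (map_ne_zero _).mpr hS.two_ne

/-- Real and imaginary part. -/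
theorem exists_reim (hS : SetF k K D d s) : ∃ re im : K →ₗ[k] k,
    ∀ c : K, c = algebraMap k K (re c) + s * algebraMap k K (im c) := by
  let φ : (k × k) →ₗ[k] K :=
    { toFun := fun p => algebraMap k K p.1 + s * algebraMap k K p.2
      map_add' := fun p q => by
        simp only [Prod.fst_add, Prod.snd_add, map_add]
        ring
      map_smul' := fun c p => by
        change algebraMap k K (c * p.1) + s * algebraMap k K (c * p.2) =
          c • (algebraMap k K p.1 + s * algebraMap k K p.2)
        rw [Algebra.smul_def, map_mul, map_mul]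
        ring }
  have hs0 : s ≠ 0 := hS.s_ne
  have hinj : Function.Injective φ := by
    rw [injective_iff_map_eq_zero]
    rintro ⟨a, b⟩ h
    have h1 : algebraMap k K a + s * algebraMap k K b = 0 := h
    have h2 := congrArg star h1
    rw [star_add, star_mul', hS.star_algebraMap, hS.star_algebraMap, hS.star_s, star_zero] at h2
    have h3 : algebraMap k K a = 0 := by
      have : (2 : K) * algebraMap k K a = 0 := by linear_combination h1 + h2
      rcases mul_eq_zero.mp this with h | h
      · exact absurd h (two_ne hS)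
      · exact h
    have h4 : algebraMap k K b = 0 := by
      rw [h3, zero_add] at h1
      rcases mul_eq_zero.mp h1 with h | h
      · exact absurd h hs0
      · exact h
    rw [map_eq_zero] at h3 h4
    rw [h3, h4]
    rfl
  have hrank : Module.finrank k (k × k) = Module.finrank k K := by
    rw [hS.rank, Module.finrank_prod, Module.finrank_self]
  have : FiniteDimensional k K := Module.finite_of_finrank_pos (by rw [hS.rank]; norm_num)
  let ψ := LinearEquiv.ofInjectiveOfFinrankEq φ hinj hrank
  refine ⟨(LinearMap.fst k k k).comp ψ.symm.toLinearMap,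
    (LinearMap.snd k k k).comp ψ.symm.toLinearMap, fun c => ?_⟩
  have h1 : φ (ψ.symm c) = c := by
    have := ψ.apply_symm_apply c
    exact this
  exact h1.symm

/-- The point with given coordinates. -/
def zf (s : K) (e : D) (x : Fin (3 + 3) → k) : D :=
  ∑ i : Fin 3, (x (Fin.castAdd 3 i) • e ^ (i : ℕ) + x (Fin.natAdd 3 i) • (s • e ^ (i : ℕ)))

theorem zf_pm (s : K) (e : D) : Pm (k := k) (zf s e) := by
  unfold zf
  exact Pm.sum _ fun i _ => (Pm.coord _ _).add (Pm.coord _ _)

theorem zf_smul (s : K) (e : D) (c : k) (x : Fin (3 + 3) → k) :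
    zf s e (fun j => c * x j) = c • zf s e x := by
  unfold zf
  rw [Finset.smul_sum]
  refine Finset.sum_congr rfl fun i _ => ?_
  rw [smul_add, smul_smul, smul_smul]

theorem zf_commute {s' : K} {y e' : D} (h : Commute y e') (x : Fin (3 + 3) → k) :
    Commute y (zf s' e' x) := by
  unfold zf
  refine Commute.sum_right _ _ _ fun i _ => ?_
  have h1 := h.pow_right (i : ℕ)
  exact (h1.smul_right _).add_right ((h1.smul_right _).smul_right _)

theorem star_zf (hS : SetF k K D d s) {e : D} (he : e * star e = 1) (x : Fin (3 + 3) → k) :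
    star (zf s e x) = zf (-s) e⁻¹ x := by
  have hi : star e = e⁻¹ := (inv_eq_of_mul_eq_one_right he).symm
  unfold zf
  rw [star_sum]
  refine Finset.sum_congr rfl fun i _ => ?_
  rw [star_add, hS.star_smulk, hS.star_smulk, hS.star_smul, hS.star_s, star_pow, hi]

theorem zf_surj (hS : SetF k K D d s) {e w : D} (h : In K e w) :
    ∃ x : Fin (3 + 3) → k, zf s e x = w := by
  obtain ⟨c, rfl⟩ := h
  obtain ⟨re, im, hri⟩ := exists_reim hS
  refine ⟨Fin.append (fun i => re (c i)) (fun i => im (c i)), ?_⟩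
  unfold zf
  simp only [Fin.append_left, Fin.append_right]
  have h1 : ∀ (i : Fin 3) (y : D), re (c i) • y + im (c i) • (s • y) = c i • y := by
    intro i y
    conv_rhs => rw [hri (c i)]
    rw [add_smul, mul_comm s, mul_smul, algebraMap_smul, algebraMap_smul]
  simp only [h1, Fin.sum_univ_three]
  congr 1
  · congr 1
    · simp
    · simp
  · simp [pow_two]

/-- The point one. -/
theorem zf_one (s : K) (e : D) : zf (k := k) s e (fun j => if j = 0 then 1 else 0) = 1 := by
  unfold zf
  rw [Fin.sum_univ_three]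
  have h0 : (Fin.castAdd 3 (0 : Fin 3) : Fin (3 + 3)) = 0 := rfl
  have h1 : (Fin.castAdd 3 (1 : Fin 3) : Fin (3 + 3)) ≠ 0 := by decide
  have h2 : (Fin.castAdd 3 (2 : Fin 3) : Fin (3 + 3)) ≠ 0 := by decide
  have h3 : (Fin.natAdd 3 (0 : Fin 3) : Fin (3 + 3)) ≠ 0 := by decide
  have h4 : (Fin.natAdd 3 (1 : Fin 3) : Fin (3 + 3)) ≠ 0 := by decide
  have h5 : (Fin.natAdd 3 (2 : Fin 3) : Fin (3 + 3)) ≠ 0 := by decide
  simp only [if_pos h0, if_neg h1, if_neg h2, if_neg h3, if_neg h4, if_neg h5]
  simp

end coord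

section trace

variable {K D : Type} [Field K] [StarRing K] [DivisionRing D] [StarRing D]
  [Algebra K D] (C : Cub K D)

/-- The trace of a noncentral special unitary element is not zero. -/
theorem T_ne_zero (h20 : (2 : K) ≠ 0) (h30 : (3 : K) ≠ 0) (h : SCub C) {x : D}
    (hx : x * star x = 1) (hN : C.N x = 1) (hc : ∀ c : K, x ≠ c • (1 : D)) : C.T x ≠ 0 := by
  intro h0
  have hS : C.S x = 0 := by rw [S_of_unitary C h hx hN, h0, star_zero]
  have h1 := C.cayley x
  rw [h0, hS, hN, zero_smul, zero_smul, sub_zero, add_zero, one_smul] at h1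
  have h2 : (x - 1) * (x * x + x + 1) = 0 := by
    rw [← h1]
    noncomm_ring
  rcases mul_eq_zero.mp h2 with h3 | h3
  · exact hc 1 (by rw [one_smul]; exact sub_eq_zero.mp h3)
  · have h4 := congrArg C.T h3
    rw [map_add, map_add, h0, C.T_one, map_zero, add_zero] at h4
    have h5 := S_formula C h20 x
    rw [hS, h0, mul_zero, zero_sub] at h5
    have h6 : C.T (x * x) = 0 := by
      have h7 : (2 : K)⁻¹ ≠ 0 := inv_ne_zero h20
      rcases mul_eq_zero.mp h5.symm with h | h
      · exact absurd h h7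
      · exact neg_eq_zero.mp h
    rw [h6, zero_add] at h4
    exact h30 h4

end trace

section split

variable {k K D : Type} [Field k] [Field K] [DivisionRing D] [StarRing D] [Algebra k K]
  [Algebra k D] [Algebra K D] [IsScalarTower k K D] (C : Cub K D)
  {Ω : Type} [Field Ω] [Algebra K Ω] (f : D →ₐ[K] Matrix (Fin 3) (Fin 3) Ω)

theorem split_zf {s' : K} {e' : D} {v : Fin 3 → Ω} (hv : f e' = Matrix.diagonal v)
    (x : Fin (3 + 3) → k) : f (zf s' e' x) = Matrix.diagonal fun j =>
      ∑ i : Fin 3, (algebraMap K Ω (algebraMap k K (x (Fin.castAdd 3 i))) +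
        algebraMap K Ω s' * algebraMap K Ω (algebraMap k K (x (Fin.natAdd 3 i)))) *
          v j ^ (i : ℕ) := by
  have hk : ∀ (c : k) (y : D), f (c • y) = algebraMap K Ω (algebraMap k K c) • f y := by
    intro c y
    rw [← algebraMap_smul K c y, map_smul, ← algebraMap_smul Ω (algebraMap k K c)]
  have hK : ∀ (c : K) (y : D), f (c • y) = algebraMap K Ω c • f y := by
    intro c y
    rw [map_smul, ← algebraMap_smul Ω c]
  unfold zf
  simp only [map_sum, map_add, hk, hK, map_pow, hv, Matrix.diagonal_pow]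
  ext a b
  by_cases hab : a = b
  · subst hab
    simp only [Matrix.sum_apply, Matrix.add_apply, Matrix.smul_apply, Matrix.diagonal_apply_eq,
      Pi.pow_apply, smul_eq_mul]
    exact Finset.sum_congr rfl fun i _ => by ring
  · simp only [Matrix.sum_apply, Matrix.add_apply, Matrix.smul_apply,
      Matrix.diagonal_apply_ne _ hab, smul_zero, add_zero, Finset.sum_const_zero]

end split

section poly

variable {k K D : Type} [Field k] [Infinite k] [Field K] [StarRing K]
  [DivisionRing D] [StarRing D] [Algebra k K] [Algebra k D] [Algebra K D] [IsScalarTower k K D]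
  {d : kˣ} {s : K}

/-- **The two polynomials.** -/
theorem exists_poly (hS : SetF k K D d s) (h3 : (3 : K) ≠ 0) (hdeg : finrank K D = 3 ^ 2)
    (C : Cub K D) {h e : D} (hh : h * star h = 1) (hN : C.N h = 1)
    (hc : ∀ c : K, h ≠ c • (1 : D))
    (he : e * star e = 1) (hec : e ∉ Set.range (algebraMap K D)) :
    ∃ P : Fin 2 → MvPolynomial (Fin (3 + 3)) k,
      (∀ x, gg C h (zf s e x) = algebraMap k K (eval x (P 0)) + s * algebraMap k K (eval x (P 1)) ∧
        gg C (star h) (star (zf s e x)) =
          algebraMap k K (eval x (P 0)) - s * algebraMap k K (eval x (P 1))) ∧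
      (∃ i, P i ≠ 0) ∧ ∀ q, (∀ i, q ∣ P i) → IsUnit q := by
  have hfin := hS.fin
  have hcen := hS.cen
  have hC : SCub C := sCub_of C hdeg hS.star_smul
  have hs0 : s ≠ 0 := hS.s_ne
  have h20 : (2 : K) ≠ 0 := two_ne hS
  have he0 : e ≠ 0 := left_ne_zero_of_mul_eq_one he
  have hi : star e = e⁻¹ := (inv_eq_of_mul_eq_one_right he).symm
  obtain ⟨re, im, hri⟩ := exists_reim hS
  have hz : Pm (k := k) (zf s e) := zf_pm s e
  have hzs : Pm (k := k) fun x => star (zf (k := k) s e x) := by
    have e1 : (fun x => star (zf (k := k) s e x)) = zf (-s) e⁻¹ := funext fun x => star_zf hS he x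
    rw [e1]
    exact zf_pm _ _
  have hgg : Pm (k := k) fun x => gg C h (zf (k := k) s e x) := by
    unfold gg ph de nu
    exact ((pm_T ((Pm.const h).mul ((hz.pow 3).mul ((pm_adj h20 hzs).pow 3)))).pow 3).sub
      ((Pm.const (27 : K)).mul (((pm_N h20 h3 hz).mul ((pm_N h20 h3 hzs).pow 2)).pow 3))
  obtain ⟨P₁, hP₁⟩ := (hgg.lin re).exists_poly
  obtain ⟨P₂, hP₂⟩ := (hgg.lin im).exists_poly
  have hcz : ∀ x : Fin (3 + 3) → k, Commute (zf s e x) (star (zf s e x)) := by
    intro x
    rw [star_zf hS he]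
    exact zf_commute ((zf_commute ((Commute.refl e).inv_right₀).symm x).symm) x
  have h1 : ∀ x, gg C h (zf s e x) =
      algebraMap k K (eval x P₁) + s * algebraMap k K (eval x P₂) := by
    intro x
    rw [← hP₁, ← hP₂]
    exact hri _
  have h2 : ∀ x, gg C (star h) (star (zf s e x)) =
      algebraMap k K (eval x P₁) - s * algebraMap k K (eval x P₂) := by
    intro x
    rw [← star_gg C hC h (hcz x), h1, star_add, star_mul', hS.star_algebraMap,
      hS.star_algebraMap, hS.star_s]
    ring
  refine ⟨![P₁, P₂], fun x => ⟨h1 x, h2 x⟩, ?_⟩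
  obtain ⟨Ω, _, _, _, f, ep, -, htr, hdet, hadj, hep, hfe, hjj⟩ :=
    H14.exists_diag_split_sep C (H14.rcp_separable C hdeg h3 hec)
  have hTh : C.T h ≠ 0 := T_ne_zero C h20 h3 hC hh hN hc
  have hTs : C.T (star h) ≠ 0 := by
    rw [hC.T, Ne, star_eq_zero]
    exact hTh
  let ι : k →+* Ω := (algebraMap K Ω).comp (algebraMap k K)
  have hinv := split_inv f he0 hfe
  have hX : ∀ x : Fin (3 + 3) → k, f (zf s e x) =
      Matrix.diagonal (XX ι (algebraMap K Ω s) ep x) := fun x => split_zf f hfe x
  have hY : ∀ x : Fin (3 + 3) → k, f (star (zf s e x)) =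
      Matrix.diagonal (YY ι (algebraMap K Ω s) ep x) := by
    intro x
    rw [star_zf hS he, split_zf f hinv x]
    congr 1
    funext j
    unfold YY
    refine Finset.sum_congr rfl fun i _ => ?_
    rw [map_neg]
    change (ι _ + -algebraMap K Ω s * ι _) * _ = _
    ring
  have h2Ω : (2 : Ω) ≠ 0 := by
    have : (algebraMap K Ω) 2 ≠ 0 := by
      rw [Ne, map_eq_zero]
      exact h20
    rwa [map_ofNat] at this
  have hsΩ : algebraMap K Ω s ≠ 0 := by rwa [Ne, map_eq_zero]
  have h3' := H321.Cop.cop ι (s := algebraMap K Ω s) (ep := ep) (a := fun j => f h j j)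
    (b := fun j => f (star h) j j) (c := 27) (c' := 27) (P1 := P₁) (P2 := P₂) h2Ω hsΩ hep
    (hjj h fun h => hTh h.1) (hjj (star h) fun h => hTs h.1)
    (fun x => by
      rw [← gg_split C f htr hdet hadj (hX x) (hY x), h1, map_add, map_mul]
      rfl)
    (fun x => by
      rw [← gg_split C f htr hdet hadj (z := star (zf s e x)) (hY x)
        (by rw [star_star]; exact hX x), h2, map_sub, map_mul]
      rfl)
  refine ⟨?_, fun q hq => h3'.2 q (hq 0) (hq 1)⟩
  rcases h3'.1 with h | h
  · exact ⟨0, h⟩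
  · exact ⟨1, h⟩

end poly

end Vale.Agent.P011.H271.S3
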