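import Vale.Agent.P011.H271.PmF
import Vale.Agent.P011.H271.CritF
import Vale.Agent.P011.H271.StarF

/-!
# Continuity of the family of the torus, over function fields
-/

open Module MvPolynomial

set_option linter.unusedSectionVars false

namespace Vale.Agent.P011.H271.S3

open Vale.Agent.P011.H738 Vale.Agent.P011.H271 Vale.Agent.P011.H698 Vale.Agent.P011.H305
open Vale.Agent.P011.H775 Vale.Agent.P011.H948
open Vale.Agent.P011.H182 (na na_nonneg na_add_le na_smul na_mul na_neg na_sub_le coord_le_na)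
open Vale.Agent.P011.H487 (Pm de tz ph gg S_of_unitary star_gg de_ne_zero T_tz tz_norm
  tz_unitary star_ph star_de tz_comm gg_eq_zero gg_zero)

section places

variable {k K : Type} [Field k] [Field K] [Algebra k K]

/-- The places above a finite set. -/
theorem finite_above [GFF k] [GFF K] {S : Set (Place k)} (hS : S.Finite) :
    {V : Place K | ∃ v ∈ S, Ab V v}.Finite := by
  have h1 : ∀ v : Place k, {V : Place K | Ab V v}.Finite := by
    intro v
    obtain ⟨x, hx0, hx⟩ := ConF.exists_small v (γ := 1) one_pos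
    have hx' : algebraMap k K x ≠ 0 := (map_ne_zero _).2 hx0
    refine (place_finite hx').subset fun V hV => ?_
    exact (hV.lt_one hx).ne
  refine (hS.biUnion fun v _ => h1 v).subset ?_
  rintro V ⟨v, hv, h⟩
  exact Set.mem_biUnion hv h

theorem abv_eq_of_lt {V : Place K} {a x : K} (h : V.abv (x - a) < V.abv a) :
    V.abv x = V.abv a := H738.abv_eq_of_close h

variable {m : ℕ}

/-- Quotients of polynomial maps are continuous. -/
theorem cont_div {p q : (Fin m → k) → K} (hp : Pm p) (hq : Pm q) {V : Place K} {v : Place k}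
    (hV : Ab V v) {a : Fin m → k} (hqa : q a ≠ 0) {ε : ℝ} (hε : 0 < ε) :
    ∃ γ : ℝ, 0 < γ ∧ ∀ x : Fin m → k, (∀ j, v.abv (x j - a j) < γ) →
      q x ≠ 0 ∧ V.abv (p x / q x - p a / q a) < ε := by
  have hr : Pm fun x => p x * q a - p a * q x :=
    (hp.mul (Pm.const (q a))).sub ((Pm.const (p a)).mul hq)
  have hqa0 : 0 < V.abv (q a) := V.abv.pos hqa
  obtain ⟨γ, hγ, h1⟩ := cont_abv hr hV a (ε * V.abv (q a) ^ 2) (by positivity)
  obtain ⟨γ', hγ', h2⟩ := cont_abv hq hV a (V.abv (q a)) hqa0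
  refine ⟨min γ γ', lt_min hγ hγ', fun x hx => ?_⟩
  have h3 := h1 x fun j => (hx j).trans_le (min_le_left _ _)
  have h4 := abv_eq_of_lt (h2 x fun j => (hx j).trans_le (min_le_right _ _))
  have hqx : q x ≠ 0 := by
    intro h0
    rw [h0, map_zero] at h4
    exact hqa0.ne h4
  refine ⟨hqx, ?_⟩
  have e : p x / q x - p a / q a = (p x * q a - p a * q x - (p a * q a - p a * q a)) /
      (q x * q a) := by
    field_simp
    ring
  rw [e, map_div₀, map_mul, h4, div_lt_iff₀ (mul_pos hqa0 hqa0)]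
  calc _ < ε * V.abv (q a) ^ 2 := h3
    _ = ε * (V.abv (q a) * V.abv (q a)) := by ring

end places

section family

variable {k K D : Type} [Field k] [Field K] [StarRing K]
  [DivisionRing D] [StarRing D] [Algebra k K] [Algebra k D] [Algebra K D] [IsScalarTower k K D]
  {d : kˣ} {s : K} {N : ℕ}

/-- The family does not change under scaling. -/
theorem tz_smul (hS : SetF k K D d s) (C : Cub K D) {c : k} (hc : c ≠ 0) (z : D) :
    tz C (c • z) = tz C z := by
  have hc' : algebraMap k K c ≠ 0 := (map_ne_zero _).2 hc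
  have hst : star (c • z) = algebraMap k K c • star z := by
    rw [hS.star_smulk, algebraMap_smul]
  have e1 : c • z = algebraMap k K c • z := (algebraMap_smul K c z).symm
  have hde : de C (c • z) = algebraMap k K c ^ 9 * de C z := by
    rw [de, de, hst, e1, C.N_smul, C.N_smul]
    ring
  have hnu : H487.nu C (c • z) = algebraMap k K c ^ 9 • H487.nu C z := by
    rw [H487.nu, H487.nu, hst, e1, C.adj_smul, smul_pow, smul_pow, smul_mul_smul_comm]
    congr 1
    ring
  rw [tz, tz, hde, hnu, smul_smul]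
  congr 1
  field_simp

variable {C : Cub K D} {h e : D}

theorem pm_star (hS : SetF k K D d s) (he : e * star e = 1) :
    Pm (k := k) fun x => star (zf (k := k) s e x) := by
  have e1 : (fun x => star (zf (k := k) s e x)) = zf (-s) e⁻¹ := funext fun x => star_zf hS he x
  rw [e1]
  exact zf_pm _ _

theorem pm_nu (hS : SetF k K D d s) (he : e * star e = 1) :
    Pm (k := k) fun x => H487.nu C (zf (k := k) s e x) := by
  unfold H487.nu
  exact ((zf_pm s e).pow 3).mul ((pm_adj (two_ne hS) (pm_star hS he)).pow 3)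

theorem pm_de (hS : SetF k K D d s) (h3 : (3 : K) ≠ 0) (he : e * star e = 1) :
    Pm (k := k) fun x => de C (zf (k := k) s e x) := by
  unfold de
  exact (pm_N (two_ne hS) h3 (zf_pm s e)).mul ((pm_N (two_ne hS) h3 (pm_star hS he)).pow 2)

theorem pm_de' (hS : SetF k K D d s) (h3 : (3 : K) ≠ 0) (he : e * star e = 1) :
    Pm (k := k) fun x => de C (star (zf (k := k) s e x)) := by
  have h1 := (pm_N (C := C) (two_ne hS) h3 (pm_star (k := k) hS he)).mul
    ((pm_N (C := C) (two_ne hS) h3 (zf_pm (k := k) s e)).pow 2)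
  have e1 : (fun x => de C (star (zf (k := k) s e x))) = fun x =>
      C.N (star (zf (k := k) s e x)) * C.N (zf (k := k) s e x) ^ 2 := funext fun x => by
    rw [de, star_star]
  rw [e1]
  exact h1

theorem pm_ph (hS : SetF k K D d s) (he : e * star e = 1) (x0 : D) :
    Pm (k := k) fun x => ph C x0 (zf (k := k) s e x) := by
  unfold ph
  exact pm_T ((Pm.const x0).mul (pm_nu hS he))

theorem pm_ph' (hS : SetF k K D d s) (he : e * star e = 1) (x0 : D) :
    Pm (k := k) fun x => ph C x0 (star (zf (k := k) s e x)) := by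
  have h1 : Pm (k := k) fun x => C.T (x0 * (star (zf (k := k) s e x) ^ 3 *
      C.adj (zf (k := k) s e x) ^ 3)) :=
    pm_T ((Pm.const x0).mul (((pm_star hS he).pow 3).mul
      ((pm_adj (C := C) (two_ne hS) (zf_pm (k := k) s e)).pow 3)))
  have e1 : (fun x => ph C x0 (star (zf (k := k) s e x))) = fun x =>
      C.T (x0 * (star (zf (k := k) s e x) ^ 3 * C.adj (zf (k := k) s e x) ^ 3)) :=
    funext fun x => by rw [ph, H487.nu, star_star]
  rw [e1]
  exact h1

theorem commute_star (hS : SetF k K D d s) (he : e * star e = 1) (x : Fin (3 + 3) → k) :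
    Commute (zf s e x) (star (zf s e x)) := by
  rw [star_zf hS he]
  exact zf_commute ((zf_commute ((Commute.refl e).inv_right₀).symm x).symm) x

theorem commute_e (hS : SetF k K D d s) (he : e * star e = 1) (x : Fin (3 + 3) → k) :
    Commute e (tz C (zf s e x)) := by
  refine tz_comm C (zf_commute (Commute.refl e) x) ?_
  rw [star_zf hS he]
  exact zf_commute ((Commute.refl e).inv_right₀) x

theorem S_y (hC : SCub C) (hh : h * star h = 1) (hN : C.N h = 1)
    {z : D} (hz : z ≠ 0) (hc : Commute z (star z)) :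
    C.S (h * tz C z) = ph C (star h) (star z) / de C (star z) := by
  have hyN : C.N (h * tz C z) = 1 := by rw [C.N_mul, hN, tz_norm C hz, one_mul]
  have hyU : h * tz C z * star (h * tz C z) = 1 := by
    rw [star_mul, mul_assoc, ← mul_assoc (tz C z), tz_unitary C hC hz hc, one_mul, hh]
  rw [S_of_unitary C hC hyU hyN, T_tz, star_div₀, star_ph C hC h hc, star_de C hC]

theorem ne_of_de {z : D} (hz : de C z ≠ 0) : z ≠ 0 := by
  rintro rfl
  apply hz
  rw [de, C.N_zero, zero_mul]

/-- The trace is continuous along the family. -/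
theorem cont_T (hS : SetF k K D d s) (h3 : (3 : K) ≠ 0) (he : e * star e = 1) {V : Place K}
    {v : Place k} (hV : Ab V v) {a : Fin (3 + 3) → k} (ha : zf s e a ≠ 0) {ε : ℝ} (hε : 0 < ε) :
    ∃ γ : ℝ, 0 < γ ∧ ∀ x : Fin (3 + 3) → k, (∀ j, v.abv (x j - a j) < γ) →
      zf s e x ≠ 0 ∧ V.abv (C.T (h * tz C (zf s e x)) - C.T (h * tz C (zf s e a))) < ε := by
  obtain ⟨γ, hγ, h1⟩ := cont_div (pm_ph (C := C) hS he h) (pm_de (C := C) hS h3 he) hV
    (de_ne_zero C ha) hε
  refine ⟨γ, hγ, fun x hx => ?_⟩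
  obtain ⟨h2, h4⟩ := h1 x hx
  refine ⟨ne_of_de h2, ?_⟩
  rw [T_tz, T_tz]
  exact h4

/-- The second coefficient is continuous along the family. -/
theorem cont_S (hS : SetF k K D d s) (h3 : (3 : K) ≠ 0) (hC : SCub C) (hh : h * star h = 1)
    (hN : C.N h = 1) (he : e * star e = 1) {V : Place K}
    {v : Place k} (hV : Ab V v) {a : Fin (3 + 3) → k} (ha : zf s e a ≠ 0) {ε : ℝ} (hε : 0 < ε) :
    ∃ γ : ℝ, 0 < γ ∧ ∀ x : Fin (3 + 3) → k, (∀ j, v.abv (x j - a j) < γ) →
      V.abv (C.S (h * tz C (zf s e x)) - C.S (h * tz C (zf s e a))) < ε := by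
  have ha' : star (zf s e a) ≠ 0 := by rwa [Ne, star_eq_zero]
  obtain ⟨γ, hγ, h1⟩ := cont_div (pm_ph' (C := C) hS he (star h)) (pm_de' (C := C) hS h3 he) hV
    (de_ne_zero C ha') hε
  refine ⟨γ, hγ, fun x hx => ?_⟩
  obtain ⟨h2, h4⟩ := h1 x hx
  have hx' : zf s e x ≠ 0 := by
    have := ne_of_de h2
    rwa [Ne, star_eq_zero] at this
  rw [S_y hC hh hN hx' (commute_star hS he x), S_y hC hh hN ha (commute_star hS he a)]
  exact h4

/-- **The local condition is open along the family.** -/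
theorem open_y (hS : SetF k K D d s) (h3 : (3 : K) ≠ 0) (hC : SCub C) (hh : h * star h = 1)
    (hN : C.N h = 1) (he : e * star e = 1) {V : Place K}
    {v : Place k} (hV : Ab V v) {a : Fin (3 + 3) → k} (ha : zf s e a ≠ 0) {b : K}
    (hL : LocDF C (h * tz C (zf s e a)) V b) :
    ∃ γ : ℝ, 0 < γ ∧ ∀ x : Fin (3 + 3) → k, (∀ j, v.abv (x j - a j) < γ) →
      LocDF C (h * tz C (zf s e x)) V b := by
  obtain ⟨ε, hε, h1⟩ := hL.open
  obtain ⟨γ, hγ, h2⟩ := cont_T (C := C) (h := h) hS h3 he hV ha hε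
  obtain ⟨γ', hγ', h4⟩ := cont_S hS h3 hC hh hN he hV ha hε
  refine ⟨min γ γ', lt_min hγ hγ', fun x hx => ?_⟩
  have h5 := h2 x fun j => (hx j).trans_le (min_le_left _ _)
  refine h1 _ h5.2 (h4 x fun j => (hx j).trans_le (min_le_right _ _)) ?_
  rw [C.N_mul, C.N_mul, tz_norm C h5.1, tz_norm C ha, sub_self, map_zero]
  exact hε

/-- A large trace stays large. -/
theorem big_y (hS : SetF k K D d s) (h3 : (3 : K) ≠ 0) (he : e * star e = 1) {V : Place K}
    {v : Place k} (hV : Ab V v) {a : Fin (3 + 3) → k} (ha : zf s e a ≠ 0)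
    (hL : 1 < V.abv (C.T (h * tz C (zf s e a)))) :
    ∃ γ : ℝ, 0 < γ ∧ ∀ x : Fin (3 + 3) → k, (∀ j, v.abv (x j - a j) < γ) →
      zf s e x ≠ 0 ∧ 1 < V.abv (C.T (h * tz C (zf s e x))) := by
  obtain ⟨γ, hγ, h2⟩ := cont_T (C := C) (h := h) hS h3 he hV ha (ε := 1) one_pos
  refine ⟨γ, hγ, fun x hx => ?_⟩
  obtain ⟨h4, h5⟩ := h2 x hx
  refine ⟨h4, ?_⟩
  rw [abv_eq_of_lt (h5.trans hL)]
  exact hL

/-- **Points of the family close to one.** -/
theorem near_t (hS : SetF k K D d s) (h3 : (3 : K) ≠ 0) (he : e * star e = 1)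
    (B : Basis (Fin N) k D) (v : Place k) {a : Fin (3 + 3) → k} (ha : zf s e a = 1) {η : ℝ}
    (hη : 0 < η) : ∃ γ : ℝ, 0 < γ ∧ ∀ x : Fin (3 + 3) → k, (∀ j, v.abv (x j - a j) < γ) →
      Sm B v η (tz C (zf s e x) - 1) := by
  obtain ⟨M, hM1, hM⟩ := na_mul B v.abv
  have hM0 : 0 < M := lt_of_lt_of_le one_pos hM1
  have hQ : Pm (k := k) fun x => de C (zf (k := k) s e x) • (1 : D) :=
    (pm_de hS h3 he).smulA (Pm.const 1)
  have hP := pm_nu (C := C) (k := k) hS he
  have hde : de C (1 : D) = 1 := by rw [de, star_one, C.N_one]; ring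
  have hnu : H487.nu C (1 : D) = 1 := by rw [H487.nu, star_one, C.adj_one, one_pow, one_mul]
  have hδ : 0 < min (η / 4) (1 / (2 * M)) := lt_min (by positivity) (by positivity)
  obtain ⟨γ, hγ, h1⟩ := cont_na B hQ v a (min (η / 4) (1 / (2 * M))) hδ
  obtain ⟨γ', hγ', h2⟩ := cont_na B hP v a (η / 4) (by positivity)
  have ha0 : zf s e a ≠ 0 := by rw [ha]; exact one_ne_zero
  obtain ⟨γ'', hγ'', h3'⟩ : ∃ γ'' : ℝ, 0 < γ'' ∧ ∀ x : Fin (3 + 3) → k,
      (∀ j, v.abv (x j - a j) < γ'') → na B v.abv (de C (zf (k := k) s e x) • (1 : D) - 1) <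
        na B v.abv (1 : D) := by
    obtain ⟨γ, hγ, h⟩ := cont_na B hQ v a (na B v.abv (1 : D)) (H182.na_pos B v.abv one_ne_zero)
    refine ⟨γ, hγ, fun x hx => ?_⟩
    have := h x hx
    rwa [ha, hde, one_smul] at this
  refine ⟨min (min γ γ') γ'', lt_min (lt_min hγ hγ') hγ'', fun x hx i => ?_⟩
  have h4 := h1 x fun j => (hx j).trans_le ((min_le_left _ _).trans (min_le_left _ _))
  have h5 := h2 x fun j => (hx j).trans_le ((min_le_left _ _).trans (min_le_right _ _))
  have h6 := h3' x fun j => (hx j).trans_le (min_le_right _ _)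
  rw [ha, hde, one_smul] at h4
  rw [ha, hnu] at h5
  have hd0 : de C (zf s e x) ≠ 0 := by
    intro h0
    rw [h0, zero_smul, zero_sub, na_neg] at h6
    exact lt_irrefl _ h6
  set q := de C (zf s e x) • (1 : D) with hq
  set p := H487.nu C (zf s e x) with hp
  set t := tz C (zf s e x) with ht
  have hqt : q * t = p := by
    rw [hq, ht, tz, smul_mul_assoc, one_mul, smul_smul, mul_inv_cancel₀ hd0, one_smul]
  have e1 : t - 1 = ((p - 1) - (q - 1)) + (-(q - 1)) * (t - 1) := by
    rw [← hqt]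
    noncomm_ring
  have h7 : na B v.abv (t - 1) ≤ (na B v.abv (p - 1) + na B v.abv (q - 1)) +
      M * na B v.abv (q - 1) * na B v.abv (t - 1) := by
    conv_lhs => rw [e1]
    refine (na_add_le _ _ _ _).trans (add_le_add (na_sub_le _ _ _ _) ?_)
    refine (hM _ _).trans ?_
    rw [na_neg]
  have h8 : na B v.abv (q - 1) < 1 / (2 * M) := h4.trans_le (min_le_right _ _)
  have h9 : na B v.abv (q - 1) < η / 4 := h4.trans_le (min_le_left _ _)
  have h10 : M * na B v.abv (q - 1) ≤ 1 / 2 := by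
    rw [lt_div_iff₀ (by positivity)] at h8
    linarith
  have h11 : M * na B v.abv (q - 1) * na B v.abv (t - 1) ≤ 1 / 2 * na B v.abv (t - 1) :=
    mul_le_mul_of_nonneg_right h10 (na_nonneg _ _ _)
  refine lt_of_le_of_lt (coord_le_na B v.abv (t - 1) i) ?_
  linarith

end family

end Vale.Agent.P011.H271.S3
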