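import Vale.Agent.P011.H271.S3aW
import Vale.Agent.P011.H21.Sig

/-!
# The statement `S3a` over function fields, without local hypotheses
-/

open Module

set_option linter.unusedSectionVars false

namespace Vale.Agent.P011.H271.S3

open Vale.Agent.P011.H738 Vale.Agent.P011.H271 Vale.Agent.P011.H698 Vale.Agent.P011.H305
open Vale.Agent.P011.H775 Vale.Agent.P011.H948
open Vale.Agent.P011.H487 (tz)

variable {k K D Ω : Type} [Field k] [Field K] [StarRing K] [DivisionRing D]
  [StarRing D] [Algebra k K] [Algebra k D] [Algebra K D] [IsScalarTower k K D] [StarModule K D]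
  {d : kˣ} {s : K} {N : ℕ} [Field Ω] [Algebra K Ω]

/-- **The statement `S3a` over function fields.** -/
theorem s3a_ff (hk : IsGlobalFunctionField k) (hS : SetF k K D d s) (h3 : (3 : k) ≠ 0)
    (hdeg : finrank K D = 3 ^ 2) (C : Cub K D) (f : D →ₐ[K] Matrix (Fin 3) (Fin 3) Ω)
    (B : Basis (Fin N) k D) : StarF.S3a f B (Adiv k K D) := by
  have hgff : GFF k := gff_of_isGlobal hk
  have hfk : FiniteDimensional k K := Module.finite_of_finrank_pos (by rw [hS.rank]; norm_num)
  have hgK : GFF K := Hey.H63.gff_of_finite (k := k)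
  have hfin := hS.fin
  have hcen := hS.cen
  have hC : SCub C := sCub_of C hdeg hS.star_smul
  have h2 : (2 : K) ≠ 0 := by
    rw [← map_ofNat (algebraMap k K) 2]
    exact (map_ne_zero _).2 hS.two_ne
  exact s3a_of hk hS h3 hdeg C f B
    (fun V e h he hh hV => H21.Sig.exists_sig C hC h2 he hh V hV)
    (fun V V' v h h' => H21.Sig.above_or hS.fix h h')

end Vale.Agent.P011.H271.S3
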