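import Vale.Agent.P011.H271.S3aF
import Vale.Agent.P011.H738.LocDF2
import Vale.Agent.P011.H961.S4F
import Vale.Agent.P011.H775.Inf

/-!
# The statement `S3a` over function fields
-/

open Module

set_option linter.unusedSectionVars false

namespace Vale.Agent.P011.H271.S3

open Vale.Agent.P011.H738 Vale.Agent.P011.H271 Vale.Agent.P011.H698 Vale.Agent.P011.H305
open Vale.Agent.P011.H775 Vale.Agent.P011.H948
open Vale.Agent.P011.H487 (tz)

variable {k K D Ω : Type} [Field k] [Field K] [StarRing K] [DivisionRing D]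
  [StarRing D] [Algebra k K] [Algebra k D] [Algebra K D] [IsScalarTower k K D] [StarModule K D]
  {d : kˣ} {s : K} {N : ℕ} [Field Ω] [Algebra K Ω]

/-- `S3a` over function fields, from the local statement at the places at which `h` is bad and the
description of the places above a place of `k`. -/
theorem s3a_of (hk : IsGlobalFunctionField k) (hS : SetF k K D d s) (h3 : (3 : k) ≠ 0)
    (hdeg : finrank K D = 3 ^ 2) (C : Cub K D) (f : D →ₐ[K] Matrix (Fin 3) (Fin 3) Ω)
    (B : Basis (Fin N) k D)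
    (hsig : ∀ (V : Place K) (e h : D), e * star e = 1 → C.T h ≠ 0 →
      (V.abv (C.N e) < V.abv (C.T e) ^ 3 ∨ V.abv (C.N e) ^ 2 < V.abv (C.S e) ^ 3) →
      ∃ w : D, w ≠ 0 ∧ H487.In K e w ∧ 1 < V.abv (C.T (h * tz C w)))
    (habv : ∀ (V V' : Place K) (v : Place k), Ab V v → Ab V' v →
      (∀ x, V'.abv x ≤ 1 ↔ V.abv x ≤ 1) ∨ (∀ x, V'.abv x ≤ 1 ↔ V.abv (star x) ≤ 1)) :
    StarF.S3a f B (Adiv k K D) := by
  classical
  have hgff : GFF k := gff_of_isGlobal hk
  have hfk : FiniteDimensional k K := Module.finite_of_finrank_pos (by rw [hS.rank]; norm_num)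
  have hgK : GFF K := Hey.H63.gff_of_finite (k := k)
  have hfin := hS.fin
  have hcen := hS.cen
  have hC : SCub C := sCub_of C hdeg hS.star_smul
  have hAn : Anis k K D 3 := hS.anis hdeg
  have h3K : (3 : K) ≠ 0 := by
    rw [← map_ofNat (algebraMap k K) 3]
    exact (map_ne_zero _).2 h3
  have hdet : ∀ x : D, (f x).det = algebraMap K Ω (C.N x) := (C.of_split hdeg f).2.1
  have hss : ∀ c : K, star (algebraMap K D c) = algebraMap K D (star c) := fun c => by
    rw [Algebra.algebraMap_eq_smul_one, hS.star_smul, star_one, ← Algebra.algebraMap_eq_smul_one]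
  have hA : (Adiv k K D).Finite := StarF.adiv_finite hAn (by norm_num)
  have hq : ∀ T : Set (Place k), T.Finite → ∃ q : Place k, q ∉ T := by
    intro T hT
    obtain ⟨q, hq, -⟩ := H519.exists_split_place hk hAn (by norm_num) hT.toFinset 0
    exact ⟨q, fun h => hq (hT.mem_toFinset.2 h)⟩
  have hun : ∀ x : D, x * star x = 1 → ∃ U : UA D, ((U : Dˣ) : D) = x := by
    intro x hx
    have hx0 : x ≠ 0 := left_ne_zero_of_mul_eq_one hx
    exact ⟨⟨Units.mk0 x hx0, hx⟩, rfl⟩
  intro η hη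
  obtain ⟨η', hη', hnear⟩ := norm_near hS h3K C B hA
  refine ⟨η', hη', fun u h hu _ hh => ?_⟩
  have hhN : C.N ((h : Dˣ) : D) = 1 := by
    have h1 := h.2.2
    rw [hdet, ← map_one (algebraMap K Ω)] at h1
    exact (algebraMap K Ω).injective h1
  have hhc : ∀ c : K, ((h : Dˣ) : D) ≠ c • (1 : D) := fun c hc =>
    hh ⟨c, by rw [hc, Algebra.algebraMap_eq_smul_one]⟩
  obtain ⟨t, ht1, htN, htn, ⟨e, he1, he2, he3⟩, ⟨e', he1', he2', he3'⟩⟩ :=
    s3a_core hS h3K hdeg C B hA hq (u := ((u : Dˣ) : D)) (ua_mul_star u) h.2.1 hhN hhc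
      (fun Sg hSg hSgA => by
        obtain ⟨g, hg⟩ := H961.s4F' hk hS hdeg C f hSg.toFinset (fun V hV => by
          obtain ⟨v, hv⟩ := Hey.H63.exists_below (k := k) V
          exact ⟨v, hv, hSgA V (hSg.mem_toFinset.1 hV) v hv⟩) (ua_mul_star u)
        refine ⟨((g : Dˣ) : D), g.2.1, ?_, fun V hV => hg V (hSg.mem_toFinset.2 hV)⟩
        have h1 := g.2.2
        rw [hdet, ← map_one (algebraMap K Ω)] at h1
        exact (algebraMap K Ω).injective h1)
      (fun y b hy hyu hb hall => by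
        refine exists_unitary_N C h3K hdeg hss (fun hcon => ?_) ?_ hb hall
        · obtain ⟨c, hc⟩ := hcon
          exact hy c (by rw [← hc, Algebra.algebraMap_eq_smul_one])
        · have hy0 : y ≠ 0 := left_ne_zero_of_mul_eq_one hyu
          rw [← inv_eq_of_mul_eq_one_right hyu]
          exact (Commute.refl y).inv_left₀)
      (fun V e => hsig V e _) habv (hnear _ hu) hη
  obtain ⟨E, hE⟩ := hun e he1
  obtain ⟨E', hE'⟩ := hun e' he1'
  have ht0 : t ≠ 0 := left_ne_zero_of_mul_eq_one ht1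
  let tt : SUA f := ⟨Units.mk0 t ht0, ht1, by
    change (f t).det = 1
    rw [hdet, htN, map_one]⟩
  refine ⟨tt, htn, ⟨E, ?_, ?_⟩, ⟨E', ?_, ?_⟩⟩
  · apply Units.ext
    rw [Units.val_mul, Units.val_mul, hE]
    exact he2
  · rw [hE, hdet, hdet, he3]
  · apply Units.ext
    rw [Units.val_mul, Units.val_mul, Units.val_mul, hE']
    exact he2'
  · rw [hE', hdet, hdet, he3']

end Vale.Agent.P011.H271.S3
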