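import Vale.Agent.P011.H271.S3aEnd
import Vale.Agent.P011.H738.LocX3

/-!
# The family of the torus over function fields of every odd characteristic
-/

open Module MvPolynomial

set_option linter.unusedSectionVars false

namespace Vale.Agent.P011.H271.S3x

open Vale.Agent.P011.H738 Vale.Agent.P011.H271 Vale.Agent.P011.H305
open Vale.Agent.P011.H775 Vale.Agent.P011.H948 Vale.Agent.P011.H271.S3
open Vale.Agent.P011.H182 (na na_nonneg na_add_le na_smul na_mul na_neg na_sub_le coord_le_na)
open Vale.Agent.P011.H487 (Pm In de tz ph gg S_of_unitary star_gg de_ne_zero T_tz tz_norm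
  tz_unitary star_ph star_de tz_comm gg_eq_zero gg_zero gg_split split_inv)
open Vale.Agent.P011.H321.Cop (GG XX YY)

section pmC

variable {k K D : Type} [Field k] [Field K] [DivisionRing D] [Algebra k K] [Algebra k D]
  [Algebra K D] [IsScalarTower k K D] {C : Cub K D} {m : ℕ}

/-- A linear functional with value one at one. -/
theorem exists_fun (K D : Type) [Field K] [DivisionRing D] [Algebra K D] :
    ∃ φ : D →ₗ[K] K, φ 1 = 1 := by
  obtain ⟨g, hg⟩ := LinearMap.exists_leftInverse_of_injective (Algebra.linearMap K D)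
    (LinearMap.ker_eq_bot.2 (algebraMap K D).injective)
  refine ⟨g, ?_⟩
  have h1 := LinearMap.congr_fun hg 1
  rw [LinearMap.comp_apply, Algebra.linearMap_apply, map_one] at h1
  exact h1

theorem pm_N' {F : (Fin m → k) → D} (h2 : (2 : K) ≠ 0) (hF : Pm F) : Pm fun x => C.N (F x) := by
  obtain ⟨φ, hφ⟩ := exists_fun K D
  have h1 := (hF.mul (pm_adj (C := C) h2 hF)).lin (φ.restrictScalars k)
  have e : (fun x => C.N (F x)) = fun x => (φ.restrictScalars k) (F x * C.adj (F x)) :=
    funext fun x => by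
      rw [C.mul_adj]
      change C.N (F x) = φ (C.N (F x) • (1 : D))
      rw [map_smul, hφ, smul_eq_mul, mul_one]
  rw [e]
  exact h1

end pmC

section trace

variable {K D : Type} [Field K] [StarRing K] [DivisionRing D] [StarRing D]
  [Algebra K D] (C : Cub K D)

/-- The trace of a noncentral special unitary element is not zero. -/
theorem T_ne_zero' (h20 : (2 : K) ≠ 0) (h : SCub C) {x : D}
    (hx : x * star x = 1) (hN : C.N x = 1) (hc : ∀ c : K, x ≠ c • (1 : D)) : C.T x ≠ 0 := by
  by_cases h30 : (3 : K) = 0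
  swap
  · exact T_ne_zero C h20 h30 h hx hN hc
  intro h0
  have hS : C.S x = 0 := by rw [S_of_unitary C h hx hN, h0, star_zero]
  have h1 := C.cayley x
  rw [h0, hS, hN, zero_smul, zero_smul, sub_zero, add_zero, one_smul] at h1
  have e3 : ∀ y : D, y + y + y = 0 := by
    intro y
    have : y + y + y = (3 : K) • y := by module
    rw [this, h30, zero_smul]
  have h3 : (x - 1) * ((x - 1) * (x - 1)) = 0 := by
    have e : (x - 1) * ((x - 1) * (x - 1)) =
        (x * x * x - 1) - (x * x + x * x + x * x) + (x + x + x) := by noncomm_ring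
    rw [e, h1, e3, e3, sub_zero, add_zero]
  have h4 : x - 1 = 0 := by
    rcases mul_eq_zero.mp h3 with h | h
    · exact h
    · rcases mul_eq_zero.mp h with h | h <;> exact h
  exact hc 1 (by rw [one_smul]; exact sub_eq_zero.mp h4)

end trace

section poly

variable {k K D : Type} [Field k] [Infinite k] [Field K] [StarRing K]
  [DivisionRing D] [StarRing D] [Algebra k K] [Algebra k D] [Algebra K D] [IsScalarTower k K D]
  {d : kˣ} {s : K}

omit [StarRing K] [StarRing D] in
/-- The reduced polynomial is separable if the trace or the second coefficient does not vanish. -/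
theorem rcp_sep [FiniteDimensional K D] (C : Cub K D) (h9 : finrank K D = 3 ^ 2) {e : D}
    (he : e ∉ Set.range (algebraMap K D)) (h : (3 : K) ≠ 0 ∨ C.T e ≠ 0 ∨ C.S e ≠ 0) :
    (H14.rcp C e).Separable := by
  by_cases h3 : (3 : K) = 0
  swap
  · exact H14.rcp_separable C h9 h3 he
  have hirr : Irreducible (H14.rcp C e) := by
    rw [← H14.minpoly_eq C h9 he]
    exact minpoly.irreducible (Algebra.IsIntegral.isIntegral e)
  rw [Polynomial.separable_iff_derivative_ne_zero hirr]
  intro h0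
  have h2 : (Polynomial.derivative (H14.rcp C e)).coeff 1 = -(2 * C.T e) := by
    rw [Polynomial.coeff_derivative, H14.rcp]
    simp only [Polynomial.coeff_sub, Polynomial.coeff_add, Polynomial.coeff_X_pow,
      Polynomial.coeff_C_mul, Polynomial.coeff_X, Polynomial.coeff_C]
    norm_num
    ring
  have h4 : (Polynomial.derivative (H14.rcp C e)).coeff 0 = C.S e := by
    rw [Polynomial.coeff_derivative, H14.rcp]
    simp only [Polynomial.coeff_sub, Polynomial.coeff_add, Polynomial.coeff_X_pow,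
      Polynomial.coeff_C_mul, Polynomial.coeff_X, Polynomial.coeff_C]
    norm_num
  rw [h0, Polynomial.coeff_zero] at h2 h4
  rcases h with h | h | h
  · exact h h3
  · apply h
    linear_combination (C.T e) * h3 - h2
  · exact h h4.symm

/-- **The two polynomials.** -/
theorem exists_poly' (hS : SetF k K D d s) (hdeg : finrank K D = 3 ^ 2)
    (C : Cub K D) {h e : D} (hh : h * star h = 1) (hN : C.N h = 1)
    (hc : ∀ c : K, h ≠ c • (1 : D))
    (he : e * star e = 1) (hec : e ∉ Set.range (algebraMap K D))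
    (hes : (3 : K) ≠ 0 ∨ C.T e ≠ 0 ∨ C.S e ≠ 0) :
    ∃ P : Fin 2 → MvPolynomial (Fin (3 + 3)) k,
      (∀ x, gg C h (zf s e x) = algebraMap k K (eval x (P 0)) + s * algebraMap k K (eval x (P 1)) ∧
        gg C (star h) (star (zf s e x)) =
          algebraMap k K (eval x (P 0)) - s * algebraMap k K (eval x (P 1))) ∧
      (∃ i, P i ≠ 0) ∧ ∀ q, (∀ i, q ∣ P i) → IsUnit q := by
  have hfin := hS.fin
  have hcen := hS.cen
  have hC : SCub C := sCub_of C hdeg hS.star_smul
  have hs0 : s ≠ 0 := hS.s_ne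
  have h20 : (2 : K) ≠ 0 := two_ne hS
  have he0 : e ≠ 0 := left_ne_zero_of_mul_eq_one he
  have hi : star e = e⁻¹ := (inv_eq_of_mul_eq_one_right he).symm
  obtain ⟨re, im, hri⟩ := exists_reim hS
  have hz : Pm (k := k) (zf s e) := zf_pm s e
  have hzs : Pm (k := k) fun x => star (zf (k := k) s e x) := by
    have e1 : (fun x => star (zf (k := k) s e x)) = zf (-s) e⁻¹ := funext fun x => star_zf hS he x
    rw [e1]
    exact zf_pm _ _
  have hgg : Pm (k := k) fun x => gg C h (zf (k := k) s e x) := by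
    unfold gg ph de H487.nu
    exact ((pm_T ((Pm.const h).mul ((hz.pow 3).mul ((pm_adj h20 hzs).pow 3)))).pow 3).sub
      ((Pm.const (27 : K)).mul (((pm_N' h20 hz).mul ((pm_N' h20 hzs).pow 2)).pow 3))
  obtain ⟨P₁, hP₁⟩ := (hgg.lin re).exists_poly
  obtain ⟨P₂, hP₂⟩ := (hgg.lin im).exists_poly
  have hcz : ∀ x : Fin (3 + 3) → k, Commute (zf s e x) (star (zf s e x)) := by
    intro x
    rw [star_zf hS he]
    exact zf_commute ((zf_commute ((Commute.refl e).inv_right₀).symm x).symm) x
  have h1 : ∀ x, gg C h (zf s e x) =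
      algebraMap k K (eval x P₁) + s * algebraMap k K (eval x P₂) := by
    intro x
    rw [← hP₁, ← hP₂]
    exact hri _
  have h2 : ∀ x, gg C (star h) (star (zf s e x)) =
      algebraMap k K (eval x P₁) - s * algebraMap k K (eval x P₂) := by
    intro x
    rw [← star_gg C hC h (hcz x), h1, star_add, star_mul', hS.star_algebraMap,
      hS.star_algebraMap, hS.star_s]
    ring
  refine ⟨![P₁, P₂], fun x => ⟨h1 x, h2 x⟩, ?_⟩
  obtain ⟨Ω, _, _, _, f, ep, -, htr, hdet, hadj, hep, hfe, hjj⟩ :=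
    H14.exists_diag_split_sep C (rcp_sep C hdeg hec hes)
  have hTh : C.T h ≠ 0 := T_ne_zero' C h20 hC hh hN hc
  have hTs : C.T (star h) ≠ 0 := by
    rw [hC.T, Ne, star_eq_zero]
    exact hTh
  let ι : k →+* Ω := (algebraMap K Ω).comp (algebraMap k K)
  have hinv := split_inv f he0 hfe
  have hX : ∀ x : Fin (3 + 3) → k, f (zf s e x) =
      Matrix.diagonal (XX ι (algebraMap K Ω s) ep x) := fun x => split_zf f hfe x
  have hY : ∀ x : Fin (3 + 3) → k, f (star (zf s e x)) =
      Matrix.diagonal (YY ι (algebraMap K Ω s) ep x) := by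
    intro x
    rw [star_zf hS he, split_zf f hinv x]
    congr 1
    funext j
    unfold YY
    refine Finset.sum_congr rfl fun i _ => ?_
    rw [map_neg]
    change (ι _ + -algebraMap K Ω s * ι _) * _ = _
    ring
  have h2Ω : (2 : Ω) ≠ 0 := by
    have : (algebraMap K Ω) 2 ≠ 0 := by
      rw [Ne, map_eq_zero]
      exact h20
    rwa [map_ofNat] at this
  have hsΩ : algebraMap K Ω s ≠ 0 := by rwa [Ne, map_eq_zero]
  have h3' := H321.Cop.cop ι (s := algebraMap K Ω s) (ep := ep) (a := fun j => f h j j)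
    (b := fun j => f (star h) j j) (c := 27) (c' := 27) (P1 := P₁) (P2 := P₂) h2Ω hsΩ hep
    (hjj h fun h => hTh h.1) (hjj (star h) fun h => hTs h.1)
    (fun x => by
      rw [← gg_split C f htr hdet hadj (hX x) (hY x), h1, map_add, map_mul]
      rfl)
    (fun x => by
      rw [← gg_split C f htr hdet hadj (z := star (zf s e x)) (hY x)
        (by rw [star_star]; exact hX x), h2, map_sub, map_mul]
      rfl)
  refine ⟨?_, fun q hq => h3'.2 q (hq 0) (hq 1)⟩
  rcases h3'.1 with h | h
  · exact ⟨0, h⟩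
  · exact ⟨1, h⟩

end poly

section family

variable {k K D : Type} [Field k] [Field K] [StarRing K]
  [DivisionRing D] [StarRing D] [Algebra k K] [Algebra k D] [Algebra K D] [IsScalarTower k K D]
  {d : kˣ} {s : K} {N : ℕ}

variable {C : Cub K D} {h e : D}

theorem pm_dex (hS : SetF k K D d s) (he : e * star e = 1) :
    Pm (k := k) fun x => de C (zf (k := k) s e x) := by
  unfold de
  exact (pm_N' (two_ne hS) (zf_pm s e)).mul ((pm_N' (two_ne hS) (pm_star hS he)).pow 2)

theorem pm_dex' (hS : SetF k K D d s) (he : e * star e = 1) :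
    Pm (k := k) fun x => de C (star (zf (k := k) s e x)) := by
  have h1 := (pm_N' (C := C) (two_ne hS) (pm_star (k := k) hS he)).mul
    ((pm_N' (C := C) (two_ne hS) (zf_pm (k := k) s e)).pow 2)
  have e1 : (fun x => de C (star (zf (k := k) s e x))) = fun x =>
      C.N (star (zf (k := k) s e x)) * C.N (zf (k := k) s e x) ^ 2 := funext fun x => by
    rw [de, star_star]
  rw [e1]
  exact h1

/-- The trace is continuous along the family. -/
theorem cont_T' (hS : SetF k K D d s) (he : e * star e = 1) {V : Place K}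
    {v : Place k} (hV : Ab V v) {a : Fin (3 + 3) → k} (ha : zf s e a ≠ 0) {ε : ℝ} (hε : 0 < ε) :
    ∃ γ : ℝ, 0 < γ ∧ ∀ x : Fin (3 + 3) → k, (∀ j, v.abv (x j - a j) < γ) →
      zf s e x ≠ 0 ∧ V.abv (C.T (h * tz C (zf s e x)) - C.T (h * tz C (zf s e a))) < ε := by
  obtain ⟨γ, hγ, h1⟩ := cont_div (pm_ph (C := C) hS he h) (pm_dex (C := C) hS he) hV
    (de_ne_zero C ha) hε
  refine ⟨γ, hγ, fun x hx => ?_⟩
  obtain ⟨h2, h4⟩ := h1 x hx
  refine ⟨ne_of_de h2, ?_⟩
  rw [T_tz, T_tz]
  exact h4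

/-- The second coefficient is continuous along the family. -/
theorem cont_S' (hS : SetF k K D d s) (hC : SCub C) (hh : h * star h = 1)
    (hN : C.N h = 1) (he : e * star e = 1) {V : Place K}
    {v : Place k} (hV : Ab V v) {a : Fin (3 + 3) → k} (ha : zf s e a ≠ 0) {ε : ℝ} (hε : 0 < ε) :
    ∃ γ : ℝ, 0 < γ ∧ ∀ x : Fin (3 + 3) → k, (∀ j, v.abv (x j - a j) < γ) →
      V.abv (C.S (h * tz C (zf s e x)) - C.S (h * tz C (zf s e a))) < ε := by
  have ha' : star (zf s e a) ≠ 0 := by rwa [Ne, star_eq_zero]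
  obtain ⟨γ, hγ, h1⟩ := cont_div (pm_ph' (C := C) hS he (star h)) (pm_dex' (C := C) hS he) hV
    (de_ne_zero C ha') hε
  refine ⟨γ, hγ, fun x hx => ?_⟩
  obtain ⟨h2, h4⟩ := h1 x hx
  have hx' : zf s e x ≠ 0 := by
    have := ne_of_de h2
    rwa [Ne, star_eq_zero] at this
  rw [S_y hC hh hN hx' (commute_star hS he x), S_y hC hh hN ha (commute_star hS he a)]
  exact h4

/-- **The local condition is open along the family.** -/
theorem open_y' (hS : SetF k K D d s) (hC : SCub C) (hh : h * star h = 1)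
    (hN : C.N h = 1) (he : e * star e = 1) {V : Place K}
    {v : Place k} (hV : Ab V v) {a : Fin (3 + 3) → k} (ha : zf s e a ≠ 0) {b : K} (hb : b ≠ 0)
    (hc : ∀ c : K, h * tz C (zf s e a) ≠ c • (1 : D))
    (hL : LocX C (h * tz C (zf s e a)) V b) :
    ∃ γ : ℝ, 0 < γ ∧ ∀ x : Fin (3 + 3) → k, (∀ j, v.abv (x j - a j) < γ) →
      LocX C (h * tz C (zf s e x)) V b := by
  have hyU : h * tz C (zf s e a) * star (h * tz C (zf s e a)) = 1 := by
    rw [star_mul, mul_assoc, ← mul_assoc (tz C (zf s e a)),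
      tz_unitary C hC ha (commute_star hS he a), one_mul, hh]
  have hyN : C.N (h * tz C (zf s e a)) = 1 := by rw [C.N_mul, hN, tz_norm C ha, one_mul]
  obtain ⟨ε, hε, h1⟩ := hL.open (Or.inr (Or.inl (T_ne_zero' C (two_ne hS) hC hyU hyN hc))) hb
  obtain ⟨γ, hγ, h2⟩ := cont_T' (C := C) (h := h) hS he hV ha hε
  obtain ⟨γ', hγ', h4⟩ := cont_S' hS hC hh hN he hV ha hε
  refine ⟨min γ γ', lt_min hγ hγ', fun x hx => ?_⟩
  have h5 := h2 x fun j => (hx j).trans_le (min_le_left _ _)
  refine h1 _ _ h5.2 (h4 x fun j => (hx j).trans_le (min_le_right _ _)) ?_ ?_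
  · rw [C.N_mul, C.N_mul, tz_norm C h5.1, tz_norm C ha, sub_self, map_zero]
    exact hε
  · rw [sub_self, map_zero]
    exact hε

/-- A large trace stays large. -/
theorem big_y' (hS : SetF k K D d s) (he : e * star e = 1) {V : Place K}
    {v : Place k} (hV : Ab V v) {a : Fin (3 + 3) → k} (ha : zf s e a ≠ 0)
    (hL : 1 < V.abv (C.T (h * tz C (zf s e a)))) :
    ∃ γ : ℝ, 0 < γ ∧ ∀ x : Fin (3 + 3) → k, (∀ j, v.abv (x j - a j) < γ) →
      zf s e x ≠ 0 ∧ 1 < V.abv (C.T (h * tz C (zf s e x))) := by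
  obtain ⟨γ, hγ, h2⟩ := cont_T' (C := C) (h := h) hS he hV ha (ε := 1) one_pos
  refine ⟨γ, hγ, fun x hx => ?_⟩
  obtain ⟨h4, h5⟩ := h2 x hx
  refine ⟨h4, ?_⟩
  rw [abv_eq_of_lt (h5.trans hL)]
  exact hL

/-- **The criterion at the places outside the exceptional set.** -/
theorem crit' [GFF K] (h : SCub C) (V : Place K) {x z : D}
    (hx : x * star x = 1) (hxN : C.N x = 1) (hz : z ≠ 0) (hc : Commute z (star z)) {b : K}
    (hb : V.abv b = 1) (hN1 : V.abv (C.N z) ≤ 1)
    (hN2 : V.abv (C.N (star z)) ≤ 1) (hp1 : V.abv (ph C x z) ≤ 1)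
    (hp2 : V.abv (ph C (star x) (star z)) ≤ 1)
    (hG : 1 ≤ V.abv (gg C x z) ∨ 1 ≤ V.abv (gg C (star x) (star z))) :
    LocX C (x * tz C z) V b := by
  have hzs : star z ≠ 0 := by rwa [Ne, star_eq_zero]
  have hyN : C.N (x * tz C z) = 1 := by rw [C.N_mul, hxN, tz_norm C hz, one_mul]
  have hyU : x * tz C z * star (x * tz C z) = 1 := by
    rw [star_mul, mul_assoc, ← mul_assoc (tz C z), tz_unitary C h hz hc, one_mul, hx]
  have hT := T_tz C x z
  have hS : C.S (x * tz C z) = ph C (star x) (star z) / de C (star z) := by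
    rw [S_of_unitary C h hyU hyN, hT, star_div₀, star_ph C h x hc, star_de C h]
  have hnn : ∀ c : K, 0 ≤ V.abv c := fun c => V.abv.nonneg c
  have hd1 : V.abv (de C z) ≤ 1 := by
    rw [de, map_mul, map_pow]
    exact mul_le_one₀ hN1 (pow_nonneg (hnn _) 2) (pow_le_one₀ (hnn _) hN2)
  have hd2 : V.abv (de C (star z)) ≤ 1 := by
    rw [de, map_mul, map_pow, star_star]
    exact mul_le_one₀ hN2 (pow_nonneg (hnn _) 2) (pow_le_one₀ (hnn _) hN1)
  have hNN : V.abv (de C z) = 1 ↔ V.abv (de C (star z)) = 1 := by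
    have key : ∀ a c : ℝ, 0 ≤ a → 0 ≤ c → a ≤ 1 → c ≤ 1 → a * c ^ 2 = 1 → a = 1 ∧ c = 1 := by
      intro a c ha0 hc0 ha hc' h4
      have h5 : c = 1 := by
        refine le_antisymm hc' ?_
        by_contra hcon
        rw [not_le] at hcon
        have h6 : a * c ^ 2 < 1 :=
          (mul_le_of_le_one_left (pow_nonneg hc0 2) ha).trans_lt
            (pow_lt_one₀ hc0 hcon (by norm_num))
        exact absurd h4 h6.ne
      rw [h5, one_pow, mul_one] at h4
      exact ⟨h4, h5⟩
    rw [de, de, map_mul, map_mul, map_pow, map_pow, star_star]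
    constructor
    · intro h4
      obtain ⟨h5, h6⟩ := key _ _ (hnn _) (hnn _) hN1 hN2 h4
      rw [h5, h6]
      norm_num
    · intro h4
      obtain ⟨h5, h6⟩ := key _ _ (hnn _) (hnn _) hN2 hN1 h4
      rw [h5, h6]
      norm_num
  have hyN1 : V.abv (C.N (x * tz C z)) ≤ 1 := by rw [hyN, map_one]
  rcases hG with hG | hG
  · rcases crit_half V (de_ne_zero C hz) hT hp1 hd1 hG with ⟨h4, h5, h6⟩ | h4
    · refine LocX.of_not_cube h5 ?_ hyN1 hb ?_
      · rw [hS, map_div₀, hNN.mp h4, div_one]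
        exact hp2
      · rintro ⟨c, hc1, hc2, -, hc4⟩
        rw [hyN] at hc4
        exact absurd h6 (not_le.mpr (cube_near V hc1 h5 hc2 hc4))
    · exact LocX.of_big hyN (Or.inl h4)
  · rcases crit_half V (de_ne_zero C hzs) hS hp2 hd2 hG with ⟨h4, h5, h6⟩ | h4
    · refine LocX.of_not_cube ?_ h5 hyN1 hb ?_
      · rw [hT, map_div₀, hNN.mpr h4, div_one]
        exact hp1
      · rintro ⟨c, hc1, -, hc3, hc4⟩
        rw [hyN] at hc4
        refine absurd h6 (not_le.mpr (cube_near V (c := c ^ 2) ?_ h5 hc3 ?_))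
        · rw [map_pow]
          exact pow_le_one₀ (hnn _) hc1
        · have e : 1 - (c ^ 2) ^ 3 = (1 - c ^ 3) * (1 + c ^ 3) := by ring
          rw [e, map_mul]
          refine (mul_le_of_le_one_right (hnn _) ?_).trans_lt hc4
          refine (V.nonarch _ _).trans (max_le (by rw [map_one]) ?_)
          rw [map_pow]
          exact pow_le_one₀ (hnn _) hc1
    · exact LocX.of_big hyN (Or.inr h4)

end family

end Vale.Agent.P011.H271.S3x
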