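import Vale.Agent.P011.H271.S3xA

/-!
# The core of `S3a` over function fields of every odd characteristic
-/

open Module MvPolynomial

set_option linter.unusedSectionVars false

namespace Vale.Agent.P011.H271.S3x

open Vale.Agent.P011.H698 (Sm)
open Vale.Agent.P011.H738 Vale.Agent.P011.H271 Vale.Agent.P011.H305
open Vale.Agent.P011.H775 Vale.Agent.P011.H948 Vale.Agent.P011.H271.S3
open Vale.Agent.P011.H487 (Pm de tz ph gg S_of_unitary star_gg de_ne_zero T_tz tz_norm
  tz_unitary star_ph star_de tz_comm gg_eq_zero gg_zero)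

variable {k K D Ω : Type} [Field k] [GFF k] [Field K] [GFF K] [StarRing K] [DivisionRing D]
  [StarRing D] [Algebra k K] [Algebra k D] [Algebra K D] [IsScalarTower k K D]
  {d : kˣ} {s : K} {N : ℕ} [Field Ω] [Algebra K Ω]

/-- **The core**, for a given torus. -/
theorem core (hS : SetF k K D d s) (hdeg : finrank K D = 3 ^ 2)
    (C : Cub K D) (B : Basis (Fin N) k D) {A : Set (Place k)} (hA : A.Finite)
    (hq : ∀ T : Set (Place k), T.Finite → ∃ q : Place k, q ∉ T)
    {h e : D} (hh : h * star h = 1) (hN : C.N h = 1)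
    (hc : ∀ c : K, h ≠ c • (1 : D)) (he : e * star e = 1)
    (hec : e ∉ Set.range (algebraMap K D)) (hes : (3 : K) ≠ 0 ∨ C.T e ≠ 0 ∨ C.S e ≠ 0)
    (hslope : ∀ V : Place K, ¬ LocX C h V (C.N e) → (∀ v : Place k, Ab V v → v ∉ A) →
      (V.abv (C.N e) < V.abv (C.T e) ^ 3 ∨ V.abv (C.N e) ^ 2 < V.abv (C.S e) ^ 3))
    (hS2 : ∀ (y : D) (b : K), H929.dP C y ≠ 0 → y * star y = 1 → b * star b = 1 →
      (∀ V : Place K, LocX C y V b) → ∃ e : D, e * star e = 1 ∧ Commute e y ∧ C.N e = b)
    (hsig : ∀ (V : Place K) (e : D), e * star e = 1 → C.T h ≠ 0 →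
      (V.abv (C.N e) < V.abv (C.T e) ^ 3 ∨ V.abv (C.N e) ^ 2 < V.abv (C.S e) ^ 3) →
      ∃ w : D, w ≠ 0 ∧ H487.In K e w ∧ 1 < V.abv (C.T (h * tz C w)))
    (habv : ∀ (V V' : Place K) (v : Place k), Ab V v → Ab V' v →
      (∀ x, V'.abv x ≤ 1 ↔ V.abv x ≤ 1) ∨ (∀ x, V'.abv x ≤ 1 ↔ V.abv (star x) ≤ 1))
    {η : ℝ}
    (htA : ∀ v ∈ A, ∃ (a : Fin (3 + 3) → k) (γ : ℝ), 0 < γ ∧
      ∀ x : Fin (3 + 3) → k, (∀ j, v.abv (x j - a j) < γ) →
        Sm B v η (tz C (zf s e x) - 1) ∧
        ∀ V : Place K, Ab V v → LocX C (h * tz C (zf s e x)) V (C.N e)) :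
    ∃ t : D, t * star t = 1 ∧ C.N t = 1 ∧ (∀ v ∈ A, Sm B v η (t - 1)) ∧ Commute e t ∧
      ∃ e' : D, e' * star e' = 1 ∧ Commute e' (h * t) ∧ C.N e' = C.N e := by
  classical
  have hfin := hS.fin
  have hcen := hS.cen
  have hC : SCub C := sCub_of C hdeg hS.star_smul
  have hfdk : FiniteDimensional k K := Module.finite_of_finrank_pos (by rw [hS.rank]; norm_num)
  have h20 : (2 : K) ≠ 0 := two_ne hS
  have hs0 : s ≠ 0 := hS.s_ne
  obtain ⟨b, hb⟩ : ∃ b : K, b = C.N e := ⟨_, rfl⟩
  rw [← hb] at hslope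
  rw [← hb] at htA
  rw [← hb]
  have hbb : b * star b = 1 := by
    rw [hb, ← hC.N, ← C.N_mul, he, C.N_one]
  have hb0 : b ≠ 0 := left_ne_zero_of_mul_eq_one hbb
  have hTh : C.T h ≠ 0 := T_ne_zero' C h20 hC hh hN hc
  have hdP : ∀ y : D, y * star y = 1 → C.N y = 1 → (∀ c : K, y ≠ c • (1 : D)) →
      H929.dP C y ≠ 0 := by
    intro y hyU hyN hyc
    refine dP_ne_of ?_ (Or.inr (Or.inl (T_ne_zero' C h20 hC hyU hyN hyc)))
    rintro ⟨c, hcy⟩
    exact hyc c (by rw [← hcy, Algebra.algebraMap_eq_smul_one])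
  -- the bad places
  set Sg : Set (Place K) := {V | ¬ LocX C h V b} with hSg
  have hSgf : Sg.Finite := LocX.finite (hdP h hh hN hc) hb0
  have hinf : Infinite k := by
    obtain ⟨q, -⟩ := hq ∅ Set.finite_empty
    exact NeFF.infinite_of_place q
  obtain ⟨P, hP, ⟨i0, hi0⟩, hcop⟩ := exists_poly' hS hdeg C hh hN hc he hec hes
  obtain ⟨x1, hx1⟩ : ∃ x1 : Fin (3 + 3) → k, eval x1 (P i0) ≠ 0 := by
    by_contra hcon
    push Not at hcon
    exact hi0 (MvPolynomial.funext fun x => by rw [hcon x, map_zero])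
  -- the exceptional set
  have hm1 := finite_pm (K := K) (pm_N' (C := C) h20 (zf_pm (k := k) s e))
  have hm2 := finite_pm (K := K) (pm_N' (C := C) h20 (pm_star (k := k) hS he))
  have hm3 := finite_pm (K := K) (pm_ph (C := C) (k := k) hS he h)
  have hm4 := finite_pm (K := K) (pm_ph' (C := C) (k := k) hS he (star h))
  have hm5 : {v : Place k | ∃ j, 1 < v.abv (x1 j)}.Finite := by
    have : {v : Place k | ∃ j, 1 < v.abv (x1 j)} = ⋃ j, {v : Place k | 1 < v.abv (x1 j)} := by
      ext v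
      simp
    rw [this]
    exact Set.finite_iUnion fun j => finite_gt _
  have hm6 : {v : Place k | v.abv (eval x1 (P i0)) ≠ 1}.Finite := place_finite hx1
  have hm7 := finite_below (k := k) hSgf
  have hm8 := finite_below (k := k) (place_finite (k := K) hb0)
  have hm9 := finite_below (k := k) (place_finite (k := K) h20)
  have hm10 := finite_below (k := k) (place_finite (k := K) hs0)
  set T1 : Set (Place k) := A ∪ ({v : Place k | ∃ V : Place K, Ab V v ∧
      ∃ x : Fin (3 + 3) → k, (∀ j, v.abv (x j) ≤ 1) ∧ 1 < V.abv (C.N (zf s e x))} ∪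
    ({v : Place k | ∃ V : Place K, Ab V v ∧
      ∃ x : Fin (3 + 3) → k, (∀ j, v.abv (x j) ≤ 1) ∧ 1 < V.abv (C.N (star (zf s e x)))} ∪
    ({v : Place k | ∃ V : Place K, Ab V v ∧
      ∃ x : Fin (3 + 3) → k, (∀ j, v.abv (x j) ≤ 1) ∧ 1 < V.abv (ph C h (zf s e x))} ∪
    ({v : Place k | ∃ V : Place K, Ab V v ∧ ∃ x : Fin (3 + 3) → k, (∀ j, v.abv (x j) ≤ 1) ∧
        1 < V.abv (ph C (star h) (star (zf s e x)))} ∪
    ({v : Place k | ∃ j, 1 < v.abv (x1 j)} ∪ ({v : Place k | v.abv (eval x1 (P i0)) ≠ 1} ∪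
    ({v : Place k | ∃ V ∈ Sg, Ab V v} ∪
    ({v : Place k | ∃ V ∈ {V : Place K | V.abv b ≠ 1}, Ab V v} ∪
    ({v : Place k | ∃ V ∈ {V : Place K | V.abv 2 ≠ 1}, Ab V v} ∪
    {v : Place k | ∃ V ∈ {V : Place K | V.abv s ≠ 1}, Ab V v}))))))))) with hT1
  have hT1f : T1.Finite := hA.union (hm1.union (hm2.union (hm3.union (hm4.union (hm5.union
    (hm6.union (hm7.union (hm8.union (hm9.union hm10)))))))))
  obtain ⟨q₀, hq₀⟩ := hq T1 hT1f
  -- the point one
  set a0 : Fin (3 + 3) → k := fun j => if j = 0 then 1 else 0 with ha0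
  have hza0 : zf s e a0 = 1 := zf_one s e
  have hza0' : zf s e a0 ≠ 0 := by rw [hza0]; exact one_ne_zero
  have htz1 : tz C (1 : D) = 1 := by
    rw [tz, de, H487.nu, star_one, C.adj_one, C.N_one]
    simp
  have hloc1 : ∀ v : Place k, v ∉ {v : Place k | ∃ V ∈ Sg, Ab V v} → ∃ γ : ℝ, 0 < γ ∧
      ∀ V : Place K, Ab V v → ∀ x : Fin (3 + 3) → k, (∀ j, v.abv (x j - a0 j) < γ) →
        LocX C (h * tz C (zf s e x)) V b := by
    intro v hv
    obtain ⟨γ, hγ, h1⟩ := exists_min_pos (finite_above (K := K) (Set.finite_singleton v))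
      (P := fun V γ => ∀ x : Fin (3 + 3) → k, (∀ j, v.abv (x j - a0 j) < γ) →
        LocX C (h * tz C (zf s e x)) V b)
      (fun V γ γ' hγ h x hx => h x fun j => (hx j).trans_le hγ) (by
        rintro V ⟨v', hv', hV⟩
        rw [Set.mem_singleton_iff] at hv'
        subst hv'
        refine open_y' hS hC hh hN he hV hza0' hb0 ?_ ?_
        · rw [hza0, htz1, mul_one]
          exact hc
        · rw [hza0, htz1, mul_one]
          by_contra hcon
          exact hv ⟨V, hcon, hV⟩)
    exact ⟨γ, hγ, fun V hV => h1 V ⟨v, rfl, hV⟩⟩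
  have htar : ∀ v : Place k, ∃ (a : Fin (3 + 3) → k) (γ : ℝ), 0 < γ ∧
      ∀ x : Fin (3 + 3) → k, (∀ j, v.abv (x j - a j) < γ) →
        (v ∈ A → Sm B v η (tz C (zf s e x) - 1)) ∧
        ∀ V : Place K, Ab V v → LocX C (h * tz C (zf s e x)) V b := by
    intro v
    by_cases hvA : v ∈ A
    · obtain ⟨a, γ, hγ, h1⟩ := htA v hvA
      exact ⟨a, γ, hγ, fun x hx => ⟨fun _ => (h1 x hx).1, (h1 x hx).2⟩⟩
    by_cases hvS : v ∈ {v : Place k | ∃ V ∈ Sg, Ab V v}
    · obtain ⟨V0, hV0, hV0v⟩ := hvS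
      obtain ⟨w, hw0, hwI, hw⟩ := hsig V0 e he hTh (by
        rw [← hb]
        refine hslope V0 hV0 fun v' hv' => ?_
        rw [below_unique hv' hV0v]
        exact hvA)
      obtain ⟨a, ha⟩ := zf_surj hS hwI
      have ha0' : zf s e a ≠ 0 := by rwa [ha]
      obtain ⟨γ, hγ, h1⟩ := big_y' (C := C) (h := h) hS he hV0v ha0' (by rw [ha]; exact hw)
      refine ⟨a, γ, hγ, fun x hx => ⟨fun hv => (hvA hv).elim, fun V hV => ?_⟩⟩
      obtain ⟨hx0, hbig⟩ := h1 x hx
      have hcx := commute_star hS he x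
      have hyN : C.N (h * tz C (zf s e x)) = 1 := by rw [C.N_mul, hN, tz_norm C hx0, one_mul]
      have hyU : h * tz C (zf s e x) * star (h * tz C (zf s e x)) = 1 := by
        rw [star_mul, mul_assoc, ← mul_assoc (tz C (zf s e x)), tz_unitary C hC hx0 hcx,
          one_mul, hh]
      rcases habv V0 V v hV0v hV with h2 | h2
      · refine LocX.of_big hyN (Or.inl ?_)
        by_contra hcon
        exact absurd hbig (not_lt.2 ((h2 _).1 (not_lt.1 hcon)))
      · refine LocX.of_big hyN (Or.inr ?_)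
        by_contra hcon
        have h4 := (h2 _).1 (not_lt.1 hcon)
        rw [S_of_unitary C hC hyU hyN, star_star] at h4
        exact absurd hbig (not_lt.2 h4)
    · obtain ⟨γ, hγ, h1⟩ := hloc1 v hvS
      exact ⟨a0, γ, hγ, fun x hx => ⟨fun hv => (hvA hv).elim, fun V hV => h1 V hV x hx⟩⟩
  choose a γ hγ hnear using htar
  have hq0S : q₀ ∉ {v : Place k | ∃ V ∈ Sg, Ab V v} := by
    intro h1
    apply hq₀
    rw [hT1]
    simp only [Set.mem_union]
    tauto
  obtain ⟨γ0, hγ0, hqloc⟩ := hloc1 q₀ hq0S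
  obtain ⟨x, hxT, hxint, hxP, hx0, -, hxdom⟩ := avoid6 q₀ P hcop (P i0) hi0 hT1f.toFinset
    (fun h1 => hq₀ (hT1f.mem_toFinset.1 h1)) a γ (fun v _ => hγ v) (by
      intro v hv hvq
      have hv' : v ∉ T1 := fun h1 => hv (hT1f.mem_toFinset.2 h1)
      rw [hT1] at hv'
      simp only [Set.mem_union, not_or] at hv'
      obtain ⟨-, -, -, -, -, h5, h6, -⟩ := hv'
      refine ⟨x1, fun j => ?_, i0, ?_⟩
      · by_contra hcon
        exact h5 ⟨j, not_le.1 hcon⟩
      · by_contra hcon
        exact h6 fun h1 => hcon h1.ge) γ0⁻¹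
  set z : D := zf s e x with hz'
  have hgg : gg C h z ≠ 0 := by
    intro h0
    have hcz : Commute z (star z) := commute_star hS he x
    have h1 := (hP x).1
    have h2 := (hP x).2
    have h4 : gg C (star h) (star z) = 0 := by
      rw [← star_gg C hC h hcz, h0, star_zero]
    rw [← hz', h0] at h1
    rw [← hz', h4] at h2
    have h5 : algebraMap k K (eval x (P 0)) = 0 := by
      have : (2 : K) * algebraMap k K (eval x (P 0)) = 0 := by linear_combination -h1 - h2
      rcases mul_eq_zero.mp this with h | h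
      · exact absurd h h20
      · exact h
    have h6 : algebraMap k K (eval x (P 1)) = 0 := by
      rw [h5, zero_add] at h1
      rcases mul_eq_zero.mp h1.symm with h | h
      · exact absurd h hs0
      · exact h
    rw [map_eq_zero] at h5 h6
    have : i0 = 0 ∨ i0 = 1 := by
      rcases i0 with ⟨_ | _ | i, hi⟩
      · exact Or.inl rfl
      · exact Or.inr rfl
      · omega
    rcases this with h | h
    · rw [h] at hx0
      exact hx0 h5
    · rw [h] at hx0
      exact hx0 h6
  have hz0 : z ≠ 0 := by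
    intro h0
    apply hgg
    rw [h0]
    exact gg_zero C
  have hcz : Commute z (star z) := commute_star hS he x
  have htu : tz C z * star (tz C z) = 1 := tz_unitary C hC hz0 hcz
  have htN : C.N (tz C z) = 1 := tz_norm C hz0
  have hyc : ∀ c : K, h * tz C z ≠ c • (1 : D) := fun c hcon =>
    hgg (gg_eq_zero C hz0 hN hcon)
  have hyU : h * tz C z * star (h * tz C z) = 1 := by
    rw [star_mul, mul_assoc, ← mul_assoc (tz C z), htu, one_mul, hh]
  have hall : ∀ V : Place K, LocX C (h * tz C z) V b := by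
    intro V
    obtain ⟨v, hV⟩ := Hey.H63.exists_below (k := k) V
    have hV' : Ab V v := hV
    by_cases hvT : v ∈ T1
    · exact (hnear v x (hxT v (hT1f.mem_toFinset.2 hvT))).2 V hV'
    by_cases hvq : v = q₀
    · subst hvq
      have hx00 : x 0 ≠ 0 := by
        intro h0
        have h1 := hxdom 1 (by decide)
        rw [h0, map_zero] at h1
        have h2 : 0 ≤ γ0⁻¹ * v.abv (x 1) := mul_nonneg (inv_nonneg.2 hγ0.le) (v.abv.nonneg _)
        exact absurd h1 (not_lt.2 h2)
      have h1 := hqloc V hV' (fun j => (x 0)⁻¹ * x j) fun j => by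
        by_cases hj : j = 0
        · rw [hj, ha0]
          simp only [if_true]
          rw [inv_mul_cancel₀ hx00, sub_self, map_zero]
          exact hγ0
        · have h2 := hxdom j hj
          rw [ha0]
          simp only [if_neg hj]
          rw [sub_zero, map_mul, map_inv₀]
          have h4 : 0 < v.abv (x 0) := v.abv.pos hx00
          rw [inv_mul_lt_iff₀ h4]
          rw [inv_mul_lt_iff₀ hγ0] at h2
          linarith
      rw [zf_smul, tz_smul hS C (inv_ne_zero hx00)] at h1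
      exact h1
    · have hvT' : v ∉ hT1f.toFinset := fun h1 => hvT (hT1f.mem_toFinset.1 h1)
      have hint := hxint v hvT' hvq
      obtain ⟨i, hi⟩ := hxP v hvT' hvq
      rw [hT1] at hvT
      simp only [Set.mem_union, not_or] at hvT
      obtain ⟨-, h1, h2, h4, h5, -, -, -, h8, h9, h10⟩ := hvT
      have key : ∀ F : (Fin (3 + 3) → k) → K, v ∉ {v : Place k | ∃ V : Place K, Ab V v ∧
          ∃ x : Fin (3 + 3) → k, (∀ j, v.abv (x j) ≤ 1) ∧ 1 < V.abv (F x)} →
          V.abv (F x) ≤ 1 := by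
        intro F hF
        by_contra hcon
        exact hF ⟨V, hV', x, hint, not_le.1 hcon⟩
      have key2 : ∀ c : K, v ∉ {v : Place k | ∃ V ∈ {V : Place K | V.abv c ≠ 1}, Ab V v} →
          V.abv c = 1 := by
        intro c hc'
        by_contra hcon
        exact hc' ⟨V, hcon, hV'⟩
      have hb1 := key2 _ h8
      have h21 := key2 _ h9
      have hs1 := key2 _ h10
      refine crit' hC V hh hN hz0 hcz hb1 (key _ h1) (key _ h2) (key _ h4) (key _ h5) ?_
      by_contra hcon
      rw [not_or, not_le, not_le] at hcon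
      obtain ⟨hc1, hc2⟩ := hcon
      have e1 := (hP x).1
      have e2 := (hP x).2
      rw [← hz'] at e1 e2
      have h6 : V.abv (algebraMap k K (eval x (P 0))) < 1 := by
        have e3 : 2 * algebraMap k K (eval x (P 0)) = gg C h z + gg C (star h) (star z) := by
          rw [e1, e2]
          ring
        have e4 := congrArg V.abv e3
        rw [map_mul, h21, one_mul] at e4
        rw [e4]
        exact (V.nonarch _ _).trans_lt (max_lt hc1 hc2)
      have h7 : V.abv (algebraMap k K (eval x (P 1))) < 1 := by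
        have e3 : 2 * (s * algebraMap k K (eval x (P 1))) =
            gg C h z + -gg C (star h) (star z) := by
          rw [e1, e2]
          ring
        have e4 := congrArg V.abv e3
        rw [map_mul, h21, one_mul, map_mul, hs1, one_mul] at e4
        rw [e4]
        exact (V.nonarch _ _).trans_lt (max_lt hc1 (by rwa [V.abv.map_neg]))
      have h11 := hV'.one_le hi
      have : i = 0 ∨ i = 1 := by
        rcases i with ⟨_ | _ | i, hi⟩
        · exact Or.inl rfl
        · exact Or.inr rfl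
        · omega
      rcases this with h | h
      · rw [h] at h11
        exact absurd h6 (not_lt.2 h11)
      · rw [h] at h11
        exact absurd h7 (not_lt.2 h11)
  obtain ⟨e', he1, he2, he3⟩ := hS2 _ b (hdP _ hyU (by rw [C.N_mul, hN, htN, one_mul]) hyc)
    hyU hbb hall
  refine ⟨tz C z, htu, htN, fun v hv => ?_, commute_e hS he x, e', he1, he2, he3⟩
  have hvT : v ∈ T1 := by
    rw [hT1]
    exact Or.inl hv
  exact (hnear v x (hxT v (hT1f.mem_toFinset.2 hvT))).1 hv

end Vale.Agent.P011.H271.S3x
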