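import Vale.Agent.P011.H271.S3xB
import Vale.Agent.P011.H973.AbovePl

/-!
# The targets at the places of `A` for `S3a` over function fields of every odd characteristic
-/

open Module MvPolynomial

set_option linter.unusedSectionVars false

namespace Vale.Agent.P011.H271.S3x

open Vale.Agent.P011.H698 (Sm)
open Vale.Agent.P011.H738 Vale.Agent.P011.H271 Vale.Agent.P011.H305
open Vale.Agent.P011.H775 Vale.Agent.P011.H948 Vale.Agent.P011.H271.S3
open Vale.Agent.P011.H182 (na na_nonneg na_add_le na_smul na_mul na_neg na_sub_le coord_le_na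
  na_pos)
open Vale.Agent.P011.H487 (Pm de tz ph gg S_of_unitary star_gg de_ne_zero T_tz tz_norm
  tz_unitary star_ph star_de tz_comm gg_eq_zero gg_zero tz_one_add)

variable {k K D : Type} [Field k] [Field K] [StarRing K] [DivisionRing D]
  [StarRing D] [Algebra k K] [Algebra k D] [Algebra K D] [IsScalarTower k K D]
  {d : kˣ} {s : K} {N : ℕ}

/-- The point with given coordinates. -/
theorem pm_pt (B : Basis (Fin N) k D) : Pm (k := k) fun x : Fin N → k => ∑ i, x i • B i :=
  Pm.sum _ fun i _ => Pm.coord i (B i)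

/-- Coordinates and the norm. -/
theorem na_of_coord (B : Basis (Fin N) k D) (v : Place k) {ε : ℝ} (hε : 0 < ε) :
    ∃ γ : ℝ, 0 < γ ∧ ∀ y : D, (∀ i, v.abv (B.repr y i) < γ) → na B v.abv y < ε := by
  obtain ⟨γ, hγ, h⟩ := cont_na B (pm_pt B) v (fun _ => (0 : k)) ε hε
  refine ⟨γ, hγ, fun y hy => ?_⟩
  have h1 := h (fun i => B.repr y i) fun i => by
    rw [sub_zero]
    exact hy i
  simp only [B.sum_repr, zero_smul, Finset.sum_const_zero, sub_zero] at h1
  exact h1

theorem pm_starD (hS : SetF k K D d s) {m : ℕ} {F : (Fin m → k) → D} (hF : Pm F) :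
    Pm fun x => star (F x) := by
  let L : D →ₗ[k] D :=
    { toFun := star, map_add' := star_add, map_smul' := fun c x => hS.star_smulk c x }
  exact hF.lin L

/-- **The family is continuous.** -/
theorem tz_near (hS : SetF k K D d s) (C : Cub K D) (B : Basis (Fin N) k D) (v : Place k) {z0 : D}
    (hz0 : z0 ≠ 0) {η : ℝ} (hη : 0 < η) :
    ∃ δ : ℝ, 0 < δ ∧ ∀ z : D, (∀ i, v.abv (B.repr (z - z0) i) < δ) →
      z ≠ 0 ∧ na B v.abv (tz C z - tz C z0) < η := by
  have h20 := two_ne hS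
  obtain ⟨M, hM1, hM⟩ := na_mul B v.abv
  have hM0 : 0 < M := lt_of_lt_of_le one_pos hM1
  have hF := pm_pt (k := k) B
  have hFs := pm_starD hS hF
  have hP : Pm (k := k) fun x : Fin N → k => H487.nu C (∑ i, x i • B i) := by
    unfold H487.nu
    exact (hF.pow 3).mul ((pm_adj (C := C) h20 hFs).pow 3)
  have hQ : Pm (k := k) fun x : Fin N → k => de C (∑ i, x i • B i) • (1 : D) := by
    unfold de
    exact ((pm_N' h20 hF).mul ((pm_N' h20 hFs).pow 2)).smulA (Pm.const 1)
  have hd0 := de_ne_zero C hz0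
  set q0 : D := de C z0 • (1 : D) with hq0
  set p0 : D := H487.nu C z0 with hp0
  set t0 : D := tz C z0 with ht0
  set r : D := (de C z0)⁻¹ • (1 : D) with hr
  have hq00 : q0 ≠ 0 := by
    rw [hq0]
    exact smul_ne_zero hd0 one_ne_zero
  have hrq : r * q0 = 1 := by
    rw [hr, hq0, smul_mul_smul_comm, inv_mul_cancel₀ hd0, one_smul, one_mul]
  have hqt0 : q0 * t0 = p0 := by
    rw [hq0, ht0, hp0, tz, smul_mul_assoc, one_mul, smul_smul, mul_inv_cancel₀ hd0, one_smul]
  set R : ℝ := M * na B v.abv r + 1 with hR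
  have hR0 : 0 < R := by
    have := mul_nonneg hM0.le (na_nonneg B v.abv r)
    rw [hR]
    linarith
  have hRle : M * na B v.abv r ≤ R := by rw [hR]; linarith
  set W : ℝ := na B v.abv t0 + 1 with hW
  have hW0 : 0 < W := by
    have := na_nonneg B v.abv t0
    rw [hW]
    linarith
  obtain ⟨γ, hγ, h1⟩ := cont_na B hQ v (fun i => B.repr z0 i)
    (min (min (1 / (2 * R * M)) (η / (8 * R * M * W))) (na B v.abv q0))
    (lt_min (lt_min (by positivity) (by positivity)) (na_pos B v.abv hq00))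
  obtain ⟨γ', hγ', h2⟩ := cont_na B hP v (fun i => B.repr z0 i) (η / (8 * R)) (by positivity)
  refine ⟨min γ γ', lt_min hγ hγ', fun z hz => ?_⟩
  have hz' : ∀ i, v.abv (B.repr z i - B.repr z0 i) < min γ γ' := fun i => by
    have := hz i
    rwa [map_sub, Finsupp.sub_apply] at this
  have h3 := h1 (fun i => B.repr z i) fun i => (hz' i).trans_le (min_le_left _ _)
  have h4 := h2 (fun i => B.repr z i) fun i => (hz' i).trans_le (min_le_right _ _)
  simp only [B.sum_repr] at h3 h4
  rw [← hq0] at h3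
  rw [← hp0] at h4
  have hd : de C z ≠ 0 := by
    intro h0
    rw [h0, zero_smul, zero_sub, na_neg] at h3
    exact absurd (h3.trans_le (min_le_right _ _)) (lt_irrefl _)
  refine ⟨ne_of_de hd, ?_⟩
  set q : D := de C z • (1 : D) with hq
  set p : D := H487.nu C z with hp
  set t : D := tz C z with ht
  have hqt : q * t = p := by
    rw [hq, ht, hp, tz, smul_mul_assoc, one_mul, smul_smul, mul_inv_cancel₀ hd, one_smul]
  have e1 : t - t0 = r * ((-(q - q0)) * (t - t0) + (-(q - q0)) * t0 + (p - p0)) := by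
    have e2 : (-(q - q0)) * (t - t0) + (-(q - q0)) * t0 + (p - p0) = q0 * (t - t0) := by
      rw [← hqt, ← hqt0]
      noncomm_ring
    rw [e2, ← mul_assoc, hrq, one_mul]
  set a := na B v.abv (q - q0) with ha
  set x := na B v.abv (t - t0) with hx
  have ha0 : 0 ≤ a := na_nonneg _ _ _
  have hx0 : 0 ≤ x := na_nonneg _ _ _
  have hp0' : 0 ≤ na B v.abv (p - p0) := na_nonneg _ _ _
  have h5 : x ≤ R * (M * a * x + M * a * W + na B v.abv (p - p0)) := by
    rw [hx]
    conv_lhs => rw [e1]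
    refine (hM _ _).trans (mul_le_mul hRle ?_ (na_nonneg _ _ _) hR0.le)
    refine (na_add_le _ _ _ _).trans (add_le_add ?_ le_rfl)
    refine (na_add_le _ _ _ _).trans (add_le_add ?_ ?_)
    · refine (hM _ _).trans ?_
      rw [na_neg]
    · refine (hM _ _).trans ?_
      rw [na_neg]
      refine mul_le_mul_of_nonneg_left ?_ (mul_nonneg hM0.le ha0)
      rw [hW]
      linarith
  have h6 : a < 1 / (2 * R * M) := h3.trans_le ((min_le_left _ _).trans (min_le_left _ _))
  have h7 : a < η / (8 * R * M * W) := h3.trans_le ((min_le_left _ _).trans (min_le_right _ _))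
  rw [lt_div_iff₀ (by positivity)] at h6 h7 h4
  have h8 : R * (M * a * x) ≤ 1 / 2 * x := by
    have : R * (M * a * x) = (a * (2 * R * M)) * x / 2 := by ring
    rw [this]
    nlinarith
  have h9 : R * (M * a * W) < η / 8 := by
    have : R * (M * a * W) = (a * (8 * R * M * W)) / 8 := by ring
    rw [this]
    linarith
  have h10 : R * na B v.abv (p - p0) < η / 8 := by
    have : R * na B v.abv (p - p0) = (na B v.abv (p - p0) * (8 * R)) / 8 := by ring
    rw [this]
    linarith
  nlinarith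

/-- **The point is a continuous function of the generator and of the coordinates.** -/
theorem zf_near (s : K) (B : Basis (Fin N) k D) (v : Place k) (g0 : D) (a : Fin (3 + 3) → k)
    {δ : ℝ} (hδ : 0 < δ) :
    ∃ γ : ℝ, 0 < γ ∧ ∀ (e : D) (x : Fin (3 + 3) → k), (∀ i, v.abv (B.repr (e - g0) i) < γ) →
      (∀ j, v.abv (x j - a j) < γ) → na B v.abv (zf s e x - zf s g0 a) < δ := by
  have hc : ∀ j : Fin (N + (3 + 3)), Pm (k := k) fun p : Fin (N + (3 + 3)) → k => p j := fun j => by
    have := Pm.coord (k := k) j (1 : k)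
    simpa using this
  have hE : Pm (k := k) fun p : Fin (N + (3 + 3)) → k => ∑ i, p (Fin.castAdd (3 + 3) i) • B i :=
    Pm.sum _ fun i _ => Pm.coord _ (B i)
  have hG : Pm (k := k) fun p : Fin (N + (3 + 3)) → k =>
      zf s (∑ i, p (Fin.castAdd (3 + 3) i) • B i) fun j => p (Fin.natAdd N j) := by
    unfold zf
    refine Pm.sum _ fun i _ => ?_
    refine ((hc _).smulA (hE.pow _)).add ((hc _).smulA ?_)
    exact (Pm.const s).smulA (hE.pow _)
  obtain ⟨γ, hγ, h⟩ := cont_na B hG v (Fin.append (fun i => B.repr g0 i) a) δ hδ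
  refine ⟨γ, hγ, fun e x he hx => ?_⟩
  have h1 := h (Fin.append (fun i => B.repr e i) x) fun j => by
    refine Fin.addCases (fun i => ?_) (fun i => ?_) j
    · rw [Fin.append_left, Fin.append_left]
      have := he i
      rwa [map_sub, Finsupp.sub_apply] at this
    · rw [Fin.append_right, Fin.append_right]
      exact hx i
  simp only [Fin.append_left, Fin.append_right, B.sum_repr] at h1
  exact h1

/-- The point `1 + g0`. -/
theorem zf_one_add (s : K) (g : D) :
    zf (k := k) s g (fun j => if j = 0 ∨ j = 1 then 1 else 0) = 1 + g := by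
  unfold zf
  rw [Fin.sum_univ_three]
  have h0 : (Fin.castAdd 3 (0 : Fin 3) : Fin (3 + 3)) = 0 ∨
    (Fin.castAdd 3 (0 : Fin 3) : Fin (3 + 3)) = 1 := Or.inl rfl
  have h1 : (Fin.castAdd 3 (1 : Fin 3) : Fin (3 + 3)) = 0 ∨
    (Fin.castAdd 3 (1 : Fin 3) : Fin (3 + 3)) = 1 := Or.inr rfl
  have h2 : ¬ ((Fin.castAdd 3 (2 : Fin 3) : Fin (3 + 3)) = 0 ∨
    (Fin.castAdd 3 (2 : Fin 3) : Fin (3 + 3)) = 1) := by decide
  have h3 : ¬ ((Fin.natAdd 3 (0 : Fin 3) : Fin (3 + 3)) = 0 ∨
    (Fin.natAdd 3 (0 : Fin 3) : Fin (3 + 3)) = 1) := by decide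
  have h4 : ¬ ((Fin.natAdd 3 (1 : Fin 3) : Fin (3 + 3)) = 0 ∨
    (Fin.natAdd 3 (1 : Fin 3) : Fin (3 + 3)) = 1) := by decide
  have h5 : ¬ ((Fin.natAdd 3 (2 : Fin 3) : Fin (3 + 3)) = 0 ∨
    (Fin.natAdd 3 (2 : Fin 3) : Fin (3 + 3)) = 1) := by decide
  simp only [if_pos h0, if_pos h1, if_neg h2, if_neg h3, if_neg h4, if_neg h5]
  simp

/-- **The targets.** -/
theorem target [GFF k] [GFF K] (hS : SetF k K D d s) (hC3 : (3 : K) = 0) (C : Cub K D)
    (hC : SCub C) (B : Basis (Fin N) k D) {g0 : D} (hg0 : g0 * star g0 = 1) (hg0N : C.N g0 = 1)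
    (hg0c : ∀ c : K, g0 ≠ c • (1 : D)) (v : Place k) {η : ℝ} (hη : 0 < η)
    (h1 : Sm B v η (g0 ^ 3 - 1)) :
    ∃ δ : ℝ, 0 < δ ∧ ∀ h e : D, C.N h = 1 → Sm B v δ (h - 1) → Sm B v δ (e - g0) →
      (∀ V : Place K, Ab V v → V.abv (C.N e - 1) < δ) →
      ∃ (a : Fin (3 + 3) → k) (γ : ℝ), 0 < γ ∧
        ∀ x : Fin (3 + 3) → k, (∀ j, v.abv (x j - a j) < γ) →
          Sm B v η (tz C (zf s e x) - 1) ∧
          ∀ V : Place K, Ab V v → LocX C (h * tz C (zf s e x)) V (C.N e) := by
  have h20 := two_ne hS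
  obtain ⟨M, hM1, hM⟩ := na_mul B v.abv
  have hM0 : 0 < M := lt_of_lt_of_le one_pos hM1
  -- the point
  have hz0 : 1 + g0 ≠ 0 := by
    intro h0
    apply hg0c (-1)
    rw [neg_smul, one_smul]
    exact eq_neg_of_add_eq_zero_right h0
  have ht0 : tz C (1 + g0) = g0 ^ 3 := tz_one_add C hC hg0 hg0N hz0
  obtain ⟨t0, htt⟩ : ∃ t0 : D, t0 = g0 ^ 3 := ⟨_, rfl⟩
  rw [← htt] at h1 ht0
  have hN0 : C.N t0 = 1 := by rw [htt, H21.Sig.N_cube, hg0N, one_pow]
  have hT0 : C.T t0 ≠ 0 := by
    rw [htt, H21.Sig.T_cube, hC3, zero_mul, zero_mul, sub_zero, add_zero]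
    exact pow_ne_zero 3 (T_ne_zero' C h20 hC hg0 hg0N hg0c)
  -- the local conditions
  obtain ⟨γ1, hγ1, hloc⟩ := exists_min_pos (finite_above (K := K) (Set.finite_singleton v))
    (P := fun V γ => ∀ (y : D) (b : K), C.N y = 1 → (∀ i, v.abv (B.repr (y - t0) i) < γ) →
      V.abv (b - 1) < γ → LocX C y V b)
    (fun V γ γ' hγ h y b hy hy' hb => h y b hy (fun i => (hy' i).trans_le hγ) (hb.trans_le hγ)) (by
      rintro V ⟨v', hv', hV⟩
      rw [Set.mem_singleton_iff] at hv'
      subst hv'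
      have hL : LocX C t0 V (1 : K) := by
        have := LocX.of_cube (C := C) (y := t0) (V := V) (1 : K)
        rwa [one_pow] at this
      obtain ⟨ε, hε, h2⟩ := hL.open (Or.inr (Or.inl hT0)) one_ne_zero
      obtain ⟨γ, hγ, h3⟩ := cont_abv (pm_T (C := C) (pm_pt (k := k) B)) hV
        (fun i => B.repr t0 i) ε hε
      obtain ⟨γ', hγ', h4⟩ := cont_abv (pm_S (C := C) h20 (pm_pt (k := k) B)) hV
        (fun i => B.repr t0 i) ε hε
      simp only [B.sum_repr] at h3 h4
      refine ⟨min (min γ γ') ε, lt_min (lt_min hγ hγ') hε, fun y b hy hy' hb => ?_⟩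
      have hy2 : ∀ i, v'.abv (B.repr y i - B.repr t0 i) < min (min γ γ') ε := fun i => by
        have := hy' i
        rwa [map_sub, Finsupp.sub_apply] at this
      have h5 := h3 (fun i => B.repr y i) fun i =>
        (hy2 i).trans_le ((min_le_left _ _).trans (min_le_left _ _))
      have h6 := h4 (fun i => B.repr y i) fun i =>
        (hy2 i).trans_le ((min_le_left _ _).trans (min_le_right _ _))
      simp only [B.sum_repr] at h5 h6
      refine h2 y b h5 h6 ?_ (hb.trans_le (min_le_right _ _))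
      rw [hy, hN0, sub_self, map_zero]
      exact hε)
  set W : ℝ := na B v.abv t0 + 1 with hW
  have hW0 : 0 < W := by
    have := na_nonneg B v.abv t0
    rw [hW]
    linarith
  set η1 : ℝ := min (min η (γ1 / 2)) 1 with hη1
  have hη10 : 0 < η1 := lt_min (lt_min hη (by positivity)) one_pos
  obtain ⟨δ2, hδ2, h2⟩ := tz_near hS C B v hz0 hη10
  obtain ⟨δ3, hδ3, h3⟩ := zf_near s B v g0 (fun j => if j = 0 ∨ j = 1 then 1 else 0) hδ2
  obtain ⟨δ4, hδ4, h4⟩ := na_of_coord B v (ε := γ1 / (2 * M * W)) (by positivity)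
  rw [zf_one_add] at h3
  rw [ht0] at h2
  refine ⟨min (min δ3 δ4) γ1, lt_min (lt_min hδ3 hδ4) hγ1, fun h e hN hh he hb =>
    ⟨fun j => if j = 0 ∨ j = 1 then 1 else 0, δ3, hδ3, fun x hx => ?_⟩⟩
  have h5 := h3 e x (fun i => (he i).trans_le ((min_le_left _ _).trans (min_le_left _ _))) hx
  obtain ⟨hzx, h2'⟩ := h2 _ fun i => (coord_le_na B v.abv _ i).trans_lt h5
  obtain ⟨t, ht⟩ : ∃ t, t = tz C (zf s e x) := ⟨_, rfl⟩
  rw [← ht]
  have h6 : na B v.abv (t - t0) < η1 := by
    rw [ht]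
    exact h2'
  have hsm : ∀ i, v.abv (B.repr (t - t0) i) < η1 := fun i => (coord_le_na B v.abv _ i).trans_lt h6
  refine ⟨?_, fun V hV => ?_⟩
  · have e1 : t - 1 = (t - t0) + (t0 - 1) := by abel
    rw [e1]
    exact Sm.add (fun i => (hsm i).trans_le ((min_le_left _ _).trans (min_le_left _ _))) h1
  · refine hloc V ⟨v, rfl, hV⟩ _ _ ?_ ?_ ((hb V hV).trans_le (min_le_right _ _))
    · rw [C.N_mul, hN, ht, tz_norm C hzx, one_mul]
    · have h7 := h4 (h - 1) fun i => (hh i).trans_le ((min_le_left _ _).trans (min_le_right _ _))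
      have e1 : h * t - t0 = (h - 1) * t + (t - t0) := by noncomm_ring
      have h8 : na B v.abv t ≤ W := by
        have e2 : t = t0 + (t - t0) := by abel
        rw [e2]
        refine (na_add_le _ _ _ _).trans ?_
        have := h6.trans_le (min_le_right _ _)
        rw [hW]
        linarith
      have h9 : na B v.abv (h * t - t0) < γ1 := by
        rw [e1]
        refine (na_add_le _ _ _ _).trans_lt ?_
        have h10 := h6.trans_le ((min_le_left _ _).trans (min_le_right _ _))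
        have h11 : na B v.abv ((h - 1) * t) ≤ M * na B v.abv (h - 1) * W :=
          (hM _ _).trans (mul_le_mul_of_nonneg_left h8 (mul_nonneg hM0.le (na_nonneg _ _ _)))
        rw [lt_div_iff₀ (by positivity)] at h7
        have h12 : M * na B v.abv (h - 1) * W < γ1 / 2 := by
          have : M * na B v.abv (h - 1) * W = (na B v.abv (h - 1) * (2 * M * W)) / 2 := by ring
          rw [this]
          linarith
        linarith
      exact fun i => (coord_le_na B v.abv _ i).trans_lt h9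

end Vale.Agent.P011.H271.S3x
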