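import Vale.Agent.P011.H271.S3xC

/-!
# The statement `S3a` over function fields of every odd characteristic
-/

open Module MvPolynomial

set_option linter.unusedSectionVars false

namespace Vale.Agent.P011.H271.S3x

open Vale.Agent.P011.H698 (Sm UA ua_mul_star)
open Vale.Agent.P011.H738 Vale.Agent.P011.H271 Vale.Agent.P011.H305
open Vale.Agent.P011.H775 Vale.Agent.P011.H948 Vale.Agent.P011.H271.S3
open Vale.Agent.P011.H182 (na na_nonneg na_add_le na_smul na_mul na_neg na_sub_le coord_le_na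
  na_pos)
open Vale.Agent.P011.H487 (Pm tz)

variable {k K D Ω : Type} [Field k] [Field K] [StarRing K] [DivisionRing D]
  [StarRing D] [Algebra k K] [Algebra k D] [Algebra K D] [IsScalarTower k K D] [StarModule K D]
  {d : kˣ} {s : K} {N : ℕ} [Field Ω] [Algebra K Ω]

/-- The reduced norms of the elements close to one are close to one. -/
theorem norm_near' [GFF k] [GFF K] (hS : SetF k K D d s) (C : Cub K D)
    (B : Basis (Fin N) k D) {T : Set (Place k)} (hT : T.Finite) {ε : ℝ} (hε : 0 < ε) :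
    ∃ η : ℝ, 0 < η ∧ ∀ u : D, (∀ v ∈ T, Sm B v η (u - 1)) →
      ∀ v ∈ T, ∀ V : Place K, Ab V v → V.abv (C.N u - 1) < ε := by
  have hF := pm_N' (C := C) (two_ne hS) (pm_pt (k := k) B)
  obtain ⟨η, hη, h⟩ := exists_min_pos (finite_above (K := K) hT)
    (P := fun V γ => ∀ v : Place k, Ab V v → ∀ u : D, (∀ i, v.abv (B.repr (u - 1) i) < γ) →
      V.abv (C.N u - 1) < ε)
    (fun V γ γ' hγ h v hv u hu => h v hv u fun i => (hu i).trans_le hγ) (by
      rintro V ⟨v, hv, hVv⟩
      obtain ⟨γ, hγ, h1⟩ := cont_abv hF hVv (fun i => B.repr 1 i) ε hε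
      refine ⟨γ, hγ, fun v' hv' u hu => ?_⟩
      obtain rfl := below_unique hVv hv'
      have h2 := h1 (fun i => B.repr u i) fun i => by
        have := hu i
        rw [map_sub, Finsupp.sub_apply] at this
        exact this
      simp only [B.sum_repr, C.N_one] at h2
      exact h2)
  exact ⟨η, hη, fun u hu v hv V hV => h V ⟨v, hv, hV⟩ v hV u (hu v hv)⟩

/-- Products with elements close to one. -/
theorem mul_near (B : Basis (Fin N) k D) (v : Place k) (g0 : D) {δ : ℝ} (hδ : 0 < δ) :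
    ∃ η : ℝ, 0 < η ∧ ∀ u g : D, Sm B v η (u - 1) → na B v.abv (g - 1) < η →
      Sm B v δ (u * g0 * g - g0) := by
  obtain ⟨M, hM1, hM⟩ := na_mul B v.abv
  have hM0 : 0 < M := lt_of_lt_of_le one_pos hM1
  have h00 := na_nonneg B v.abv g0
  have h01 := na_nonneg B v.abv (1 : D)
  obtain ⟨γ, hγ, h1⟩ := na_of_coord B v (ε := δ / (2 * (M * (M * (na B v.abv g0 *
    (na B v.abv (1 : D) + 1))) + 1))) (by positivity)
  refine ⟨min (min γ 1) (δ / (2 * (M * na B v.abv g0 + 1))),
    lt_min (lt_min hγ one_pos) (by positivity), fun u g hu hg i => ?_⟩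
  have h2 := h1 (u - 1) fun i => (hu i).trans_le ((min_le_left _ _).trans (min_le_left _ _))
  have h3 : na B v.abv (g - 1) < 1 := hg.trans_le ((min_le_left _ _).trans (min_le_right _ _))
  have h4 : na B v.abv (g - 1) < δ / (2 * (M * na B v.abv g0 + 1)) := hg.trans_le (min_le_right _ _)
  have e : u * g0 * g - g0 = (u - 1) * (g0 * g) + g0 * (g - 1) := by noncomm_ring
  have h5 : na B v.abv g ≤ na B v.abv (1 : D) + 1 := by
    have e2 : g = 1 + (g - 1) := by abel
    conv_lhs => rw [e2]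
    exact (na_add_le _ _ _ _).trans (by linarith)
  rw [lt_div_iff₀ (by positivity)] at h2 h4
  have hu0 := na_nonneg B v.abv (u - 1)
  have hg0 := na_nonneg B v.abv (g - 1)
  have h6 : na B v.abv ((u - 1) * (g0 * g)) < δ / 2 := by
    have h7 : na B v.abv (g0 * g) ≤ M * (na B v.abv g0 * (na B v.abv (1 : D) + 1)) := by
      refine (hM _ _).trans ?_
      rw [mul_assoc]
      exact mul_le_mul_of_nonneg_left (mul_le_mul_of_nonneg_left h5 h00) hM0.le
    have h8 : na B v.abv ((u - 1) * (g0 * g)) ≤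
        M * na B v.abv (u - 1) * (M * (na B v.abv g0 * (na B v.abv (1 : D) + 1))) :=
      (hM _ _).trans (mul_le_mul_of_nonneg_left h7 (mul_nonneg hM0.le hu0))
    nlinarith
  have h9 : na B v.abv (g0 * (g - 1)) < δ / 2 := by
    have h10 := hM g0 (g - 1)
    nlinarith
  refine (coord_le_na B v.abv _ i).trans_lt ?_
  rw [e]
  exact (na_add_le _ _ _ _).trans_lt (by linarith)

/-- The cube is continuous. -/
theorem cube_cont (B : Basis (Fin N) k D) (v : Place k) {η : ℝ} (hη : 0 < η) :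
    ∃ γ : ℝ, 0 < γ ∧ ∀ g : D, na B v.abv (g - 1) < γ → Sm B v η (g ^ 3 - 1) := by
  obtain ⟨γ, hγ, h1⟩ := cont_na B ((pm_pt (k := k) B).pow 3) v (fun i => B.repr 1 i) η hη
  refine ⟨γ, hγ, fun g hg i => ?_⟩
  have h2 := h1 (fun i => B.repr g i) fun i => by
    have := (coord_le_na B v.abv (g - 1) i).trans_lt hg
    rwa [map_sub, Finsupp.sub_apply] at this
  simp only [B.sum_repr, one_pow] at h2
  exact (coord_le_na B v.abv _ i).trans_lt h2

/-- **The statement `S3a` over function fields of every odd characteristic.** -/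
theorem s3a_ffU (hk : IsGlobalFunctionField k) (hS : SetF k K D d s)
    (hdeg : finrank K D = 3 ^ 2) (C : Cub K D) (f : D →ₐ[K] Matrix (Fin 3) (Fin 3) Ω)
    (B : Basis (Fin N) k D) : StarF.S3a f B (Adiv k K D) := by
  classical
  by_cases h3 : (3 : k) = 0
  swap
  · exact s3a_ff hk hS h3 hdeg C f B
  have hgff : GFF k := gff_of_isGlobal hk
  have hfk : FiniteDimensional k K := Module.finite_of_finrank_pos (by rw [hS.rank]; norm_num)
  have hgK : GFF K := Hey.H63.gff_of_finite (k := k)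
  have hfin := hS.fin
  have hcen := hS.cen
  have hC : SCub C := sCub_of C hdeg hS.star_smul
  have hAn : Anis k K D 3 := hS.anis hdeg
  have h20 : (2 : K) ≠ 0 := two_ne hS
  have h3K : (3 : K) = 0 := by
    rw [← map_ofNat (algebraMap k K) 3, h3, map_zero]
  have hdet : ∀ x : D, (f x).det = algebraMap K Ω (C.N x) := (C.of_split hdeg f).2.1
  have hss : ∀ c : K, star (algebraMap K D c) = algebraMap K D (star c) := fun c => by
    rw [Algebra.algebraMap_eq_smul_one, hS.star_smul, star_one, ← Algebra.algebraMap_eq_smul_one]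
  have hA : (Adiv k K D).Finite := StarF.adiv_finite hAn (by norm_num)
  have hq : ∀ T : Set (Place k), T.Finite → ∃ q : Place k, q ∉ T := by
    intro T hT
    obtain ⟨q, hq, -⟩ := H519.exists_split_place hk hAn (by norm_num) hT.toFinset 0
    exact ⟨q, fun h => hq (hT.mem_toFinset.2 h)⟩
  have hun : ∀ x : D, x * star x = 1 → ∃ U : UA D, ((U : Dˣ) : D) = x := by
    intro x hx
    have hx0 : x ≠ 0 := left_ne_zero_of_mul_eq_one hx
    exact ⟨⟨Units.mk0 x hx0, hx⟩, rfl⟩
  choose bel hbel using fun V : Place K => Hey.H63.exists_below (k := k) V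
  have hbel' : ∀ V : Place K, Ab V (bel V) := hbel
  -- a place outside `A`
  obtain ⟨V0, hV0⟩ : ∃ V0 : Place K, bel V0 ∉ Adiv k K D := by
    obtain ⟨q, hq'⟩ := hq _ hA
    obtain ⟨V0, hV0⟩ := H973.PF.exists_aboveF (E := K) q
    refine ⟨V0, ?_⟩
    have : bel V0 = q := place_ext fun x => by rw [← (hbel' V0).le_one_iff, hV0 x]
    rwa [this]
  intro η hη
  -- the element `g0`
  choose εc hεc hcube using fun v : Place k => cube_cont B v hη
  obtain ⟨g0, hg0, hg01, hg02⟩ := H961.s4F hk hS hdeg C f B hA {V0} bel (fun V hV => by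
    rw [Finset.mem_singleton] at hV
    subst hV
    exact ⟨hbel V, hV0, hV0⟩) (u := 1) (by rw [star_one, one_mul]) hεc
  rw [one_mul] at hg02
  have hg0u := H961.cs_un hg0
  have hg0N := H961.cs_N C hg0
  have hg0c : ∀ c : K, g0 ≠ c • (1 : D) := by
    intro c hc
    refine not_central C (hg02 V0 (Finset.mem_singleton_self V0)) ⟨c, ?_⟩
    rw [Algebra.algebraMap_eq_smul_one]
    exact hc.symm
  obtain ⟨δ, hδ, htar⟩ := exists_min_pos hA
    (P := fun v δ => ∀ h e : D, C.N h = 1 → Sm B v δ (h - 1) → Sm B v δ (e - g0) →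
      (∀ V : Place K, Ab V v → V.abv (C.N e - 1) < δ) →
      ∃ (a : Fin (3 + 3) → k) (γ : ℝ), 0 < γ ∧
        ∀ x : Fin (3 + 3) → k, (∀ j, v.abv (x j - a j) < γ) →
          Sm B v η (tz C (zf s e x) - 1) ∧
          ∀ V : Place K, Ab V v → LocX C (h * tz C (zf s e x)) V (C.N e))
    (fun v γ γ' hγ h h' e hN hh he hb => h h' e hN (hh.mono hγ) (he.mono hγ)
      fun V hV => (hb V hV).trans_le hγ)
    (fun v hv => target hS h3K C hC B hg0u hg0N hg0c v hη (hcube v g0 (hg01 v hv)))
  obtain ⟨η1, hη1, hnorm⟩ := norm_near' (K := K) hS C B hA hδ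
  obtain ⟨η2, hη2, hmul⟩ := exists_min_pos hA
    (P := fun v η' => ∀ u g : D, Sm B v η' (u - 1) → na B v.abv (g - 1) < η' →
      Sm B v δ (u * g0 * g - g0))
    (fun v γ γ' hγ h u g hu hg => h u g (hu.mono hγ) (hg.trans_le hγ))
    (fun v _ => mul_near B v g0 hδ)
  refine ⟨min (min η1 η2) δ, lt_min (lt_min hη1 hη2) hδ, fun u h hu hhn hh => ?_⟩
  have hhN : C.N ((h : Dˣ) : D) = 1 := by
    have h1 := h.2.2
    rw [hdet, ← map_one (algebraMap K Ω)] at h1
    exact (algebraMap K Ω).injective h1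
  have hhc : ∀ c : K, ((h : Dˣ) : D) ≠ c • (1 : D) := fun c hc =>
    hh ⟨c, by rw [hc, Algebra.algebraMap_eq_smul_one]⟩
  have huu := ua_mul_star u
  obtain ⟨b, hb⟩ : ∃ b : K, b = C.N ((u : Dˣ) : D) := ⟨_, rfl⟩
  have hb0 : b ≠ 0 := by
    rw [hb]
    exact C.N_ne_zero (left_ne_zero_of_mul_eq_one huu)
  have hdP : ∀ y : D, y * star y = 1 → C.N y = 1 → (∀ c : K, y ≠ c • (1 : D)) →
      H929.dP C y ≠ 0 := by
    intro y hyU hyN hyc
    refine dP_ne_of ?_ (Or.inr (Or.inl (T_ne_zero' C h20 hC hyU hyN hyc)))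
    rintro ⟨c, hcy⟩
    exact hyc c (by rw [← hcy, Algebra.algebraMap_eq_smul_one])
  have hSgf : {V : Place K | ¬ LocX C ((h : Dˣ) : D) V b}.Finite :=
    LocX.finite (hdP _ h.2.1 hhN hhc) hb0
  -- the torus
  obtain ⟨g, hg, hg1, hg2⟩ := H961.s4F hk hS hdeg C f B hA
    (insert V0 (hSgf.toFinset.filter fun V => bel V ∉ Adiv k K D)) bel (fun V hV => by
      rw [Finset.mem_insert, Finset.mem_filter] at hV
      rcases hV with rfl | ⟨-, hV⟩
      · exact ⟨hbel V, hV0, hV0⟩
      · exact ⟨hbel V, hV, hV⟩) (u := ((u : Dˣ) : D) * g0) (H961.un_mul huu hg0u)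
    (ε := fun _ => η2) (fun _ => hη2)
  obtain ⟨e, he'⟩ : ∃ e : D, e = ((u : Dˣ) : D) * g0 * g := ⟨_, rfl⟩
  rw [← he'] at hg2
  have he : e * star e = 1 := by
    rw [he']
    exact H961.un_mul (H961.un_mul huu hg0u) (H961.cs_un hg)
  have heN : C.N e = b := by
    rw [he', C.N_mul, C.N_mul, hg0N, H961.cs_N C hg, mul_one, mul_one, hb]
  have hsl := hg2 V0 (Finset.mem_insert_self _ _)
  have hec : e ∉ Set.range (algebraMap K D) := not_central C hsl
  have hes : (3 : K) ≠ 0 ∨ C.T e ≠ 0 ∨ C.S e ≠ 0 := by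
    right
    rcases hsl with h1 | h1
    · left
      intro h0
      rw [h0, map_zero, zero_pow three_ne_zero] at h1
      exact absurd h1 (not_lt.2 (V0.abv.nonneg _))
    · right
      intro h0
      rw [h0, map_zero, zero_pow three_ne_zero] at h1
      exact absurd h1 (not_lt.2 (pow_nonneg (V0.abv.nonneg _) 2))
  obtain ⟨t, ht1, htN, htn, htc, e', he1', he2', he3'⟩ :=
    core hS hdeg C B hA hq (h := ((h : Dˣ) : D)) h.2.1 hhN hhc he hec hes
      (fun V hV hVA => by
        rw [heN] at hV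
        exact hg2 V (Finset.mem_insert_of_mem (Finset.mem_filter.2
          ⟨hSgf.mem_toFinset.2 hV, hVA _ (hbel' V)⟩)))
      (fun y b hy hyu hb hall => by
        refine exists_unitary_NX C hdeg hss hy ?_ hb hall
        have hy0 : y ≠ 0 := left_ne_zero_of_mul_eq_one hyu
        rw [← inv_eq_of_mul_eq_one_right hyu]
        exact (Commute.refl y).inv_left₀)
      (fun V e he hT hV => H21.Sig.exists_sig C hC h20 he hT V hV)
      (fun V V' v h h' => H21.Sig.above_or hS.fix h h')
      (η := η)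
      (fun v hv => htar v hv _ e hhN ((hhn v hv).mono (min_le_right _ _)) (by
          rw [he']
          exact hmul v hv _ _ ((hu v hv).mono ((min_le_left _ _).trans (min_le_right _ _)))
            (hg1 v hv)) (fun V hV => by
          rw [heN, hb]
          exact hnorm _ (fun v hv => (hu v hv).mono ((min_le_left _ _).trans (min_le_left _ _)))
            v hv V hV))
  obtain ⟨E, hE⟩ := hun e he
  obtain ⟨E', hE'⟩ := hun e' he1'
  have ht0 : t ≠ 0 := left_ne_zero_of_mul_eq_one ht1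
  let tt : SUA f := ⟨Units.mk0 t ht0, ht1, by
    change (f t).det = 1
    rw [hdet, htN, map_one]⟩
  refine ⟨tt, htn, ⟨E, ?_, ?_⟩, ⟨E', ?_, ?_⟩⟩
  · apply Units.ext
    rw [Units.val_mul, Units.val_mul, hE]
    exact htc
  · rw [hE, hdet, hdet, heN, hb]
  · apply Units.ext
    rw [Units.val_mul, Units.val_mul, Units.val_mul, hE']
    exact he2'
  · rw [hE', hdet, hdet, he3', heN, hb]

end Vale.Agent.P011.H271.S3x
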