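import Mathlib

/-! # Separating structure on a global function field (helper271) -/

namespace Vale.Agent.P011.H271

open Polynomial IntermediateField

set_option linter.style.haveILetI false

noncomputable section

/-- A separating `F(t)`-structure on a function field over a perfect field. -/
theorem exists_separating (F k : Type*) [Field F] [PerfectField F] [Field k]
    [Algebra (RatFunc F) k] [FiniteDimensional (RatFunc F) k] :
    ∃ φ : RatFunc F →+* k,
      @FiniteDimensional (RatFunc F) k _ _ φ.toAlgebra.toModule ∧
      @Algebra.IsSeparable (RatFunc F) k _ _ φ.toAlgebra := by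
  classical
  letI : Algebra F k := ((algebraMap (RatFunc F) k).comp (algebraMap F (RatFunc F))).toAlgebra
  haveI : IsScalarTower F (RatFunc F) k := IsScalarTower.of_algebraMap_eq' rfl
  haveI : Algebra.EssFiniteType F (RatFunc F) := by
    haveI : Algebra.EssFiniteType F[X] (RatFunc F) :=
      Algebra.EssFiniteType.of_isLocalization _ (nonZeroDivisors F[X])
    exact Algebra.EssFiniteType.comp F F[X] (RatFunc F)
  haveI : Algebra.EssFiniteType F k := Algebra.EssFiniteType.comp F (RatFunc F) k
  obtain ⟨s, hs, hsep⟩ := exists_isTranscendenceBasis_and_isSeparable_of_perfectField F k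
  -- `s` is a singleton
  letI : Algebra F[X] k := ((algebraMap (RatFunc F) k).comp (algebraMap F[X] (RatFunc F))).toAlgebra
  haveI : IsScalarTower F[X] (RatFunc F) k := IsScalarTower.of_algebraMap_eq' rfl
  haveI : IsScalarTower F F[X] k := IsScalarTower.of_algebraMap_eq (fun x => by
    change algebraMap (RatFunc F) k (algebraMap F (RatFunc F) x) =
      algebraMap (RatFunc F) k (algebraMap F[X] (RatFunc F) (algebraMap F F[X] x))
    rw [← IsScalarTower.algebraMap_apply F F[X] (RatFunc F)])
  haveI : Algebra.IsAlgebraic F[X] (RatFunc F) :=
    IsFractionRing.comap_isAlgebraic_iff (A := F[X]) (K := RatFunc F) (C := RatFunc F) |>.2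
      inferInstance
  haveI : Algebra.IsAlgebraic F[X] k := Algebra.IsAlgebraic.trans F[X] (RatFunc F) k
  haveI : FaithfulSMul F[X] k := by
    rw [faithfulSMul_iff_algebraMap_injective]
    rw [IsScalarTower.algebraMap_eq F[X] (RatFunc F) k]
    exact (algebraMap (RatFunc F) k).injective.comp (IsFractionRing.injective F[X] (RatFunc F))
  have hX : IsTranscendenceBasis F (algebraMap F[X] k ∘ (fun _ : Unit => (X : F[X]))) :=
    (IsTranscendenceBasis.polynomial Unit F).algebraMap_comp
  have hcard : s.card = 1 := by
    have := IsTranscendenceBasis.lift_cardinalMk_eq hs hX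
    simpa using this
  obtain ⟨t, rfl⟩ := Finset.card_eq_one.mp hcard
  have ht : Transcendental F t := by
    have h1 := hs.1
    have := h1.transcendental (⟨t, by simp⟩ : ({t} : Finset k))
    simpa using this
  have hfd : FiniteDimensional (IntermediateField.adjoin F {t}) k :=
    FunctionField.finiteDimensional_of_adjoin_transcendental ht
  rw [Finset.coe_singleton] at hsep
  let e := RatFunc.algEquivOfTranscendental t ht
  refine ⟨(algebraMap (IntermediateField.adjoin F {t}) k).comp (e : RatFunc F →+* _), ?_, ?_⟩
  · letI a1 : Algebra (RatFunc F) (IntermediateField.adjoin F {t}) :=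
      (e : RatFunc F →+* _).toAlgebra
    letI a2 : Algebra (RatFunc F) k := ((algebraMap (IntermediateField.adjoin F {t}) k).comp
      (e : RatFunc F →+* _)).toAlgebra
    haveI : IsScalarTower (RatFunc F) (IntermediateField.adjoin F {t}) k :=
      IsScalarTower.of_algebraMap_eq' rfl
    haveI : Module.Finite (RatFunc F) (IntermediateField.adjoin F {t}) :=
      Module.Finite.of_surjective (Algebra.linearMap (RatFunc F) (IntermediateField.adjoin F {t}))
        e.surjective
    exact Module.Finite.trans (IntermediateField.adjoin F {t}) k
  · letI a2 : Algebra (RatFunc F) k := ((algebraMap (IntermediateField.adjoin F {t}) k).comp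
      (e : RatFunc F →+* _)).toAlgebra
    exact Algebra.IsSeparable.of_equiv_equiv (A₁ := IntermediateField.adjoin F {t}) (B₁ := k)
      (e.symm : (IntermediateField.adjoin F {t}) ≃+* RatFunc F) (RingEquiv.refl k) (by
        ext x
        change algebraMap _ k (e (e.symm x)) = algebraMap _ k x
        rw [e.apply_symm_apply])

end

end Vale.Agent.P011.H271
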