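import Vale.Agent.P011.H271.S3aEnd
import Vale.Agent.P011.H518.S3bFF
import Vale.Agent.P011.H775.CubEx

/-!
# Commutators of unitary elements close to one, over function fields, without hypotheses
-/

open Module
open scoped commutatorElement

set_option linter.unusedSectionVars false

namespace Vale.Agent.P011.H271.StarF

open Vale.Agent.P011.H738 Vale.Agent.P011.H271 Vale.Agent.P011.H698 Vale.Agent.P011.H305
open Vale.Agent.P011.H775 Vale.Agent.P011.H948

variable {k K D Ω : Type} [Field k] [Field K] [StarRing K] [DivisionRing D]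
  [StarRing D] [Algebra k K] [Algebra k D] [Algebra K D] [IsScalarTower k K D] [StarModule K D]
  {d : kˣ} {s : K} {N : ℕ} [Field Ω] [Algebra K Ω]

/-- **Commutators of unitary elements close to one, over function fields.** -/
theorem star_ff (hk : IsGlobalFunctionField k) (hS : SetF k K D d s) (h3 : (3 : k) ≠ 0)
    (hdeg : finrank K D = 3 ^ 2) (f : D →ₐ[K] Matrix (Fin 3) (Fin 3) Ω)
    (B : Basis (Fin N) k D) {Q H : Subgroup (SUA f)} (hQ : Q.Normal) {ε : ℝ} (hε : 0 < ε)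
    (hH : ∀ g : SUA f, Nr B (Adiv k K D) ε ((g : Dˣ) : D) → g ∈ H)
    (hc : ∀ g : SUA f, ∀ x ∈ H, ⁅g, x⁆ ∈ Q) :
    ∃ ε' : ℝ, 0 < ε' ∧ ∀ u w : UA D, Nr B (Adiv k K D) ε' ((u : Dˣ) : D) →
      Nr B (Adiv k K D) ε' ((w : Dˣ) : D) → ⁅(u : Dˣ), (w : Dˣ)⁆ ∈ Q.map (SUA f).subtype := by
  have hgff : GFF k := gff_of_isGlobal hk
  have hfin := hS.fin
  have hcen := hS.cen
  obtain ⟨C⟩ := exists_cub (K := K) (D := D) hdeg
  exact star_of hS.star_smulk (S3.s3a_ff hk hS h3 hdeg C f B)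
    (H518.s3b_ff hk hS h3 hdeg C f B) hQ hε hH hc

/-- The same statement for elements of `D`. -/
theorem star_ff' (hk : IsGlobalFunctionField k) (hS : SetF k K D d s) (h3 : (3 : k) ≠ 0)
    (hdeg : finrank K D = 3 ^ 2) (f : D →ₐ[K] Matrix (Fin 3) (Fin 3) Ω)
    (B : Basis (Fin N) k D) {Q H : Subgroup (SUA f)} (hQ : Q.Normal) {ε : ℝ} (hε : 0 < ε)
    (hH : ∀ g : SUA f, Nr B (Adiv k K D) ε ((g : Dˣ) : D) → g ∈ H)
    (hc : ∀ g : SUA f, ∀ x ∈ H, ⁅g, x⁆ ∈ Q) :
    ∃ ε' : ℝ, 0 < ε' ∧ ∀ (u w : D) (x : SUA f), u * star u = 1 → star u * u = 1 →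
      w * star w = 1 → star w * w = 1 → Nr B (Adiv k K D) ε' u → Nr B (Adiv k K D) ε' w →
      ((x : Dˣ) : D) = u * w * star u * star w → x ∈ Q := by
  have hgff : GFF k := gff_of_isGlobal hk
  have hfin := hS.fin
  have hcen := hS.cen
  obtain ⟨C⟩ := exists_cub (K := K) (D := D) hdeg
  exact star_of' hS.star_smulk (S3.s3a_ff hk hS h3 hdeg C f B)
    (H518.s3b_ff hk hS h3 hdeg C f B) hQ hε hH hc

end Vale.Agent.P011.H271.StarF
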