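import Vale.Agent.P011.H271.Adele

/-! # Strong approximation off one place, finiteness of Riemann-Roch spaces (helper271) -/

namespace Vale.Agent.P011.H271

open Polynomial IsDedekindDomain HeightOneSpectrum WithZero

set_option linter.style.haveILetI false
set_option linter.unusedSectionVars false

noncomputable section

variable {k : Type*} [Field k] [GFF k]

theorem IsRep.smul {x : Pl k → k} (hx : IsRep x) (g : k) : IsRep (fun V => g * x V) := by
  by_cases hg : g = 0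
  · subst hg
    refine Set.finite_empty.subset ?_
    intro V hV
    change 1 < V.v (0 * x V) at hV
    rw [zero_mul, map_zero] at hV
    exact absurd hV (not_lt.2 zero_le)
  refine (hx.union (finite_ne_one hg)).subset ?_
  intro V hV
  by_contra hcon
  simp only [Set.mem_union, not_or] at hcon
  have h1 : V.v (x V) ≤ 1 := not_lt.1 hcon.1
  have h2 : V.v g = 1 := not_not.1 hcon.2
  change 1 < V.v (g * x V) at hV
  rw [map_mul, h2, one_mul] at hV
  exact absurd hV (not_lt.2 h1)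

/-- powers of an element with a pole are distinct -/
theorem pow_ne_of_lt {q : Pl k} {f : k} (hf : 1 < q.v f) {i j : ℕ} (hij : i < j) :
    f ^ j - f ^ i ≠ 0 := by
  intro h
  have h1 : q.v (f ^ j) = q.v (f ^ i) := by rw [sub_eq_zero.1 h]
  rw [map_pow, map_pow] at h1
  exact absurd h1 (ne_of_gt (pow_lt_pow_right₀ hf hij))

/-- **strong approximation off any place** -/
theorem exists_strong (q : Pl k) : ∃ N : ℕ, ∀ x : Pl k → k, IsRep x → ∃ y : k,
    (∀ V : Pl k, V ≠ q → V.v (x V - y) ≤ 1) ∧ q.v (x q - y) ≤ exp (N : ℤ) := by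
  classical
  obtain ⟨f, hf, hf'⟩ := exists_pole q
  obtain ⟨E, hE0, hE⟩ := exists_finite_reps (k := k)
  -- every `e ∈ E` is a sum of a constant and of a repartition integral outside `q`
  have hpow : ∀ (j : ℕ) (e : E), ∃ e' : E, ∃ c : k,
      ∀ V : Pl k, V.v (f ^ j * e.1 V - e'.1 V - c) ≤ 1 := by
    intro j e
    obtain ⟨e', he', c, hc⟩ := hE _ ((hE0 _ e.2).smul (f ^ j))
    exact ⟨⟨e', he'⟩, c, hc⟩
  choose ee cc hcc using hpow
  obtain ⟨i0, j0, hij, hij'⟩ := Finite.exists_ne_map_eq_of_infinite (fun j : ℕ => ee j)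
  obtain ⟨i, j, hlt, hee⟩ : ∃ i j : ℕ, i < j ∧ ee i = ee j := by
    rcases lt_or_gt_of_ne hij with h | h
    · exact ⟨i0, j0, h, hij'⟩
    · exact ⟨j0, i0, h, hij'.symm⟩
  set g : k := f ^ j - f ^ i with hg
  have hg0 : g ≠ 0 := pow_ne_of_lt hf hlt
  have hgi : ∀ V : Pl k, V ≠ q → V.v g ≤ 1 := by
    intro V hV
    refine (V.v.map_sub _ _).trans (max_le ?_ ?_)
    · rw [map_pow]; exact pow_le_one' (hf' V hV) _
    · rw [map_pow]; exact pow_le_one' (hf' V hV) _
  have hge : ∀ e : E, ∃ c : k, ∀ V : Pl k, V.v (g * e.1 V - c) ≤ 1 := by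
    intro e
    refine ⟨cc j e - cc i e, fun V => ?_⟩
    have e1 : g * e.1 V - (cc j e - cc i e)
        = (f ^ j * e.1 V - (ee j e).1 V - cc j e) - (f ^ i * e.1 V - (ee i e).1 V - cc i e) := by
      rw [hee, hg]; ring
    rw [e1]
    exact (V.v.map_sub _ _).trans (max_le (hcc j e V) (hcc i e V))
  -- decomposition for all repartitions
  have key : ∀ x : Pl k → k, IsRep x → ∃ y : k, ∀ V : Pl k, V ≠ q → V.v (x V - y) ≤ 1 := by
    intro x hx
    obtain ⟨e, he, c, hc⟩ := hE _ (hx.smul g⁻¹)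
    obtain ⟨c', hc'⟩ := hge ⟨e, he⟩
    refine ⟨g * c + c', fun V hV => ?_⟩
    have e1 : x V - (g * c + c') = g * (g⁻¹ * x V - e V - c) + (g * e V - c') := by
      field_simp
      ring
    rw [e1]
    refine (V.v.map_add _ _).trans (max_le ?_ (hc' V))
    rw [map_mul]
    exact mul_le_one' (hgi V hV) (hc V)
  choose! y hy using fun (e : Pl k → k) (he : e ∈ E) => key e (hE0 e he)
  have hbd : ∃ N : ℕ, ∀ e ∈ E, q.v (e q - y e) ≤ exp (N : ℤ) := by
    have h1 : ∀ e : E, ∃ N : ℕ, q.v (e.1 q - y e) ≤ exp (N : ℤ) := fun e => by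
      obtain ⟨N, hN⟩ := exists_bound (k := k) (e.1 q - y e)
      exact ⟨N, hN q⟩
    choose N hN using h1
    refine ⟨∑ e : E, N e, fun e he => (hN ⟨e, he⟩).trans ?_⟩
    rw [exp_le_exp]
    exact_mod_cast Finset.single_le_sum (f := N) (fun _ _ => Nat.zero_le _)
      (Finset.mem_univ (⟨e, he⟩ : E))
  obtain ⟨N, hN⟩ := hbd
  refine ⟨N, fun x hx => ?_⟩
  obtain ⟨e, he, c, hc⟩ := hE x hx
  refine ⟨c + y e, fun V hV => ?_, ?_⟩
  · have e1 : x V - (c + y e) = (x V - e V - c) + (e V - y e) := by ring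
    rw [e1]
    exact (V.v.map_add _ _).trans (max_le (hc V) (hy e he V hV))
  · have e1 : x q - (c + y e) = (x q - e q - c) + (e q - y e) := by ring
    rw [e1]
    refine (q.v.map_add _ _).trans (max_le ((hc q).trans ?_) (hN e he))
    rw [← exp_zero, exp_le_exp]; positivity

/-- finitely many residue classes: some difference of powers is small -/
theorem exists_pow_sub_lt (T : Finset (Pl k)) (f : k) (hf : ∀ V ∈ T, V.v f ≤ 1) :
    ∃ i j : ℕ, i < j ∧ ∀ V ∈ T, V.v (f ^ j - f ^ i) < 1 := by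
  classical
  have hfin : ∀ V : T, Finite (IsLocalRing.ResidueField V.1.1) := fun V => V.1.resfin
  let φ : ℕ → ∀ V : T, IsLocalRing.ResidueField V.1.1 := fun n V =>
    IsLocalRing.residue V.1.1 ⟨f ^ n, (V.1.mem_iff _).2 (by
      rw [map_pow]; exact pow_le_one' (hf V.1 V.2) _)⟩
  obtain ⟨i0, j0, hij, hij'⟩ := Finite.exists_ne_map_eq_of_infinite φ
  obtain ⟨i, j, hlt, he⟩ : ∃ i j : ℕ, i < j ∧ φ i = φ j := by
    rcases lt_or_gt_of_ne hij with h | h
    · exact ⟨i0, j0, h, hij'⟩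
    · exact ⟨j0, i0, h, hij'.symm⟩
  refine ⟨i, j, hlt, fun V hV => ?_⟩
  have h1 := (congrFun he ⟨V, hV⟩).symm
  rw [← sub_eq_zero] at h1
  simp only [φ] at h1
  rw [← map_sub, IsLocalRing.residue_eq_zero_iff, ValuationSubring.valuation_lt_one_iff] at h1
  have he' : V.v.IsEquiv V.1.valuation := by
    have := Valuation.isEquiv_valuation_valuationSubring V.v
    rwa [V.v_sub] at this
  exact he'.lt_one_iff_lt_one.2 h1

theorem le_exp_neg_one {x : WithZero (Multiplicative ℤ)} (hx : x < 1) : x ≤ exp (-1 : ℤ) := by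
  by_cases h0 : x = 0
  · rw [h0]; exact zero_le
  rw [← exp_zero, ← log_lt_iff_lt_exp h0] at hx
  rw [← log_le_iff_le_exp h0]
  omega

/-- a nonzero element integral outside `q`, very small at the places of `T` -/
theorem exists_small (q : Pl k) (T : Finset (Pl k)) (hq : q ∉ T) (n : ℕ) :
    ∃ g : k, g ≠ 0 ∧ (∀ V : Pl k, V ≠ q → V.v g ≤ 1) ∧ ∀ V ∈ T, V.v g ≤ exp (-(n : ℤ)) := by
  obtain ⟨f, hf, hf'⟩ := exists_pole q
  obtain ⟨i, j, hlt, h⟩ := exists_pow_sub_lt T f
    (fun V hV => hf' V (fun h => hq (h ▸ hV)))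
  have hgi : ∀ V : Pl k, V ≠ q → V.v (f ^ j - f ^ i) ≤ 1 := by
    intro V hV
    refine (V.v.map_sub _ _).trans (max_le ?_ ?_)
    · rw [map_pow]; exact pow_le_one' (hf' V hV) _
    · rw [map_pow]; exact pow_le_one' (hf' V hV) _
  refine ⟨(f ^ j - f ^ i) ^ n, pow_ne_zero _ (pow_ne_of_lt hf hlt), fun V hV => ?_, fun V hV => ?_⟩
  · rw [map_pow]; exact pow_le_one' (hgi V hV) _
  · rw [map_pow]
    calc V.v (f ^ j - f ^ i) ^ n ≤ (exp (-1 : ℤ)) ^ n :=
          pow_le_pow_left' (le_exp_neg_one (h V hV)) n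
      _ = exp (-(n : ℤ)) := by rw [← exp_nsmul]; simp

/-- **strong approximation off any place, any precision** -/
theorem strong_approx (q : Pl k) (T : Finset (Pl k)) (hq : q ∉ T) (n : ℕ) : ∃ N : ℕ,
    ∀ x : Pl k → k, IsRep x → ∃ y : k, (∀ V ∈ T, V.v (x V - y) ≤ exp (-(n : ℤ))) ∧
    (∀ V : Pl k, V ≠ q → V.v (x V - y) ≤ 1) ∧ q.v (x q - y) ≤ exp (N : ℤ) := by
  obtain ⟨g, hg0, hg1, hg2⟩ := exists_small q T hq n
  obtain ⟨N, hN⟩ := exists_strong q
  obtain ⟨N', hN'⟩ := exists_bound (k := k) g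
  refine ⟨N + N', fun x hx => ?_⟩
  obtain ⟨y, hy1, hy2⟩ := hN _ (hx.smul g⁻¹)
  have e1 : ∀ V, x V - g * y = g * (g⁻¹ * x V - y) := fun V => by field_simp
  refine ⟨g * y, fun V hV => ?_, fun V hV => ?_, ?_⟩
  · rw [e1, map_mul]
    calc _ ≤ exp (-(n : ℤ)) * 1 := mul_le_mul' (hg2 V hV) (hy1 V (fun h => hq (h ▸ hV)))
      _ = _ := mul_one _
  · rw [e1, map_mul]
    exact mul_le_one' (hg1 V hV) (hy1 V hV)
  · rw [e1, map_mul]
    calc _ ≤ exp (N' : ℤ) * exp (N : ℤ) := mul_le_mul' (hN' q) hy2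
      _ = _ := by rw [← exp_add]; congr 1; push_cast; ring

/-- **finiteness of the Riemann-Roch spaces** -/
theorem finite_le (D : Pl k → ℕ) (hD : {V | D V ≠ 0}.Finite) :
    {x : k | ∀ V : Pl k, V.v x ≤ exp (D V : ℤ)}.Finite := by
  classical
  obtain ⟨F, iF, iFin, φ, hφ⟩ := GFF.out (k := k)
  have hX : ∀ V ∈ hD.toFinset.filter (fun V => φ RatFunc.X ∈ V.1), V.v (φ RatFunc.X) ≤ 1 :=
    fun V hV => (V.mem_iff _).1 (Finset.mem_filter.1 hV).2
  obtain ⟨i, j, hlt, h⟩ := exists_pow_sub_lt _ _ hX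
  let M : ℕ := ∑ V ∈ hD.toFinset, D V
  have hM : ∀ V, D V ≤ M := by
    intro V
    by_cases hV : V ∈ hD.toFinset
    · exact Finset.single_le_sum (f := D) (fun _ _ => Nat.zero_le _) hV
    · have : D V = 0 := by
        by_contra h0
        exact hV (hD.mem_toFinset.2 h0)
      omega
  set g : k := (φ RatFunc.X ^ j - φ RatFunc.X ^ i) ^ M with hg
  have hg0 : g ≠ 0 := by
    refine pow_ne_zero _ ?_
    rw [← map_pow, ← map_pow, ← map_sub, ne_eq, map_eq_zero]
    rw [sub_eq_zero]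
    intro hcon
    have := congrArg RatFunc.intDegree hcon
    rw [intDegree_X_pow, intDegree_X_pow] at this
    omega
  obtain ⟨N, hN⟩ := exists_bound (k := k) g
  refine Set.Finite.of_finite_image (f := fun x => g * x) ?_ (mul_right_injective₀ hg0).injOn
  refine (str_bdd hφ (N + M)).subset ?_
  rintro _ ⟨x, hx, rfl⟩
  refine ⟨fun V hV => ?_, fun V hV => ?_⟩
  · change V.v (g * x) ≤ 1
    have hXV : V.v (φ RatFunc.X) ≤ 1 := (V.mem_iff _).1 hV
    rw [map_mul]
    by_cases hVD : D V = 0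
    · have h1 := hx V
      rw [hVD] at h1
      refine mul_le_one' ?_ (by simpa using h1)
      rw [hg, map_pow]
      refine pow_le_one' ((V.v.map_sub _ _).trans (max_le ?_ ?_)) _
      · rw [map_pow]; exact pow_le_one' hXV _
      · rw [map_pow]; exact pow_le_one' hXV _
    · have h1 := h V (Finset.mem_filter.2 ⟨hD.mem_toFinset.2 hVD, hV⟩)
      calc V.v g * V.v x ≤ exp (-(M : ℤ)) * exp (M : ℤ) := by
            refine mul_le_mul' ?_ ((hx V).trans (by rw [exp_le_exp]; exact_mod_cast hM V))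
            rw [hg, map_pow]
            calc _ ≤ (exp (-1 : ℤ)) ^ M := pow_le_pow_left' (le_exp_neg_one h1) M
              _ = exp (-(M : ℤ)) := by rw [← exp_nsmul]; simp
        _ = 1 := by rw [← exp_add, ← exp_zero]; congr 1; ring
  · change V.v (g * x) ≤ exp ((N + M : ℕ) : ℤ)
    rw [map_mul]
    calc V.v g * V.v x ≤ exp (N : ℤ) * exp (M : ℤ) :=
          mul_le_mul' (hN V) ((hx V).trans (by rw [exp_le_exp]; exact_mod_cast hM V))
      _ = _ := by rw [← exp_add]; push_cast; rfl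

end

end Vale.Agent.P011.H271
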